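import Vale.Agent.P205.Full.Algebra.Jets

/-!
# P205: goodness of a map on the coordinate plane
-/

namespace Vale.Agent.P205.Bridge

open scoped ContDiff
open Function
open Vale.Agent.P205.Algebra

noncomputable section

/-- The criterion holds at `p` in some local chart. -/
def GoodR (f : R2 → V4) (p : R2) : Prop :=
  ∃ (φ : R2 → R2) (q : R2), ContDiff ℝ ∞ φ ∧ φ q = p ∧ Injective (fderiv ℝ φ q) ∧
    detg (f ∘ φ) q ≠ 0 ∧ Wsq (fun _ => 1) (f ∘ φ) q ≠ 0 ∧
    criterion (fun _ => 1) (f ∘ φ) q ≠ 0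

end

end Vale.Agent.P205.Bridge
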