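import Vale.Agent.P205.Correction.Seminorm

/-!
# P205: periodic extension of maps supported in the open unit square
-/

namespace Vale.Agent.P205.Bridge

open scoped ContDiff Topology
open Correction Set Filter

noncomputable section

variable {U : Type*} [NormedAddCommGroup U] [NormedSpace ℝ U]

/-- The open unit square. -/
def sq : Set R2 := Ioo (0 : ℝ) 1 ×ˢ Ioo (0 : ℝ) 1

lemma isOpen_sq : IsOpen sq := isOpen_Ioo.prod isOpen_Ioo

/-- The representative of a point modulo the lattice. -/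
def frac (p : R2) : R2 := (Int.fract p.1, Int.fract p.2)

lemma frac_of_mem {p : R2} (hp : p ∈ sq) : frac p = p := by
  obtain ⟨h1, h2⟩ := hp
  exact Prod.ext (Int.fract_eq_self.2 ⟨h1.1.le, h1.2⟩) (Int.fract_eq_self.2 ⟨h2.1.le, h2.2⟩)

/-- The periodic extension. -/
def per (u : R2 → U) : R2 → U := fun p => u (frac p)

omit [NormedAddCommGroup U] [NormedSpace ℝ U] in
lemma per_periodic (u : R2 → U) : Periodic2 (1, 0) (0, 1) (per u) :=
  ⟨fun p => by simp [per, frac, Int.fract_add_one], fun p => by simp [per, frac, Int.fract_add_one]⟩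

omit [NormedAddCommGroup U] [NormedSpace ℝ U] in
lemma per_of_mem (u : R2 → U) {p : R2} (hp : p ∈ sq) : per u p = u p := by
  rw [per, frac_of_mem hp]

omit [NormedAddCommGroup U] [NormedSpace ℝ U] in
lemma per_eventuallyEq (u : R2 → U) {p : R2} (hp : p ∈ sq) : per u =ᶠ[𝓝 p] u :=
  eventually_of_mem (isOpen_sq.mem_nhds hp) fun _ hq => per_of_mem u hq

/-- Near a point whose representative is on the boundary of the square, the representatives avoid
a given compact subset of the open interval. -/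
lemma eventually_fract_notMem {C : Set ℝ} (hC : IsCompact C) (hC1 : C ⊆ Ioo 0 1) {x : ℝ}
    (hx : Int.fract x = 0) : ∀ᶠ t in 𝓝 x, Int.fract t ∉ C := by
  obtain ⟨n, rfl⟩ := Int.fract_eq_zero_iff.1 hx
  have h0 : ∀ᶠ t : ℝ in 𝓝 (n : ℝ), t - n ∉ C :=
    ((continuous_id.sub continuous_const).continuousAt (f := fun t : ℝ => t - n)).preimage_mem_nhds
      (hC.isClosed.isOpen_compl.mem_nhds (by simpa using fun h => lt_irrefl _ (hC1 h).1))
  have h1 : ∀ᶠ t : ℝ in 𝓝 (n : ℝ), t - n + 1 ∉ C :=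
    (((continuous_id.sub continuous_const).add continuous_const).continuousAt
      (f := fun t : ℝ => t - n + 1)).preimage_mem_nhds
      (hC.isClosed.isOpen_compl.mem_nhds (by simpa using fun h => lt_irrefl _ (hC1 h).2))
  filter_upwards [h0, h1, Ioo_mem_nhds (show (n : ℝ) - 1 < n by linarith)
    (show (n : ℝ) < n + 1 by linarith)] with t a b ht
  rcases le_or_gt (n : ℝ) t with h | h
  · rw [Int.fract, Int.floor_eq_iff.2 ⟨h, ht.2⟩]
    exact a
  · rw [Int.fract, Int.floor_eq_iff.2 (show ((n - 1 : ℤ) : ℝ) ≤ t ∧ t < ((n - 1 : ℤ) : ℝ) + 1 by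
      push_cast; exact ⟨ht.1.le, by linarith⟩)]
    push_cast
    rwa [show t - ((n : ℝ) - 1) = t - n + 1 by ring]

omit [NormedAddCommGroup U] [NormedSpace ℝ U] in
/-- Near a point with representative in the open square the periodic extension is a translate. -/
lemma per_shift (u : R2 → U) {p : R2} (hp : frac p ∈ sq) :
    per u =ᶠ[𝓝 p] fun q => u (q + (frac p - p)) := by
  have e : frac p - p = (((-⌊p.1⌋ : ℤ) : ℝ), ((-⌊p.2⌋ : ℤ) : ℝ)) :=
    Prod.ext (show Int.fract p.1 - p.1 = _ by rw [Int.fract]; push_cast; ring)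
      (show Int.fract p.2 - p.2 = _ by rw [Int.fract]; push_cast; ring)
  have hm : ∀ᶠ q in 𝓝 p, q + (frac p - p) ∈ sq :=
    (continuous_id.add continuous_const).continuousAt.preimage_mem_nhds
      (isOpen_sq.mem_nhds (show p + (frac p - p) ∈ sq by rwa [add_sub_cancel]))
  filter_upwards [hm] with q hq
  refine congrArg u ((?_ : frac q = frac (q + (frac p - p))).trans (frac_of_mem hq))
  rw [e]
  simp only [frac, Prod.fst_add, Prod.snd_add, Int.fract_add_intCast]

variable {u : R2 → U} {K : Set R2}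

omit [NormedSpace ℝ U] in
/-- Near every point the periodic extension is a translate of the map, or vanishes. -/
lemma per_local (hK : IsCompact K) (hKs : K ⊆ sq) (hu : ∀ p ∉ K, u p = 0) (p : R2) :
    (∃ c : R2, p + c ∈ sq ∧ per u =ᶠ[𝓝 p] fun q => u (q + c)) ∨ per u =ᶠ[𝓝 p] 0 := by
  by_cases hp : frac p ∈ sq
  · exact Or.inl ⟨frac p - p, by rwa [add_sub_cancel], per_shift u hp⟩
  · refine Or.inr ?_
    have hp' : Int.fract p.1 = 0 ∨ Int.fract p.2 = 0 := by
      by_contra hc
      push Not at hc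
      exact hp ⟨⟨(Int.fract_nonneg _).lt_of_ne' hc.1, Int.fract_lt_one _⟩,
        ⟨(Int.fract_nonneg _).lt_of_ne' hc.2, Int.fract_lt_one _⟩⟩
    rcases hp' with h | h
    · have := (continuous_fst.continuousAt (x := p)).eventually
        (eventually_fract_notMem (hK.image continuous_fst)
          (by rintro _ ⟨z, hz, rfl⟩; exact (hKs hz).1) h)
      filter_upwards [this] with q hq
      exact hu _ fun hk => hq ⟨frac q, hk, rfl⟩
    · have := (continuous_snd.continuousAt (x := p)).eventually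
        (eventually_fract_notMem (hK.image continuous_snd)
          (by rintro _ ⟨z, hz, rfl⟩; exact (hKs hz).2) h)
      filter_upwards [this] with q hq
      exact hu _ fun hk => hq ⟨frac q, hk, rfl⟩

theorem smooth2_per (hK : IsCompact K) (hKs : K ⊆ sq) (hu : ∀ p ∉ K, u p = 0)
    (hs : ContDiff ℝ ∞ u) : Smooth2 (per u) := by
  refine ⟨contDiff_iff_contDiffAt.2 fun p => ?_, per_periodic u⟩
  rcases per_local hK hKs hu p with ⟨c, -, h⟩ | h
  · exact (hs.comp (contDiff_id.add contDiff_const)).contDiffAt.congr_of_eventuallyEq h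
  · exact contDiffAt_const.congr_of_eventuallyEq h

lemma norm_iteratedFDeriv_per_le (hK : IsCompact K) (hKs : K ⊆ sq) (hu : ∀ p ∉ K, u p = 0) {m : ℕ}
    {C : ℝ} (h : ∀ q ∈ sq, ‖iteratedFDeriv ℝ m u q‖ ≤ C) (p : R2) :
    ‖iteratedFDeriv ℝ m (per u) p‖ ≤ C := by
  rcases per_local hK hKs hu p with ⟨c, hc, he⟩ | he
  · rw [(he.iteratedFDeriv ℝ m).eq_of_nhds, iteratedFDeriv_comp_add_right]
    exact h _ hc
  · have h0 : 0 ≤ C := (norm_nonneg _).trans (h (1 / 2, 1 / 2) ⟨by norm_num, by norm_num⟩)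
    rw [(he.iteratedFDeriv ℝ m).eq_of_nhds]
    simpa using h0

lemma supD_per_le (hK : IsCompact K) (hKs : K ⊆ sq) (hu : ∀ p ∉ K, u p = 0) {m : ℕ}
    {C : ℝ} (h : ∀ q ∈ sq, ‖iteratedFDeriv ℝ m u q‖ ≤ C) : supD m (per u) ≤ C :=
  supD_le (norm_iteratedFDeriv_per_le hK hKs hu h)

end

end Vale.Agent.P205.Bridge
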