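import Vale.Agent.P205.Full.Algebra.Inverse
import Vale.Agent.P205.Full.Bridge.Periodize
import Vale.Agent.P205.Full.Bridge.GoodR

/-!
# P205: what the corrugation of round two has to provide

`ApproxStatement`: in a cell, for every order a family of maps whose error is of that order, whose
criterion is bounded below by a fixed power of `lam⁻¹` near the piece and which is close to the given
good map away from it.
-/

namespace Vale.Agent.P205.Bridge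

open scoped ContDiff Topology
open Correction Set Filter
open Vale.Agent.P205.Algebra

noncomputable section

/-- The error of `F` as an approximation of `f` plus the piece `a² dx²`. -/
def defect (f : R2 → V4) (a : R2 → ℝ) (F : R2 → V4) (p : R2) : Fin 3 → ℝ :=
  metF F p - (metF f p + ![a p ^ 2, 0, 0])

/-- Approximants of every order in a cell. The exponent `q` does not depend on the order. -/
def ApproxStatement : Prop :=
  ∀ (N Ka Kg Kc : Set R2) (a : R2 → ℝ) (f : R2 → V4),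
    IsOpen N → closure N ⊆ sq → IsCompact Ka → IsCompact Kg → IsCompact Kc → tsupport a ⊆ interior Ka →
    Ka ⊆ interior Kg → Kg ⊆ interior Kc → Kc ⊆ N → ContDiff ℝ ∞ a → ContDiff ℝ ∞ f →
    (∀ p ∈ closure N, detg f p ≠ 0) → (∀ p ∈ closure N, Wsq (fun _ => 1) f p ≠ 0) →
    (∀ p ∈ closure N, GoodR f p) →
    ∃ (F : ℕ → ℝ → R2 → V4) (q : ℕ) (B : ℝ),
      (∀ n lam, ContDiff ℝ ∞ (F n lam)) ∧
      (∀ n lam, ∀ p ∈ N, p ∉ Kc → F n lam p = f p) ∧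
      (∀ n i, ∃ (C : ℝ) (e : ℕ), ∀ lam : ℝ, 1 ≤ lam → ∀ p ∈ N,
        ‖iteratedFDeriv ℝ i (F n lam) p‖ ≤ C * lam ^ e) ∧
      (∀ n i, ∃ (C : ℝ) (e : ℕ), ∀ lam : ℝ, 1 ≤ lam → ∀ p ∈ N,
        ‖iteratedFDeriv ℝ i (defect f a (F n lam)) p‖ ≤ C * lam ^ e) ∧
      (∀ i m, ∃ n₀, ∀ n, n₀ ≤ n → ∀ᶠ lam : ℝ in atTop, ∀ p ∈ N,
        ‖iteratedFDeriv ℝ i (defect f a (F n lam)) p‖ * lam ^ m ≤ 1) ∧
      (∀ n, ∀ᶠ lam : ℝ in atTop, ∀ p ∈ N,
        (∀ i ≤ 1, ‖iteratedFDeriv ℝ i (F n lam) p‖ ≤ B) ∧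
        (lam ^ q)⁻¹ ≤ detg (F n lam) p ∧ (lam ^ q)⁻¹ ≤ Wsq (fun _ => 1) (F n lam) p) ∧
      (∀ n, ∀ᶠ lam : ℝ in atTop, ∀ p ∈ Kg, (lam ^ q)⁻¹ ≤ criterion (fun _ => 1) (F n lam) p) ∧
      (∀ n i, 2 ≤ i → ∀ᶠ lam : ℝ in atTop, ∀ p ∈ N,
        ‖iteratedFDeriv ℝ i (F n lam) p‖ ≤ lam ^ (q * (i - 1))) ∧
      ∀ n, ∀ ε : ℝ, 0 < ε → ∀ᶠ lam : ℝ in atTop, ∀ p ∈ N, p ∉ Ka → ∀ i ≤ 9,
        ‖iteratedFDeriv ℝ i (F n lam) p - iteratedFDeriv ℝ i f p‖ ≤ ε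

end

end Vale.Agent.P205.Bridge
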