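import Vale.Agent.P205.Full.Bridge.Cell
import Vale.Agent.P205.Full.Bridge.GoodR
import Vale.Agent.P205.Full.Algebra.Sum

/-!
# P205: cells of good charts

A map which is good on a compact set gives finitely many pieces whose transported criteria have
positive sum there, also for all nearby maps; conversely a nonzero transported criterion gives
goodness.
-/

namespace Vale.Agent.P205.Bridge

open scoped ContDiff Topology
open Correction Set Function Filter Finset
open Vale.Agent.P205.Algebra hiding smooth2_smul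

noncomputable section

section Periodic

variable {U : Type} [NormedAddCommGroup U] [NormedSpace ℝ U]

lemma exists_frac_eq (p : R2) : ∃ n : ℤ × ℤ, frac p = p + ((n.1 : ℝ), (n.2 : ℝ)) :=
  ⟨(-⌊p.1⌋, -⌊p.2⌋), Prod.ext
    (by simp only [frac, Prod.fst_add, Int.fract]; push_cast; ring)
    (by simp only [frac, Prod.snd_add, Int.fract]; push_cast; ring)⟩

lemma apply_frac {u : R2 → U} (hu : Smooth2 u) (p : R2) : u (frac p) = u p := by
  obtain ⟨n, hn⟩ := exists_frac_eq p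
  rw [hn, Piece.periodic_int hu]

lemma isOpen_frac_mem {V : Set R2} (hV : IsOpen V) (hVs : V ⊆ sq) : IsOpen {p | frac p ∈ V} := by
  refine isOpen_iff_mem_nhds.2 fun p (hp : frac p ∈ V) => ?_
  have hm : ∀ᶠ q in 𝓝 p, q + (frac p - p) ∈ V :=
    (continuous_id.add continuous_const).continuousAt.preimage_mem_nhds
      (hV.mem_nhds (show p + (frac p - p) ∈ V by rwa [add_sub_cancel]))
  filter_upwards [hm, per_shift (fun z : R2 => z) (hVs hp)] with q hq hq'
  show frac q ∈ V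
  rw [show frac q = q + (frac p - p) from hq']
  exact hq

lemma isClosed_frac_mem {K : Set R2} (hK : IsCompact K) (hKs : K ⊆ sq) :
    IsClosed {p | frac p ∈ K} := by
  rw [← isOpen_compl_iff, isOpen_iff_mem_nhds]
  intro p (hp : frac p ∉ K)
  by_cases hs : frac p ∈ sq
  · have hm : ∀ᶠ q in 𝓝 p, q + (frac p - p) ∈ Kᶜ :=
      (continuous_id.add continuous_const).continuousAt.preimage_mem_nhds
        (hK.isClosed.isOpen_compl.mem_nhds (show p + (frac p - p) ∈ Kᶜ by rwa [add_sub_cancel]))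
    filter_upwards [hm, per_shift (fun z : R2 => z) hs] with q hq hq'
    show frac q ∉ K
    rw [show frac q = q + (frac p - p) from hq']
    exact hq
  · have hp' : Int.fract p.1 = 0 ∨ Int.fract p.2 = 0 := by
      by_contra hc
      push Not at hc
      exact hs ⟨⟨(Int.fract_nonneg _).lt_of_ne' hc.1, Int.fract_lt_one _⟩,
        ⟨(Int.fract_nonneg _).lt_of_ne' hc.2, Int.fract_lt_one _⟩⟩
    rcases hp' with h | h
    · filter_upwards [(continuous_fst.continuousAt (x := p)).eventually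
        (eventually_fract_notMem (hK.image continuous_fst)
          (by rintro _ ⟨z, hz, rfl⟩; exact (hKs hz).1) h)] with q hq
      exact fun hk => hq ⟨frac q, hk, rfl⟩
    · filter_upwards [(continuous_snd.continuousAt (x := p)).eventually
        (eventually_fract_notMem (hK.image continuous_snd)
          (by rintro _ ⟨z, hz, rfl⟩; exact (hKs hz).2) h)] with q hq
      exact fun hk => hq ⟨frac q, hk, rfl⟩

omit [NormedSpace ℝ U] in
lemma tsupport_per_subset {u : R2 → U} {K : Set R2} (hK : IsCompact K) (hKs : K ⊆ sq)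
    (h0 : ∀ p ∉ K, u p = 0) : tsupport (per u) ⊆ {p | frac p ∈ K} :=
  closure_minimal (fun _ hp => not_not.1 fun h => hp (h0 _ h)) (isClosed_frac_mem hK hKs)

/-- A periodic continuous positive function is bounded below. -/
lemma exists_low {u : R2 → ℝ} (hu : Smooth2 u) (h : ∀ p, 0 < u p) :
    ∃ L : ℝ, 1 ≤ L ∧ ∀ p, L⁻¹ ≤ u p := by
  have hc : IsCompact (Set.Icc (0 : ℝ) 1 ×ˢ Set.Icc (0 : ℝ) 1) := isCompact_Icc.prod isCompact_Icc
  obtain ⟨x, -, hx⟩ := hc.exists_isMinOn ⟨(0, 0), by simp⟩ hu.1.continuous.continuousOn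
  refine ⟨max 1 (u x)⁻¹, le_max_left _ _, fun p => ?_⟩
  have hm : frac p ∈ Set.Icc (0 : ℝ) 1 ×ˢ Set.Icc (0 : ℝ) 1 :=
    ⟨⟨Int.fract_nonneg _, (Int.fract_lt_one _).le⟩, Int.fract_nonneg _, (Int.fract_lt_one _).le⟩
  refine (inv_le_of_inv_le₀ (h x) (le_max_right _ _)).trans ?_
  rw [← apply_frac hu p]
  exact hx hm

end Periodic

section Jets

variable {η : R2 → ℝ} {F : R2 → V4}

lemma criterion_nonneg (η : R2 → ℝ) (F : R2 → V4) (p : R2) : 0 ≤ criterion η F p :=
  add_nonneg (sq_nonneg _) (Finset.sum_nonneg fun _ _ => Finset.sum_nonneg fun _ _ => sq_nonneg _)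

lemma good_self (hη : Smooth2 η) (hη1 : ∀ p, η p ≤ 1) (hF : Smooth2 F)
    (adm : (R2 → V4) → ℝ → Prop) {L : ℝ} (hL : 1 ≤ L) (hadm : adm F L) (N : ℕ) :
    (cellBase (fun j => pn j F) hη hη1 isOpen_empty (fun _ h => h.elim) adm).Good F L L N where
  smooth := hF
  one_le := hL
  le_t := le_rfl
  adm := hadm
  bound j _ := by
    show _ ≤ (|pn j F| + 1) * _
    refine le_trans ?_ (le_mul_of_one_le_right (by positivity)
      (one_le_mul_of_one_le_of_one_le (one_le_pow₀ hL) (one_le_pow₀ hL)))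
    linarith [le_abs_self (pn j F)]

lemma smooth2_detg (hF : Smooth2 F) : Smooth2 (detg F) :=
  (t_detg (B := cellBase (fun j => pn j F) (η := fun _ => 0) (smooth2_const 0)
    (fun _ => zero_le_one) isOpen_empty (fun _ h => h.elim) fun _ _ => True) le_rfl).smooth
    (good_self (smooth2_const 0) (fun _ => zero_le_one) hF _ le_rfl trivial 0)

lemma smooth2_cut {u : R2 → ℝ} (hu : Smooth2 u) (hη : Smooth2 η) :
    Smooth2 fun p => u p + (1 - η p) :=
  hu.add ((smooth2_const (1 : ℝ)).sub hη)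

lemma smooth2_Wsq (hη : Smooth2 η) (hη1 : ∀ p, η p ≤ 1) (hF : Smooth2 F)
    (hd : ∀ p, 0 < detg F p + (1 - η p)) : Smooth2 (Wsq η F) := by
  obtain ⟨L, hL, hl⟩ := exists_low (smooth2_cut (smooth2_detg hF) hη) hd
  exact (t_Wsq (B := cellBase (fun j => pn j F) hη hη1 isOpen_empty (fun _ h => h.elim)
    fun F M => ∀ p, M⁻¹ ≤ detg F p + (1 - η p)) le_rfl fun hF p => hF.adm p).smooth
    (good_self hη hη1 hF (fun F M => ∀ p, M⁻¹ ≤ detg F p + (1 - η p)) hL hl 0)

/-- Positive denominators have a common lower bound. -/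
lemma exists_adm (hη : Smooth2 η) (hη1 : ∀ p, η p ≤ 1) (hF : Smooth2 F)
    (hd : ∀ p, 0 < detg F p + (1 - η p)) (hW : ∀ p, 0 < Wsq η F p + (1 - η p)) :
    ∃ L : ℝ, 1 ≤ L ∧ (∀ p, L⁻¹ ≤ detg F p + (1 - η p)) ∧ ∀ p, L⁻¹ ≤ Wsq η F p + (1 - η p) := by
  obtain ⟨L, hL, hl⟩ := exists_low (smooth2_cut (smooth2_detg hF) hη) hd
  obtain ⟨L', hL', hl'⟩ := exists_low (smooth2_cut (smooth2_Wsq hη hη1 hF hd) hη) hW
  exact ⟨max L L', hL.trans (le_max_left _ _),
    fun p => (inv_anti₀ (by linarith) (le_max_left _ _)).trans (hl p),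
    fun p => (inv_anti₀ (by linarith) (le_max_right _ _)).trans (hl' p)⟩

lemma smooth2_criterion (hη : Smooth2 η) (hη1 : ∀ p, η p ≤ 1) (hF : Smooth2 F)
    (hd : ∀ p, 0 < detg F p + (1 - η p)) (hW : ∀ p, 0 < Wsq η F p + (1 - η p)) :
    Smooth2 (criterion η F) := by
  obtain ⟨L, hL, h⟩ := exists_adm hη hη1 hF hd hW
  exact (t_criterion (B := cellBase (fun j => pn j F) hη hη1 isOpen_empty (fun _ h => h.elim)
    fun F M => (∀ p, M⁻¹ ≤ detg F p + (1 - η p)) ∧ ∀ p, M⁻¹ ≤ Wsq η F p + (1 - η p)) le_rfl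
    (fun hF p => hF.adm.1 p) fun hF p => hF.adm.2 p).smooth
    (good_self hη hη1 hF (fun F M => (∀ p, M⁻¹ ≤ detg F p + (1 - η p)) ∧
      ∀ p, M⁻¹ ≤ Wsq η F p + (1 - η p)) hL h 0)

end Jets

/-- The periodic map of a local map of the square. -/
def perMap (u : R2 → R2) {V : Set R2} (hV : IsOpen V) (hVs : V ⊆ sq) (hu : ContDiffOn ℝ ∞ u V) :
    LocMap where
  map := per u
  dom := {p | frac p ∈ V}
  isOpen_dom := isOpen_frac_mem hV hVs
  smooth p hp := by
    have h1 : ContDiffAt ℝ ∞ u (p + (frac p - p)) := by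
      rw [add_sub_cancel]; exact hu.contDiffAt (hV.mem_nhds hp)
    exact ((h1.comp p (contDiffAt_id.add contDiffAt_const)).congr_of_eventuallyEq
      (per_shift u (hVs hp))).contDiffWithinAt
  periodic := per_periodic u

/-- One piece at a good point. -/
lemma exists_piece {f : R2 → V4} (hf : Smooth2 f) {W : Set R2} (hW : IsOpen W) (hWs : W ⊆ sq)
    {p0 : R2} (hp0 : p0 ∈ W) (hg : GoodR f p0) :
    ∃ P : Piece, (∀ p, 0 ≤ P.χ p ∧ P.χ p ≤ 1) ∧ (∃ L : ℝ, 1 ≤ L ∧ P.Adm f L) ∧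
      0 < P.mult f p0 ∧ ∃ C : ℝ, 0 ≤ C ∧ ∀ u : R2 → V4, Smooth2 u → ∀ ε : ℝ,
        (∀ p ∈ W, ∀ i ≤ 9, ‖iteratedFDeriv ℝ i u p‖ ≤ ε) → pn 9 (P.G u) ≤ C * ε := by
  obtain ⟨φ, q0, hφ, hφq, hinj, h1, h2, h3⟩ := hg
  set ctr : R2 := (1 / 2, 1 / 2) with hctr
  have hcs : ctr ∈ sq := by rw [hctr]; exact ⟨⟨by norm_num, by norm_num⟩, by norm_num, by norm_num⟩
  obtain ⟨ψ, hψdef⟩ : ∃ ψ : R2 → R2, ψ = fun q => φ (q + (q0 - ctr)) := ⟨_, rfl⟩
  have hψ : ContDiff ℝ ∞ ψ := hψdef ▸ hφ.comp (contDiff_id.add contDiff_const)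
  have hψc : ψ ctr = p0 := by rw [hψdef]; simp [hφq]
  have hψi : Injective (fderiv ℝ ψ ctr) := by
    rw [hψdef, fderiv_comp_add_right, add_sub_cancel]; exact hinj
  have equiv : ∀ q, Injective (fderiv ℝ ψ q) →
      ∃ e : R2 ≃L[ℝ] R2, HasFDerivAt ψ (e : R2 →L[ℝ] R2) q := fun q h => by
    have hbij : Bijective (fderiv ℝ ψ q) :=
      ⟨h, (LinearMap.injective_iff_surjective_of_finrank_eq_finrank rfl).1 h⟩
    exact ⟨ContinuousLinearEquiv.ofBijective (fderiv ℝ ψ q) (LinearMap.ker_eq_bot.2 hbij.1)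
      (LinearMap.range_eq_top.2 hbij.2), (hψ.differentiable (by simp) q).hasFDerivAt⟩
  obtain ⟨e₀, he₀⟩ := equiv ctr hψi
  set E := (hψ.contDiffAt (x := ctr)).toOpenPartialHomeomorph ψ he₀ (by simp) with hE
  have hEc : (E : R2 → R2) = ψ := rfl
  set V0 := E.source ∩ (sq ∩ (ψ ⁻¹' W ∩ {q | Injective (fderiv ℝ ψ q)})) with hV0
  have oV0 : IsOpen V0 := E.open_source.inter (isOpen_sq.inter ((hW.preimage hψ.continuous).inter
    (ContinuousLinearMap.isOpen_injective.preimage (hψ.continuous_fderiv (by simp)))))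
  have cV0 : ctr ∈ V0 := ⟨(hψ.contDiffAt (x := ctr)).mem_toOpenPartialHomeomorph_source he₀ (by simp),
    hcs, by show ψ ctr ∈ W; rwa [hψc], hψi⟩
  have V0s : V0 ⊆ sq := fun q hq => hq.2.1
  have oU : ∀ V, IsOpen V → V ⊆ V0 → IsOpen (ψ '' V) := fun V hV hs =>
    hEc ▸ E.isOpen_image_of_subset_source hV (hs.trans inter_subset_left)
  have left : ∀ q ∈ V0, E.symm (ψ q) = q := fun q hq => E.left_inv hq.1
  set U0 := ψ '' V0
  have U0s : U0 ⊆ sq := by rintro _ ⟨q, hq, rfl⟩; exact hWs hq.2.2.1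
  have hsymm : ContDiffOn ℝ ∞ E.symm U0 := by
    rintro _ ⟨q, hq, rfl⟩
    obtain ⟨e, he⟩ := equiv q hq.2.2.2
    refine (E.contDiffAt_symm (f₀' := e) (E.map_source hq.1) ?_ ?_).contDiffWithinAt
    · rw [hEc, left q hq]; exact he
    · rw [hEc]; exact hψ.contDiffAt
  set fwd := perMap ψ isOpen_sq subset_rfl hψ.contDiffOn
  set back := perMap E.symm (oU V0 oV0 subset_rfl) U0s hsymm
  -- the cut of the second cell
  obtain ⟨w, Kw, cKw, Kw0, -, dw, -, w1, wz⟩ :=
    exists_bump (isCompact_singleton (x := ctr)) oV0 (singleton_subset_iff.2 cV0)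
  have Kws := Kw0.trans V0s
  have sw : Smooth2 (per w) := smooth2_per cKw Kws wz dw
  have hwdom : tsupport (per w) ⊆ fwd.dom := fun q hq => Kws (tsupport_per_subset cKw Kws wz hq)
  set G0 := pullS (per w) fwd.map f with hG0
  have sG0 : Smooth2 G0 := smooth2_pullS fwd sw hwdom hf
  set V1 := {q | w =ᶠ[𝓝 q] fun _ => 1} ∩ V0
  have oV1 : IsOpen V1 := isOpen_setOfPred_eventually_nhds.inter oV0
  have cV1 : ctr ∈ V1 := ⟨w1 ctr rfl, cV0⟩
  have germ : ∀ q ∈ V1, Sh 0 q G0 (f ∘ ψ) := fun q hq => by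
    filter_upwards [hq.1, per_eventuallyEq w (V0s hq.2), per_eventuallyEq ψ (V0s hq.2)]
      with z e1 e2 e3
    simp [hG0, pullS, e2, e1, fwd, perMap, e3]
  have germ0 : Sh (q0 - ctr) ctr G0 (f ∘ φ) := by
    filter_upwards [germ ctr cV1] with z hz
    simp [hz, hψdef]
  have dG : Smooth2 (detg G0) := smooth2_detg sG0
  set V2 := V1 ∩ {q | detg G0 q ≠ 0}
  have oV2 : IsOpen V2 := oV1.inter (isOpen_ne.preimage dG.1.continuous)
  have cV2 : ctr ∈ V2 := ⟨cV1, by
    show detg G0 ctr ≠ 0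
    rw [(detg_congr germ0).eq_of_nhds, add_sub_cancel]; exact h1⟩
  have dpos : ∀ (η : R2 → ℝ) (K : Set R2), K ⊆ V2 → (∀ z, 0 ≤ η z ∧ η z ≤ 1) →
      (∀ z ∉ K, η z = 0) → ∀ p, 0 < detg G0 p + (1 - per η p) := fun η K hK hm hz p => by
    by_cases h : frac p ∈ K
    · have h' : detg G0 p ≠ 0 := apply_frac dG p ▸ (hK h).2
      have := (hm (frac p)).2
      show 0 < _ + (1 - η (frac p))
      linarith [(detg_nonneg G0 p).lt_of_ne' h']
    · show 0 < _ + (1 - η (frac p))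
      rw [hz _ h]; linarith [detg_nonneg G0 p]
  obtain ⟨η1, K1, cK1, K1s, -, dη1, m1, o1, z1⟩ :=
    exists_bump (isCompact_singleton (x := ctr)) oV2 (singleton_subset_iff.2 cV2)
  have K1q : K1 ⊆ sq := fun q hq => V0s (K1s hq).1.2
  have sη1 : Smooth2 (per η1) := smooth2_per cK1 K1q z1 dη1
  have sW1 : Smooth2 (Wsq (per η1) G0) :=
    smooth2_Wsq sη1 (fun q => (m1 _).2) sG0 (dpos η1 K1 K1s m1 z1)
  set V3 := V2 ∩ ({q | η1 =ᶠ[𝓝 q] fun _ => 1} ∩ {q | Wsq (per η1) G0 q ≠ 0})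
  have oV3 : IsOpen V3 :=
    oV2.inter (isOpen_setOfPred_eventually_nhds.inter (isOpen_ne.preimage sW1.1.continuous))
  have eta_germ : ∀ {η : R2 → ℝ} {q c : R2}, q ∈ sq → η =ᶠ[𝓝 q] (fun _ => 1) →
      Sh c q (per η) fun _ => 1 := fun hq h => by
    filter_upwards [per_eventuallyEq _ hq, h] with z e1 e2
    rw [e1, e2]
  have cV3 : ctr ∈ V3 := ⟨cV2, o1 ctr rfl, by
    show Wsq (per η1) G0 ctr ≠ 0
    rw [(Wsq_congr (η' := fun _ => 1) (eta_germ hcs (o1 ctr rfl)) germ0).eq_of_nhds,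
      add_sub_cancel]
    exact h2⟩
  obtain ⟨η, Kη, cKη, Kηs, -, dη, mη, oη, zη⟩ :=
    exists_bump (isCompact_singleton (x := ctr)) oV3 (singleton_subset_iff.2 cV3)
  have Kηq : Kη ⊆ sq := fun q hq => V0s (Kηs hq).1.1.2
  have sη : Smooth2 (per η) := smooth2_per cKη Kηq zη dη
  have hd : ∀ p, 0 < detg G0 p + (1 - per η p) := dpos η Kη (fun q hq => (Kηs hq).1) mη zη
  have sWη : Smooth2 (Wsq (per η) G0) := smooth2_Wsq sη (fun q => (mη _).2) sG0 hd
  have hWp : ∀ p, 0 < Wsq (per η) G0 p + (1 - per η p) := fun p => by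
    have h0 : 0 ≤ Wsq (per η) G0 p := real_inner_self_nonneg
    by_cases h : frac p ∈ Kη
    · obtain ⟨hV2, he, hne⟩ := Kηs h
      have hdx : 0 < detg G0 (frac p) := (detg_nonneg _ _).lt_of_ne' hV2.2
      have e1 : Wsq (per η1) G0 (frac p) = Wsq (fun _ => 1) G0 (frac p) := by
        simpa using (Wsq_congr (c := 0) (η' := fun _ => 1) (F' := G0)
          (eta_germ (Kηq h) he) (Filter.Eventually.of_forall fun z => by simp)).eq_of_nhds
      have h5 : 0 < Wsq (per η1) G0 (frac p) :=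
        (real_inner_self_nonneg (x := n0 (per η1) G0 (frac p))).lt_of_ne' hne
      have h6 : 0 < Wsq (per η) G0 p := by
        rw [← apply_frac sWη p]
        linarith [Wsq_le (η := per η) G0 hdx]
      have := (mη (frac p)).2
      show 0 < _ + (1 - η (frac p))
      linarith
    · show 0 < _ + (1 - η (frac p))
      rw [zη _ h]; linarith
  have sC : Smooth2 (criterion (per η) G0) := smooth2_criterion sη (fun q => (mη _).2) sG0 hd hWp
  set V4' := V3 ∩ ({q | η =ᶠ[𝓝 q] fun _ => 1} ∩ {q | criterion (per η) G0 q ≠ 0})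
  have oV4 : IsOpen V4' :=
    oV3.inter (isOpen_setOfPred_eventually_nhds.inter (isOpen_ne.preimage sC.1.continuous))
  have cV4 : ctr ∈ V4' := ⟨cV3, oη ctr rfl, by
    show criterion (per η) G0 ctr ≠ 0
    rw [(criterion_congr (η' := fun _ => 1) (eta_germ hcs (oη ctr rfl)) germ0).eq_of_nhds,
      add_sub_cancel]
    exact h3⟩
  have V4s : V4' ⊆ V0 := fun q hq => hq.1.1.1.2
  obtain ⟨χ, Kχ, cKχ, Kχs, -, dχ, mχ, oχ, zχ⟩ := exists_bump (isCompact_singleton (x := p0))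
    (oU V4' oV4 V4s) (singleton_subset_iff.2 ⟨ctr, cV4, hψc⟩)
  have Kχ0 : Kχ ⊆ U0 := Kχs.trans (image_mono V4s)
  obtain ⟨w', Kw', cKw', Kw's, -, dw', -, ow', zw'⟩ :=
    exists_bump cKχ (oU V0 oV0 subset_rfl) Kχ0
  have Kw'q := Kw's.trans U0s
  have hback : tsupport (per w') ⊆ back.dom := fun q hq =>
    Kw's (tsupport_per_subset cKw' Kw'q zw' hq)
  let P : Piece :=
    { fwd := fwd
      back := back
      w := per w
      w' := per w'
      χ := per χ
      η := per η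
      O := interior {q | per η q = 1}
      isOpen_O := isOpen_interior
      η_smooth := sη
      η_eq := fun q hq => (interior_subset hq : q ∈ {q | per η q = 1})
      η_le := fun q => (mη _).2
      w_smooth := sw
      w_dom := hwdom
      w'_smooth := smooth2_per cKw' Kw'q zw' dw'
      w'_dom := hback
      χ_smooth := smooth2_per cKχ (Kχ0.trans U0s) zχ dχ
      inverse := fun p hp => by
        have hU : frac p ∈ U0 := hback hp
        obtain ⟨n, hn⟩ := exists_frac_eq p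
        have en : frac p - p = ((n.1 : ℝ), (n.2 : ℝ)) := by rw [hn, add_sub_cancel_left]
        refine ⟨n, ?_⟩
        have hm : ∀ᶠ q in 𝓝 p, q + (frac p - p) ∈ U0 :=
          (continuous_id.add continuous_const).continuousAt.preimage_mem_nhds
            ((oU V0 oV0 subset_rfl).mem_nhds (show p + (frac p - p) ∈ U0 by rwa [add_sub_cancel]))
        filter_upwards [hm, per_shift E.symm (U0s hU)] with q hq hq'
        obtain ⟨x, hx, hxe⟩ := hq
        show per ψ (per E.symm q) = _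
        rw [hq', ← en, ← hxe, left x hx, per_of_mem _ (V0s hx)]
      core := fun p hp => by
        have hK : frac p ∈ Kχ := tsupport_per_subset cKχ (Kχ0.trans U0s) zχ hp
        obtain ⟨x, hx, hxe⟩ := Kχs hK
        have hb : back.map p = x := by
          show E.symm (frac p) = x
          rw [← hxe, left x (V4s hx)]
        have hxs : x ∈ sq := V0s (V4s hx)
        rw [hb]
        refine ⟨?_, ?_, ?_, ?_⟩
        · exact (per_germ (U0s (Kχ0 hK)) (ow' _ hK)).mono fun q hq => hq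
        · exact (per_eventuallyEq w hxs).trans hx.1.1.1.1
        · rw [mem_interior_iff_mem_nhds]
          exact (per_eventuallyEq η hxs).trans hx.2.1
        · show frac x ∈ sq
          rwa [frac_of_mem hxs] }
  have hGf : P.G f = G0 := rfl
  refine ⟨P, fun p => mχ _, ?_, ?_, ?_⟩
  · obtain ⟨L, hL, h⟩ := exists_adm sη (fun q => (mη _).2) sG0 hd hWp
    exact ⟨L, hL, h⟩
  · have hb : back.map p0 = ctr := by
      show E.symm (frac p0) = ctr
      rw [frac_of_mem (hWs hp0), ← hψc, left ctr cV0]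
    show 0 < per χ p0 • criterion (per η) G0 (back.map p0)
    rw [hb, per_of_mem χ (hWs hp0), (oχ p0 rfl).eq_of_nhds, one_smul]
    exact (criterion_nonneg _ _ _).lt_of_ne' cV4.2.2
  · obtain ⟨ζ, Kζ, cKζ, Kζs, -, dζ, -, oζ, zζ⟩ := exists_bump (cKw.image hψ.continuous) hW
      (by rintro _ ⟨q, hq, rfl⟩; exact (Kw0 hq).2.2.1)
    obtain ⟨B, hB⟩ := exists_deriv_bound dζ cKζ zζ
    obtain ⟨Cg, hCg, hbg⟩ := P.exists_bound
    have hB0 : ∀ j, 0 ≤ B j := fun j => (norm_nonneg _).trans (hB j 0)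
    refine ⟨Cg 9 * ∑ m ∈ range (9 + 1), ∑ j ∈ range (m + 1), (m.choose j : ℝ) * B j,
      mul_nonneg (hCg 9) (Finset.sum_nonneg fun m _ => Finset.sum_nonneg fun j _ =>
        mul_nonneg (Nat.cast_nonneg _) (hB0 j)), fun u hu ε hε => ?_⟩
    have hu0 : ∀ z ∉ Kζ, ζ z • u z = 0 := fun z hz => by simp [zζ z hz]
    have hε0 : 0 ≤ ε := (norm_nonneg _).trans (hε p0 hp0 0 (Nat.zero_le _))
    set u' := per fun z => ζ z • u z with hu'
    have su' : Smooth2 u' := smooth2_per cKζ (Kζs.trans hWs) hu0 (dζ.smul hu.1)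
    have e : P.G u = P.G u' := funext fun q => by
      show per w q • u (per ψ q) = per w q • u' (per ψ q)
      by_cases hq : frac q ∈ Kw
      · have hi : ψ (frac q) ∈ ψ '' Kw := mem_image_of_mem ψ hq
        rw [hu', show per (fun z => ζ z • u z) (per ψ q) = ζ (ψ (frac q)) • u (ψ (frac q)) from
          per_of_mem _ (hWs (Kw0 hq).2.2.1), (oζ _ hi).eq_of_nhds, one_smul]
        rfl
      · simp [per, wz _ hq]
    rw [e, mul_assoc]
    refine (hbg 9 su').trans (mul_le_mul_of_nonneg_left ?_ (hCg 9))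
    rw [Finset.sum_mul]
    refine pn_le_of_supD fun m hm => supD_per_le cKζ (Kζs.trans hWs) hu0 fun z _ => ?_
    rw [Finset.sum_mul]
    exact norm_iteratedFDeriv_cut_le dζ hu.1 cKζ.isClosed zζ hB m (D := fun _ => ε)
      (fun _ => hε0) (fun j hj y hy => hε y (Kζs hy) j (by omega)) z


/-- The value of a piece is nonnegative. -/
lemma mult_nonneg {P : Piece} (hχ : ∀ p, 0 ≤ P.χ p) (F : R2 → V4) (p : R2) : 0 ≤ P.mult F p :=
  mul_nonneg (hχ p) (criterion_nonneg _ _ _)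

lemma adm_mono {P : Piece} {F : R2 → V4} {L L' : ℝ} (hL : 0 < L) (h : L ≤ L') (hA : P.Adm F L) :
    P.Adm F L' :=
  ⟨fun q => (inv_anti₀ hL h).trans (hA.1 q), fun q => (inv_anti₀ hL h).trans (hA.2 q)⟩

lemma smooth2_G (P : Piece) {F : R2 → V4} (hF : Smooth2 F) : Smooth2 (P.G F) :=
  smooth2_pullS P.fwd P.w_smooth P.w_dom hF

lemma smooth2_mult {P : Piece} {F : R2 → V4} (hF : Smooth2 F) {L : ℝ} (hL : 1 ≤ L)
    (hA : P.Adm F L) : Smooth2 (P.mult F) := by
  have h0 : 0 < L⁻¹ := inv_pos.2 (by linarith)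
  exact smooth2_pullS P.back P.χ_smooth P.χ_dom (smooth2_criterion P.η_smooth P.η_le
    (smooth2_G P hF) (fun q => h0.trans_le (hA.1 q)) fun q => h0.trans_le (hA.2 q))

/-- Lower bounds of a piece survive small changes of the transported map. -/
lemma piece_stable {P : Piece} (hχ : ∀ p, 0 ≤ P.χ p ∧ P.χ p ≤ 1) {f : R2 → V4} (hf : Smooth2 f)
    {L0 : ℝ} (hL0 : 1 ≤ L0) (hA : P.Adm f L0) {δ : ℝ} (hδ : 0 < δ) :
    ∃ ρ : ℝ, 0 < ρ ∧ ∃ L1 : ℝ, 1 ≤ L1 ∧ ∀ F : R2 → V4, Smooth2 F →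
      pn 9 (fun q => P.G F q - P.G f q) ≤ ρ →
      P.Adm F L1 ∧ ∀ p, P.mult f p - δ ≤ P.mult F p := by
  set G := P.G f
  have sG : Smooth2 G := smooth2_G P hf
  set K : ℕ → ℝ := fun j => pn j G
  set B := cellBase K P.η_smooth P.η_le P.isOpen_O P.η_eq
  set A1 : (R2 → V4) → ℝ → Prop := fun F M => ∀ q, M⁻¹ ≤ detg F q + (1 - P.η q)
  set A2 : (R2 → V4) → ℝ → Prop := fun F M => A1 F M ∧ ∀ q, M⁻¹ ≤ Wsq P.η F q + (1 - P.η q)
  obtain ⟨q1, C1, hC1, st1⟩ := lower_step K P.η_smooth P.η_le P.isOpen_O P.η_eq (fun _ _ => True)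
    (t_reg (t_detg (B := B fun _ _ => True) le_rfl)) (by norm_num)
  obtain ⟨q2, C2, hC2, st2⟩ := lower_step K P.η_smooth P.η_le P.isOpen_O P.η_eq A1
    (t_reg (t_Wsq (B := B A1) le_rfl fun hF p => hF.adm p)) (by norm_num)
  obtain ⟨e, C3, hC3, st3⟩ := stable (t_criterion (B := B A2) le_rfl (fun hF p => hF.adm.1 p)
    fun hF p => hF.adm.2 p) (show (8 : ℕ) ≤ 9 by norm_num)
  obtain ⟨L, hLd⟩ : ∃ L, L = max L0 (2 + (C1 + C2)) := ⟨_, rfl⟩
  have hL : 2 + (C1 + C2) ≤ L := hLd ▸ le_max_right _ _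
  have hM1 : (1 : ℝ) ≤ L ^ 2 := one_le_pow₀ (by linarith)
  have hML : L ≤ L ^ 2 := le_self_pow₀ (by linarith) (by norm_num)
  have hA2 : P.Adm f L := adm_mono (by linarith) (hLd ▸ le_max_left _ _) hA
  have hA3 : P.Adm f (L ^ 2) := adm_mono (by linarith) hML hA2
  have hK : ∀ i, pn i G ≤ K i * L ^ i := fun i =>
    le_mul_of_one_le_right (pn_nonneg i G) (one_le_pow₀ (by linarith))
  refine ⟨min ((L ^ 2) ^ (q1 + q2))⁻¹ (δ / (C3 * (L ^ 2) ^ e + 1)),
    lt_min (by positivity) (by positivity), L ^ 2, hM1, fun F hF hx => ?_⟩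
  set x : R2 → V4 := fun q => P.G F q - G q
  have sx : Smooth2 x := (smooth2_G P hF).sub sG
  have hGF : (fun q => G q + x q) = P.G F := funext fun q => add_sub_cancel _ _
  have hx9 : pn 9 x ≤ ((L ^ 2) ^ (q1 + q2))⁻¹ := hx.trans (min_le_left _ _)
  have a1 : A1 (fun q => G q + x q) (L ^ 2) := fun q =>
    st1 _ L G x (by omega) (by linarith) sG sx hK hx9 trivial trivial q (hA2.1 q)
  have a2 : A2 (fun q => G q + x q) (L ^ 2) := ⟨a1, fun q =>
    st2 _ L G x (by omega) (by linarith) sG sx hK hx9 hA3.1 a1 q (hA2.2 q)⟩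
  have g0 : (B A2).Good G (L ^ 2) (L ^ 2) 9 := by
    have h := good_cell K P.η_smooth P.η_le P.isOpen_O P.η_eq A2 (show 2 ≤ L by linarith) sG hK
      (x := fun _ => 0) (t := L ^ 2) (N := 9) Smooth2.zero le_rfl (fun j _ => ?_)
      (by simp only [add_zero]; exact hA3)
    · simpa using h
    · refine (pn_const_le (0 : V4) j).trans ?_
      rw [norm_zero, mul_zero]
      positivity
  have g1 : (B A2).Good (fun q => G q + x q) (L ^ 2) (L ^ 2) 9 := by
    refine good_cell K P.η_smooth P.η_le P.isOpen_O P.η_eq A2 (show 2 ≤ L by linarith) sG hK sx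
      le_rfl (fun j hj => ?_) a2
    rw [Nat.sub_eq_zero_of_le hj, pow_zero]
    exact ((pn_mono hj x).trans hx9).trans (inv_le_one_of_one_le₀ (one_le_pow₀ hM1))
  rw [hGF] at a2
  refine ⟨a2, fun p => ?_⟩
  have h := st3 g1 g0 (P.back.map p)
  have hxd : C3 * ((L ^ 2) ^ e * pn 9 (fun q => G q + x q - G q)) ≤ δ := by
    rw [show (fun q => G q + x q - G q) = x from funext fun q => add_sub_cancel_left _ _,
      ← mul_assoc]
    refine (mul_le_mul_of_nonneg_left (hx.trans (min_le_right _ _)) (by positivity)).trans ?_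
    rw [mul_div_assoc', div_le_iff₀ (by positivity)]
    linarith
  have h' : criterion P.η G (P.back.map p) - δ ≤ criterion P.η (P.G F) (P.back.map p) := by
    rw [← hGF]; exact le_trans (sub_le_sub_left hxd _) h
  obtain ⟨c0, c1⟩ := hχ p
  show P.χ p * criterion P.η G (P.back.map p) - δ
    ≤ P.χ p * criterion P.η (P.G F) (P.back.map p)
  have t1 := mul_le_mul_of_nonneg_left h' c0
  have t2 : P.χ p * δ ≤ δ := mul_le_of_le_one_left hδ.le c1
  rw [mul_sub] at t1
  linarith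

/-- Finitely many pieces for a compact set of good points, stable under small changes. -/
theorem exists_pieces {f : R2 → V4} (hf : Smooth2 f) {W S : Set R2} (hW : IsOpen W) (hWs : W ⊆ sq)
    (hS : IsCompact S) (hSW : S ⊆ W) (hgood : ∀ p ∈ S, GoodR f p) :
    ∃ (n : ℕ) (P : Fin n → Piece), (∀ i F p, 0 ≤ (P i).mult F p) ∧
      ∃ ε : ℝ, 0 < ε ∧ ∀ F : R2 → V4, Smooth2 F →
        (∀ p ∈ W, ∀ i ≤ 9, ‖iteratedFDeriv ℝ i F p - iteratedFDeriv ℝ i f p‖ ≤ ε) →
        (∀ L : ℝ, ε⁻¹ ≤ L → ∀ i, (P i).Adm F L) ∧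
          ∀ p, frac p ∈ S → ε ≤ ∑ i, (P i).mult F p := by
  classical
  choose P hχ hAdm hpos C hC hb using fun p : S => exists_piece hf hW hWs (hSW p.2) (hgood p p.2)
  choose L hL hA using hAdm
  have sm : ∀ p : S, Smooth2 ((P p).mult f) := fun p => smooth2_mult hf (hL p) (hA p)
  obtain ⟨t, ht⟩ := hS.elim_finite_subcover (fun p : S => {q | 0 < (P p).mult f q})
    (fun p => isOpen_lt continuous_const (sm p).1.continuous)
    fun q hq => mem_iUnion.2 ⟨⟨q, hq⟩, hpos ⟨q, hq⟩⟩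
  let idx : Fin t.card → S := fun i => (t.equivFin.symm i : S)
  have hnn : ∀ i F p, 0 ≤ (P (idx i)).mult F p :=
    fun i => mult_nonneg fun p => (hχ (idx i) p).1
  refine ⟨t.card, fun i => P (idx i), hnn, ?_⟩
  have hsum : ∀ q ∈ S, 0 < ∑ i, (P (idx i)).mult f q := fun q hq => by
    obtain ⟨p, hpt, hp⟩ := mem_iUnion₂.1 (ht hq)
    refine Finset.sum_pos' (fun i _ => hnn i f q) ⟨t.equivFin ⟨p, hpt⟩, Finset.mem_univ _, ?_⟩
    simp only [idx, Equiv.symm_apply_apply]
    exact hp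
  obtain ⟨δ, hδ, hδS⟩ : ∃ δ : ℝ, 0 < δ ∧ ∀ q ∈ S, δ ≤ ∑ i, (P (idx i)).mult f q := by
    rcases S.eq_empty_or_nonempty with rfl | hne
    · exact ⟨1, one_pos, fun q hq => hq.elim⟩
    · obtain ⟨x, hxS, hx⟩ := hS.exists_isMinOn hne
        (continuous_finsetSum _ fun i _ => (sm (idx i)).1.continuous).continuousOn
      exact ⟨_, hsum x hxS, fun q hq => hx hq⟩
  set d := δ / (2 * (t.card + 1)) with hd
  have hd0 : 0 < d := by positivity
  choose ρ hρ L1 hL1 hst using fun i => piece_stable (hχ (idx i)) hf (hL (idx i)) (hA (idx i)) hd0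
  set T := 1 + ∑ i, L1 i + 2 / δ + ∑ i, (C (idx i) + 1) / ρ i
  have hT1 : 0 ≤ ∑ i, L1 i := Finset.sum_nonneg fun i _ => zero_le_one.trans (hL1 i)
  have hT2 : ∀ i, 0 ≤ (C (idx i) + 1) / ρ i := fun i => by
    have := hC (idx i); have := hρ i; positivity
  have hT3 : 0 ≤ ∑ i, (C (idx i) + 1) / ρ i := Finset.sum_nonneg fun i _ => hT2 i
  have hT4 : 0 < 2 / δ := by positivity
  have hT : 0 < T := by linarith
  refine ⟨T⁻¹, inv_pos.2 hT, fun F hF hFf => ?_⟩
  have hi : ∀ i, (P (idx i)).Adm F (L1 i) ∧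
      ∀ p, (P (idx i)).mult f p - d ≤ (P (idx i)).mult F p := fun i => by
    refine hst i F hF ?_
    rw [show (fun q => (P (idx i)).G F q - (P (idx i)).G f q)
      = (P (idx i)).G fun q => F q - f q from funext fun q => (smul_sub _ _ _).symm]
    refine (hb (idx i) _ (hF.sub hf) T⁻¹ fun p hp j hj => ?_).trans ?_
    · rw [show (fun q => F q - f q) = F - f from rfl,
        iteratedFDeriv_sub_apply (hF.1.contDiffAt.of_le (by exact_mod_cast le_top))
          (hf.1.contDiffAt.of_le (by exact_mod_cast le_top))]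
      exact hFf p hp j hj
    · have h1 : (C (idx i) + 1) / ρ i ≤ T := by
        linarith [Finset.single_le_sum (fun j _ => hT2 j) (Finset.mem_univ i)]
      rw [div_le_iff₀ (hρ i)] at h1
      rw [mul_inv_le_iff₀ hT]
      linarith
  refine ⟨fun L hLT i => adm_mono (zero_lt_one.trans_le (hL1 i)) ?_ (hi i).1, fun p hp => ?_⟩
  · rw [inv_inv] at hLT
    linarith [Finset.single_le_sum (fun j _ => zero_le_one.trans (hL1 j)) (Finset.mem_univ i)]
  · have e : ∀ i, (P (idx i)).mult f p = (P (idx i)).mult f (frac p) := fun i =>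
      (apply_frac (sm (idx i)) p).symm
    have h1 : ∑ i, (P (idx i)).mult f (frac p) - t.card * d ≤ ∑ i, (P (idx i)).mult F p := by
      have : ∑ i, ((P (idx i)).mult f (frac p) - d) ≤ ∑ i, (P (idx i)).mult F p :=
        Finset.sum_le_sum fun i _ => e i ▸ (hi i).2 p
      rw [Finset.sum_sub_distrib, Finset.sum_const, Finset.card_univ, Fintype.card_fin,
        nsmul_eq_mul] at this
      exact this
    have h2 : (t.card : ℝ) * d ≤ δ / 2 := by
      rw [hd, mul_div_assoc', div_le_div_iff₀ (by positivity) two_pos]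
      linarith
    have h3 : T⁻¹ ≤ δ / 2 := by
      rw [← inv_div]; exact inv_anti₀ (by positivity) (by linarith)
    linarith [hδS _ hp]

lemma sh_zero {Y : Type*} {u u' : R2 → Y} {p : R2} (h : u =ᶠ[𝓝 p] u') : Sh 0 p u u' :=
  h.mono fun q hq => by simp [hq]

/-- Goodness depends only on the germ. -/
lemma GoodR.congr {f g : R2 → V4} {p : R2} (h : f =ᶠ[𝓝 p] g) (hf : GoodR f p) : GoodR g p := by
  obtain ⟨φ, q, hφ, hq, hi, h1, h2, h3⟩ := hf
  subst hq
  have e : Sh 0 q (g ∘ φ) (f ∘ φ) := sh_zero (hφ.continuous.continuousAt.eventually h.symm)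
  refine ⟨φ, q, hφ, rfl, hi, ?_, ?_, ?_⟩
  · rwa [(detg_congr e).eq_of_nhds, add_zero]
  · rwa [(Wsq_congr (η' := fun _ => 1) (sh_zero EventuallyEq.rfl) e).eq_of_nhds, add_zero]
  · rwa [(criterion_congr (η' := fun _ => 1) (sh_zero EventuallyEq.rfl) e).eq_of_nhds, add_zero]

/-- A nonzero criterion of the own chart gives goodness. -/
lemma goodR_of_criterion {F : R2 → V4} {η : R2 → ℝ} {p : R2} (hη : η =ᶠ[𝓝 p] fun _ => 1)
    (hd : detg F p ≠ 0) (hW : Wsq η F p ≠ 0) (hc : criterion η F p ≠ 0) : GoodR F p := by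
  have e : Sh 0 p F F := sh_zero EventuallyEq.rfl
  refine ⟨fun q => q, p, contDiff_id, rfl, ?_, hd, ?_, ?_⟩
  · rw [fderiv_fun_id]; exact fun x y h => h
  · rwa [show F ∘ (fun q : R2 => q) = F from rfl,
      (Wsq_congr (η' := η) (sh_zero hη.symm) e).eq_of_nhds, add_zero]
  · rwa [show F ∘ (fun q : R2 => q) = F from rfl,
      (criterion_congr (η' := η) (sh_zero hη.symm) e).eq_of_nhds, add_zero]

/-- A nonzero transported criterion gives goodness. -/
lemma goodR_of_mult (P : Piece) {F : R2 → V4} (hF : Smooth2 F) {M : ℝ} (hM : 0 < M)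
    (hA : P.Adm F M) {p : R2} (h : P.mult F p ≠ 0) : GoodR F p := by
  obtain ⟨hχ, hc⟩ := mul_ne_zero_iff.1 h
  obtain ⟨e1, e2, hO, hdom⟩ := P.core p (subset_tsupport _ hχ)
  obtain ⟨n, hn⟩ := P.inverse p (subset_tsupport _ (by simp [e1.eq_of_nhds]))
  set x := P.back.map p
  obtain ⟨ρ, hρ, hρd⟩ := Metric.nhds_basis_closedBall.mem_iff.mp
    (P.fwd.isOpen_dom.mem_nhds hdom)
  let b : ContDiffBump x := ⟨ρ / 2, ρ, half_pos hρ, half_lt_self hρ⟩
  set φ : R2 → R2 := fun q => b q • (P.fwd.map q - ((n.1 : ℝ), (n.2 : ℝ))) with hφd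
  have hφ : ContDiff ℝ ∞ φ := by
    refine contDiff_iff_contDiffAt.mpr fun q => ?_
    by_cases hq : q ∈ P.fwd.dom
    · exact b.contDiff.contDiffAt.smul ((P.fwd.contDiffAt hq).sub contDiffAt_const)
    · refine (contDiffAt_const (c := (0 : R2))).congr_of_eventuallyEq ?_
      filter_upwards [Metric.isClosed_closedBall.isOpen_compl.mem_nhds
        (fun h : q ∈ Metric.closedBall x ρ => hq (hρd h))] with z hz
      have : b z = 0 := b.zero_of_le_dist (le_of_lt (not_le.mp hz))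
      simp [hφd, this]
  have he : φ =ᶠ[𝓝 x] fun q => P.fwd.map q - ((n.1 : ℝ), (n.2 : ℝ)) := by
    filter_upwards [b.eventuallyEq_one] with q hq
    simp only [hφd]
    rw [hq, Pi.one_apply, one_smul]
  have hφx : φ x = p := by rw [he.eq_of_nhds]; simp only [x, hn.self_of_nhds, add_sub_cancel_right]
  have eG : Sh 0 x (F ∘ φ) (P.G F) := by
    refine sh_zero ?_
    filter_upwards [he, e2] with q hq hw
    have hu := Piece.periodic_int hF n (P.fwd.map q - ((n.1 : ℝ), (n.2 : ℝ)))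
    rw [sub_add_cancel] at hu
    simp [Piece.G, pullS, hq, hw, hu]
  have hη : P.η =ᶠ[𝓝 x] fun _ => 1 :=
    Filter.eventually_of_mem (P.isOpen_O.mem_nhds hO) P.η_eq
  have hx1 : P.η x = 1 := P.η_eq x hO
  have hM' : 0 < M⁻¹ := inv_pos.2 hM
  refine ⟨φ, x, hφ, hφx, ?_, ?_, ?_, ?_⟩
  · have hfd := ((P.fwd.contDiffAt hdom).differentiableAt (by simp)).hasFDerivAt
    have hbd := ((P.back.contDiffAt (P.w'_dom (subset_tsupport _ (by simp [e1.eq_of_nhds])))
      ).differentiableAt (by simp)).hasFDerivAt (x := p)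
    have hid : (fderiv ℝ P.fwd.map x).comp (fderiv ℝ P.back.map p)
        = ContinuousLinearMap.id ℝ R2 :=
      ((hfd.comp p hbd).congr_of_eventuallyEq
        (Filter.EventuallyEq.symm hn)).unique ((hasFDerivAt_id p).add_const _)
    rw [he.fderiv_eq, fderiv_sub_const]
    have hs : Surjective (fderiv ℝ P.fwd.map x : R2 →ₗ[ℝ] R2) := fun y =>
      ⟨fderiv ℝ P.back.map p y, congrArg (fun L : R2 →L[ℝ] R2 => L y) hid⟩
    exact (LinearMap.injective_iff_surjective_of_finrank_eq_finrank rfl).2 hs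
  · rw [(detg_congr eG).eq_of_nhds, add_zero]
    have := hA.1 x
    rw [hx1, sub_self, add_zero] at this
    exact (hM'.trans_le this).ne'
  · rw [(Wsq_congr (η' := P.η) (sh_zero hη.symm) eG).eq_of_nhds, add_zero]
    have := hA.2 x
    rw [hx1, sub_self, add_zero] at this
    exact (hM'.trans_le this).ne'
  · rw [(criterion_congr (η' := P.η) (sh_zero hη.symm) eG).eq_of_nhds, add_zero]
    exact hc

/-- Positive denominators of several cells give goodness. -/
theorem goodR_of_sumLow {n : ℕ} {P : Fin n → Piece} {η η' : R2 → ℝ} {F : R2 → V4}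
    (hF : Smooth2 F) {M : ℝ} (hM : 0 < M) (h : SumLow η η' P F M) {p : R2}
    (hη : η =ᶠ[𝓝 p] fun _ => 1) (hη' : η' p = 1) : GoodR F p := by
  obtain ⟨hd, hW, hA, hc⟩ := h
  have hM' : 0 < M⁻¹ := inv_pos.2 hM
  have h1 := hd p; have h2 := hW p; have h3 := hc p
  rw [hη.eq_of_nhds, sub_self, add_zero] at h1 h2
  rw [hη', sub_self, add_zero] at h3
  by_cases hcr : criterion η F p = 0
  · obtain ⟨i, hi⟩ : ∃ i, (P i).mult F p ≠ 0 := by
      by_contra hall
      push Not at hall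
      have : totalCriterion η P F p = 0 := by simp [totalCriterion, hcr, hall]
      linarith
    exact goodR_of_mult (P i) hF hM (hA i) hi
  · exact goodR_of_criterion hη (hM'.trans_le h1).ne' (hM'.trans_le h2).ne' hcr

end

end Vale.Agent.P205.Bridge
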