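import Vale.Agent.P205.Full.Bridge.Exact
import Vale.Agent.P205.Full.Bridge.Pieces
import Vale.Agent.P205.Full.WKB.Frame

/-!
# P205: correction and mean inverse of a cell, from the sum of several criteria

`Cell.corr_sum` is the exact correction with the summed denominator, `Cell.good_of_low` says that
the corrected map is good, and `Cell.exists_step` gives the linear right inverse of the linearised
metric at a good map which the series needs for its means.
-/

namespace Vale.Agent.P205.Bridge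

open scoped ContDiff Topology RealInnerProductSpace
open Correction Set Filter Finset
open Vale.Agent.P205.Algebra hiding smooth2_smul

noncomputable section

namespace Cell

variable {N K : Set R2} (c : Cell N K) {n : ℕ}

/-- The lower bounds of the summed denominator. -/
def LowSum (P : Fin n → Piece) (F : R2 → V4) (L : ℝ) : Prop :=
  (∀ i, (P i).Adm F L) ∧ ∀ p, L⁻¹ ≤ totalCriterion c.η P F p + (1 - c.η' p)

variable (hNsq : N ⊆ sq)
include hNsq

/-- The correction theorem of several cells has the shape `Corr`. -/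
theorem corr_sum (P : Fin n → Piece) : c.Corr (c.LowSum P) := by
  intro Kb
  obtain ⟨a, n₀, L₀, h⟩ := exact_correction_sum Kb (c.smooth2_η hNsq)
    (fun p => (c.η₃_mem _).2) (c.smooth2_η' hNsq) (O := c.O) isOpen_interior
    (fun p hp => (c.O_eq hp).1) P (fun p hp => (c.O_eq hp).2) (c.smooth2_radial hNsq) one_pos
    (fun p hp => c.mem_O hNsq hp) 0 0
  refine ⟨a, n₀, L₀, fun E => ?_⟩
  obtain ⟨G, hG⟩ := h E
  refine ⟨G, fun L hL F g h1 h2 h3 h4 h5 h6 h7 h8 h9 h10 => ?_⟩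
  obtain ⟨x, hx, hx0, -, hxG, hxe⟩ := hG L hL F g h1 h2 h3 h4 h5 h6 h7 h8.1 h8.2 h9 h10
  exact ⟨x, hx, hx0, hxG, hxe⟩

lemma eta_germ {p : R2} (hp : c.η' p ≠ 0) : c.η =ᶠ[𝓝 p] fun _ => 1 := by
  have h : frac p ∈ c.K₂ := by
    by_contra h
    exact hp (c.η₂_zero _ h)
  exact (per_germ (hNsq (c.K₂_subN h)) (c.η₃_one _ h)).mono fun q hq => hq

/-- A small correction keeps `W²` positive and the map good. -/
theorem good_of_low (P : Fin n → Piece) (Kb : ℕ → ℝ) :
    ∃ (Q : ℕ) (L₀ : ℝ), ∀ L : ℝ, L₀ ≤ L → ∀ F x : R2 → V4, Smooth2 F → Smooth2 x →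
      (∀ i, pn i F ≤ Kb i * L ^ i) → (∀ p, L⁻¹ ≤ detg F p + (1 - c.η p)) →
      (∀ p, L⁻¹ ≤ Wsq c.η F p + (1 - c.η p)) → c.LowSum P F L → pn 9 x * L ^ Q ≤ 1 →
      ∀ p, c.η p = 1 → c.η' p = 1 →
        Wsq (fun _ => 1) (fun z => F z + x z) p ≠ 0 ∧ GoodR (fun z => F z + x z) p := by
  obtain ⟨Q, C, hC, hst⟩ := sum_step Kb (c.smooth2_η hNsq) (fun p => (c.η₃_mem _).2)
    (c.smooth2_η' hNsq) (O := c.O) isOpen_interior (fun p hp => (c.O_eq hp).1) P
  refine ⟨2 * Q, 2 + C, fun L hL F x hF hx hK hd hW hlow hx9 p _ hp' => ?_⟩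
  have hL0 : 0 < L := by linarith
  have hxQ : pn 9 x ≤ ((L ^ 2) ^ Q)⁻¹ := by
    rw [← pow_mul, ← one_mul (L ^ (2 * Q))⁻¹, ← div_eq_mul_inv, le_div_iff₀ (by positivity)]
    exact hx9
  have h := hst L F x hL hF hx hK ⟨hd, hW, hlow.1, hlow.2⟩ hxQ
  have hη : c.η =ᶠ[𝓝 p] fun _ => 1 := c.eta_germ hNsq (by rw [hp']; exact one_ne_zero)
  refine ⟨?_, goodR_of_sumLow (hF.add hx) (pow_pos hL0 2) h hη hp'⟩
  have h2 := h.2.1 p
  rw [hη.eq_of_nhds, sub_self, add_zero] at h2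
  rw [(Wsq_congr (η' := c.η) (sh_zero hη.symm) (sh_zero EventuallyEq.rfl)).eq_of_nhds, add_zero]
  exact ((inv_pos.2 (pow_pos hL0 2)).trans_le h2).ne'

/-- The mean inverse of the series at a good map. -/
theorem exists_step (f : R2 → V4) (hf : ContDiff ℝ ∞ f) (hN : IsOpen N)
    (hdet : ∀ p ∈ N, detg f p ≠ 0) (hW : ∀ p ∈ N, Wsq (fun _ => 1) f p ≠ 0)
    (hgood : ∀ p ∈ N, GoodR f p) {K' : Set R2} (hK' : IsClosed K') (hK'O : K' ⊆ c.O)
    (a : R2 → ℝ) (ha : Smooth2 a) (ha0 : ∀ p ∉ K', a p = 0) :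
    ∃ D : WKB.Step, D.f = c.F0 f ∧ D.a = a ∧ D.K = K' ∧ D.Exact := by
  set F := c.F0 f
  have hu0 : ∀ p ∉ c.K₄, c.ζ p • f p = 0 := fun p hp => by simp [c.ζ_zero p hp]
  have sF : Smooth2 F := smooth2_per c.cK₄ (c.subN.trans hNsq) hu0 (c.ζ_smooth.smul hf)
  have sη := c.smooth2_η hNsq
  have sη' := c.smooth2_η' hNsq
  have hη1 : ∀ p, c.η p ≤ 1 := fun p => (c.η₃_mem _).2
  have hd : ∀ p, 0 < detg F p + (1 - c.η p) := fun p => by
    by_cases hp : c.η p = 0
    · rw [hp]; linarith [detg_nonneg F p]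
    · obtain ⟨hq, hs⟩ := c.F0_germ hNsq f hp
      have : 0 < detg F p := by
        rw [(detg_congr hs).eq_of_nhds, add_sub_cancel]
        exact (detg_nonneg _ _).lt_of_ne' (hdet _ hq)
      linarith [hη1 p]
  have hWp : ∀ p, 0 < Wsq c.η F p + (1 - c.η p) := fun p => by
    by_cases hp : c.η p = 0
    · rw [hp]; linarith [real_inner_self_nonneg (x := n0 c.η F p), show Wsq c.η F p
        = ⟪n0 c.η F p, n0 c.η F p⟫ from rfl]
    · obtain ⟨hq, hs⟩ := c.F0_germ hNsq f hp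
      have hdp : 0 < detg F p := by
        rw [(detg_congr hs).eq_of_nhds, add_sub_cancel]
        exact (detg_nonneg _ _).lt_of_ne' (hdet _ hq)
      have h1 := (Wsq_congr (η := fun _ => 1) (η' := fun _ => 1) EventuallyEq.rfl hs).eq_of_nhds
      rw [add_sub_cancel] at h1
      have h2 : 0 < Wsq (fun _ => 1) f (frac p) :=
        (real_inner_self_nonneg (x := n0 (fun _ => 1) f (frac p))).lt_of_ne' (hW _ hq)
      linarith [Wsq_le (η := c.η) F hdp, hη1 p]
  obtain ⟨L1, hL1, hl1, hl2⟩ := exists_adm sη hη1 sF hd hWp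
  have hgF : ∀ p ∈ c.K₂, GoodR F p := fun p hp => by
    refine (hgood p (c.K₂_subN hp)).congr ?_
    filter_upwards [per_eventuallyEq (fun z => c.ζ z • f z) (hNsq (c.K₂_subN hp)),
      c.ζ_one p (interior_subset (c.sub₃ hp))] with z h1 h2
    show f z = per _ z
    rw [h1, h2, one_smul]
  obtain ⟨m, P, hnn, ε, hε, hP⟩ := exists_pieces sF hN hNsq c.cK₂ c.K₂_subN hgF
  obtain ⟨hA, hsum⟩ := hP F sF fun p _ i _ => by rw [sub_self, norm_zero]; exact hε.le
  obtain ⟨L, hLd⟩ : ∃ L, L = max L1 (max 1 ε⁻¹) := ⟨_, rfl⟩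
  have hL : 1 ≤ L := hLd ▸ ((le_max_left _ _).trans (le_max_right _ _))
  have hLε : ε⁻¹ ≤ L := hLd ▸ ((le_max_right _ _).trans (le_max_right _ _))
  have hLL : L1 ≤ L := hLd ▸ le_max_left _ _
  have hadm : SumLow c.η c.η' P F L := by
    refine ⟨fun p => (inv_anti₀ (by linarith) hLL).trans (hl1 p),
      fun p => (inv_anti₀ (by linarith) hLL).trans (hl2 p), hA L hLε, fun p => ?_⟩
    have h0 := criterion_nonneg c.η F p
    have hs0 : 0 ≤ ∑ i, (P i).mult F p := Finset.sum_nonneg fun i _ => hnn i F p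
    have h1 : c.η' p ≤ 1 := (c.η₂_mem _).2
    by_cases hp : c.η' p = 0
    · rw [hp]; exact low_of_zero hL (add_nonneg h0 hs0)
    · have h2 : ε ≤ ∑ i, (P i).mult F p := hsum p (by
        by_contra h
        exact hp (c.η₂_zero _ h))
      have h3 : L⁻¹ ≤ ε := inv_le_of_inv_le₀ hε hLε
      show _ ≤ criterion c.η F p + ∑ i, (P i).mult F p + _
      linarith
  set B := cellBase (fun j => pn j F) sη hη1 (O := c.O) isOpen_interior
    (fun p hp => (c.O_eq hp).1) (SumLow c.η c.η' P)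
  have hgd : ∀ M, B.Good F L L M := fun M =>
    { smooth := sF
      one_le := hL
      le_t := le_rfl
      adm := hadm
      bound := fun j _ => by
        show _ ≤ (|pn j F| + 1) * _
        refine le_trans ?_ (le_mul_of_one_le_right (by positivity)
          (one_le_mul_of_one_le_of_one_le (one_le_pow₀ hL) (one_le_pow₀ hL)))
        linarith [le_abs_self (pn j F)] }
  obtain ⟨M, hM, hlin⟩ := inv1_sum (fun j => pn j F) sη hη1 sη' (O := c.O) isOpen_interior
    (fun p hp => (c.O_eq hp).1) P fun p hp => (c.O_eq hp).2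
  set T : WKB.Sym3 →L[ℝ] (Fin 3 → ℝ) := ContinuousLinearMap.pi
    ![ContinuousLinearMap.fst ℝ ℝ (ℝ × ℝ),
      (ContinuousLinearMap.fst ℝ ℝ ℝ).comp (ContinuousLinearMap.snd ℝ ℝ (ℝ × ℝ)),
      (ContinuousLinearMap.snd ℝ ℝ ℝ).comp (ContinuousLinearMap.snd ℝ ℝ (ℝ × ℝ))] with hT
  have sT : ∀ {h : R2 → WKB.Sym3}, WKB.Ok K' h → Smooth2 fun p => T (h p) := fun hh => hh.1.clm T
  have hz : ∀ {h : R2 → WKB.Sym3}, WKB.Ok K' h → ∀ p ∉ K',
      M F (fun q => T (h q)) =ᶠ[𝓝 p] 0 := fun {h} hh p hp =>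
    hM.loc F _ p (by
      filter_upwards [hK'.isOpen_compl.mem_nhds hp] with q hq
      simp [hh.2 q hq])
  refine ⟨{
    f := F
    a := a
    K := K'
    R := fun h => M F fun q => T (h q)
    f_smooth := sF
    a_smooth := ha
    K_closed := hK'
    a_zero := ha0
    R_ok := fun h hh => ⟨hM.smooth (hgd 0) (sT hh), fun p hp => (hz hh p hp).eq_of_nhds⟩
    R_linear := fun h h' r hh hh' => ?_
    R_bound := fun k => ?_ }, rfl, rfl, rfl, fun h hh p => ?_⟩
  · rw [show (fun q => T (h q + r • h' q)) = fun q => T (h q) + r • T (h' q) from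
      funext fun q => by rw [map_add, map_smul]]
    exact funext (hM.lin (hgd 0) (sT hh) (sT hh') r)
  · obtain ⟨r, q, C, hC, hb⟩ := hM.bound
    refine ⟨k + r, C k * (L ^ (q * (k + 1)) * L ^ (k + r) * ((k + r + 1 : ℕ) * ‖T‖)),
      fun h hh Bd hBd p => ?_⟩
    have hB0 : 0 ≤ Bd := (norm_nonneg _).trans (hBd 0 (Nat.zero_le _) p)
    have hs := hM.smooth (hgd 0) (sT hh)
    refine ((le_supD hs k p).trans (supD_le_pn le_rfl _)).trans
      ((hb (hgd (k + r)) (sT hh) k ((k + r + 1 : ℕ) * ‖T‖ * Bd) le_rfl fun j hj => ?_).trans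
        (le_of_eq (by ring)))
    refine ((pn_clm_le hh.1 T j).trans (mul_le_mul_of_nonneg_left
      (pn_le_of_supD (C := fun _ => Bd) fun l hl => supD_le fun z => hBd l (by omega) z)
      (norm_nonneg _))).trans ?_
    rw [Finset.sum_const, card_range, nsmul_eq_mul]
    calc ‖T‖ * (((j + 1 : ℕ) : ℝ) * Bd) ≤ ‖T‖ * (((k + r + 1 : ℕ) : ℝ) * Bd) := by gcongr
      _ = (k + r + 1 : ℕ) * ‖T‖ * Bd := by ring
      _ ≤ _ := le_mul_of_one_le_right (by positivity) (one_le_pow₀ hL)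
  · show WKB.lin F (M F fun q => T (h q)) p = h p
    by_cases hp : p ∈ K'
    · have e := hlin (hgd 0) _ (sT hh) p (hK'O hp)
      rw [one_smul] at e
      have e0 := congrFun e 0
      have e1 := congrFun e 1
      have e2 := congrFun e 2
      simp [linM, hT] at e0 e1 e2
      refine Prod.ext ?_ (Prod.ext ?_ ?_)
      · exact e0
      · show _ + _ = _
        rw [real_inner_comm (Algebra.dy F p)]
        exact e1
      · exact e2
    · have e := (hz hh p hp).fderiv_eq (𝕜 := ℝ)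
      simp [WKB.lin, Algebra.dx, Algebra.dy, e, hh.2 p hp]

end Cell

end

end Vale.Agent.P205.Bridge
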