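import Vale.Agent.P205.Full.WKB.RoundSpin
import Vale.Agent.P205.Full.WKB.Variation
import Vale.Agent.P205.Full.Bridge.SumCorr
import Vale.Agent.P205.Generic.Prescribe

/-!
# P205: the data of round two in a cell

From the hypotheses of `ApproxStatement`: the periodic step with an exact mean inverse, its loop,
the free data at the modes cut off near `Kg`, and the map `glue` which brings periodic maps back
to the cell.
-/

namespace Vale.Agent.P205.Bridge

open scoped ContDiff Topology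
open Correction Set Filter Profile
open Vale.Agent.P205.Algebra

noncomputable section

/-- The data of round two in a cell. -/
structure RoundCell (N Kg Kc : Set R2) (a : R2 → ℝ) (f : R2 → V4) (k0 S : ℕ) where
  /-- the periodic step with its cut -/
  R : WKB.Round
  /-- the free data -/
  Φ : WKB.FreeData R.D (Fin S × Generic.Mode)
  /-- the compact representative of the support of the step -/
  K₀ : Set R2
  /-- the cut of the free data -/
  χ : R2 → ℝ
  /-- the cut of the transfer -/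
  φ : R2 → ℝ
  /-- the region where the periodic data are those of the cell -/
  V : Set R2
  open_cell : IsOpen N
  sub_sq : N ⊆ sq
  exact : R.D.Exact
  k0_eq : Φ.k0 = k0
  cK₀ : IsCompact K₀
  sub_K₀ : Kg ⊆ interior K₀
  K₀_sub : K₀ ⊆ interior Kc
  K_eq : R.D.K = {p | frac p ∈ K₀}
  χ_smooth : ContDiff ℝ ∞ χ
  χ_mem : ∀ p, 0 ≤ χ p ∧ χ p ≤ 1
  χ_one : ∀ p ∈ Kg, χ =ᶠ[𝓝 p] fun _ => 1
  χ_zero : ∀ p ∉ K₀, χ p = 0
  A_eq : ∀ j, ∀ p ∈ sq, ∀ t, Φ.A j (p, t) = χ p * Generic.modePrim j.2 (p.2, t)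
  dA_eq : ∀ j, ∀ p ∈ sq, ∀ t, dPhase (Φ.A j) (p, t) = χ p * Generic.mode j.2 (p.2, t)
  φ_smooth : ContDiff ℝ ∞ φ
  φ_zero : ∀ p ∉ N, φ p = 0
  φ_one : ∀ p ∈ V, φ p = 1
  V_open : IsOpen V
  Kc_sub : Kc ⊆ V
  V_sub : V ⊆ N
  f_eq : ∀ p ∈ V, R.D.f =ᶠ[𝓝 p] f
  a_eq : ∀ p ∈ sq, R.D.a =ᶠ[𝓝 p] a
  w_zero : ∀ p, frac p ∉ tsupport a → ∀ θ, R.spin.loop.w (p, θ) = 0

/-- The data exist under the hypotheses of `ApproxStatement`. -/
theorem exists_roundCell {N Ka Kg Kc : Set R2} {a : R2 → ℝ} {f : R2 → V4}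
    (hN : IsOpen N) (hNsq : closure N ⊆ sq) (hKg : IsCompact Kg) (hKc : IsCompact Kc)
    (haKa : tsupport a ⊆ interior Ka) (hKag : Ka ⊆ interior Kg) (hKgc : Kg ⊆ interior Kc)
    (hKcN : Kc ⊆ N) (ha : ContDiff ℝ ∞ a) (hf : ContDiff ℝ ∞ f)
    (hdet : ∀ p ∈ closure N, detg f p ≠ 0)
    (hW : ∀ p ∈ closure N, Wsq (fun _ => 1) f p ≠ 0) (hgood : ∀ p ∈ closure N, GoodR f p)
    {k0 : ℕ} (hk0 : 1 ≤ k0) (S : ℕ) :
    Nonempty (RoundCell N Kg Kc a f k0 S) := by
  have hNs : N ⊆ sq := subset_closure.trans hNsq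
  obtain ⟨c⟩ := exists_cell hN hKc hKcN
  obtain ⟨χ, K', cK', hK'i, hKgK', hχs, hχm, hχ1, hχ0⟩ :=
    exists_bump hKg isOpen_interior hKgc
  have hK'c : K' ⊆ Kc := hK'i.trans interior_subset
  have hK's : K' ⊆ sq := hK'c.trans (hKcN.trans hNs)
  have haK' : tsupport a ⊆ K' := haKa.trans <| interior_subset.trans <| hKag.trans <|
    interior_subset.trans <| hKgK'.trans interior_subset
  have ha0 : ∀ p ∉ K', a p = 0 := fun p hp =>
    image_eq_zero_of_notMem_tsupport fun h => hp (haK' h)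
  have hrad : ∀ p, frac p ∈ K' → c.radial p = 0 := fun p hp => by
    show 3 - 3 * c.ψ (frac p) = 0
    rw [c.ψ_one _ (hK'c hp)]
    ring
  have hKO : {p | frac p ∈ K'} ⊆ c.O := fun p hp =>
    c.mem_O hNs (by rw [hrad p hp]; norm_num)
  obtain ⟨D, hDf, hDa, hDK, hex⟩ := c.exists_step hNs f hf hN
    (fun p hp => hdet p (subset_closure hp)) (fun p hp => hW p (subset_closure hp))
    (fun p hp => hgood p (subset_closure hp)) (isClosed_frac_mem cK' hK's) hKO (per a)
    (smooth2_per cK' hK's ha0 ha) (fun p hp => ha0 _ hp)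
  have hind : ∀ p ∈ tsupport c.η, LinearIndependent ℝ ![dx D.f p, dy D.f p, F22 D.f p] := by
    intro p hp
    have h3 : frac p ∈ c.K₃ := by
      refine closure_minimal (fun q hq => ?_)
        (isClosed_frac_mem c.cK₃ (c.K₃_subN.trans hNs)) hp
      by_contra h
      exact hq (c.η₃_zero _ h)
    have hN3 := subset_closure (c.K₃_subN h3)
    have hsh : Sh (frac p - p) p D.f f := by
      rw [hDf]
      refine per_germ (hNs (c.K₃_subN h3)) ?_
      filter_upwards [c.ζ_one _ h3] with q hq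
      rw [hq, one_smul]
    have h1 := (dx_congr hsh).eq_of_nhds
    have h2 := (dy_congr hsh).eq_of_nhds
    have h22 : F22 D.f p = F22 f (p + (frac p - p)) := (dy_congr (dy_congr hsh)).eq_of_nhds
    rw [h1, h2, h22, add_sub_cancel]
    exact WKB.indep_of_nondeg (hdet _ hN3) (hW _ hN3)
  obtain ⟨R, hRD⟩ : ∃ R : WKB.Round, R.D = D :=
    ⟨{ D := D, η := c.η, η_smooth := c.smooth2_η hNs, η_le := fun p => (c.η₃_mem _).2
       η_one := fun p hp => (c.O_eq (hKO (hDK ▸ hp))).1, indep := hind }, rfl⟩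
  -- the periodic transversal coordinate and the cut
  obtain ⟨Y, hY⟩ : ∃ Y : R2 → ℝ, Y = per fun x => c.ζ x * x.2 := ⟨_, rfl⟩
  have hY2 : Smooth2 Y := hY ▸ smooth2_per c.cK₄ (c.subN.trans hNs)
    (fun p hp => by simp [c.ζ_zero p hp]) (c.ζ_smooth.mul contDiff_snd)
  have hX2 : Smooth2 (per χ) := smooth2_per cK' hK's hχ0 hχs
  obtain ⟨A, hA⟩ : ∃ A : Fin S × Generic.Mode → R2 × ℝ → ℝ,
      ∀ j q, A j q = per χ q.1 * Generic.modePrim j.2 (Y q.1, q.2) := ⟨_, fun _ _ => rfl⟩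
  have hAs : ∀ j, IsProfile (A j) := fun j => by
    rw [funext (hA j)]
    refine ⟨(hX2.1.comp contDiff_fst).mul ((Generic.contDiff_modePrim j.2).comp
      ((hY2.1.comp contDiff_fst).prodMk contDiff_snd)), fun z => ⟨?_, ?_, ?_⟩⟩
    · simp only [Prod.fst_add, Prod.snd_add, add_zero, hX2.2.1, hY2.2.1]
    · simp only [Prod.fst_add, Prod.snd_add, add_zero, hX2.2.2, hY2.2.2]
    · simp only [Prod.fst_add, Prod.snd_add, Prod.mk_zero_zero, add_zero]
      exact congrArg (per χ z.1 * ·) (Generic.modePrim_periodic j.2 (Y z.1) z.2)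
  have hA0 : ∀ j, ∀ p ∉ R.D.K, ∀ θ, A j (p, θ) = 0 := fun j p hp θ => by
    rw [hA, show per χ p = 0 from hχ0 _ fun h => hp (by rw [hRD, hDK]; exact h), zero_mul]
  have hAsq : ∀ j, ∀ p ∈ sq, ∀ t, A j (p, t) = χ p * Generic.modePrim j.2 (p.2, t) := by
    intro j p hp t
    rw [hA, per_of_mem χ hp, hY]
    show χ p * Generic.modePrim j.2 (per (fun x => c.ζ x * x.2) p, t) = _
    rw [per_of_mem _ hp]
    by_cases hk : p ∈ K'
    · have h3 : p ∈ c.K₃ := interior_subset (c.sub₃ (interior_subset (c.sub₂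
        (interior_subset (c.sub₁ (hK'c hk))))))
      rw [(c.ζ_one p h3).eq_of_nhds, one_mul]
    · rw [hχ0 p hk, zero_mul, zero_mul]
  have hdA : ∀ j, ∀ p ∈ sq, ∀ t, dPhase (A j) (p, t) = χ p * Generic.mode j.2 (p.2, t) := by
    intro j p hp t
    have h1 : HasDerivAt (fun s => A j (p, s)) (dPhase (A j) (p, t)) t :=
      ((hAs j).1.differentiable (by simp) (p, t)).hasFDerivAt.comp_hasDerivAt t
        ((hasDerivAt_const t p).prodMk (hasDerivAt_id t))
    have h2 : HasDerivAt (fun s => A j (p, s)) (χ p * Generic.mode j.2 (p.2, t)) t := by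
      rw [show (fun s => A j (p, s)) = fun s => χ p * Generic.modePrim j.2 (p.2, s) from
        funext (hAsq j p hp)]
      exact (Generic.hasDerivAt_modePrim j.2 p.2 t).const_mul _
    exact h1.unique h2
  -- the cut of the transfer
  obtain ⟨φ, K'', cK'', hK''N, -, hφs, -, hφ1, hφ0⟩ := exists_bump hKc hN hKcN
  refine ⟨{
    R := R
    Φ := { A := A, k0 := k0, A_prof := hAs, A_zero := hA0, one_le := hk0 }
    K₀ := K'
    χ := χ
    φ := φ
    V := interior c.K₃ ∩ interior {p | φ p = 1}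
    open_cell := hN
    sub_sq := hNs
    exact := by rw [hRD]; exact hex
    k0_eq := rfl
    cK₀ := cK'
    sub_K₀ := hKgK'
    K₀_sub := hK'i
    K_eq := by rw [hRD, hDK]
    χ_smooth := hχs
    χ_mem := hχm
    χ_one := hχ1
    χ_zero := hχ0
    A_eq := hAsq
    dA_eq := hdA
    φ_smooth := hφs
    φ_zero := fun p hp => hφ0 p fun h => hp (hK''N h)
    φ_one := fun p hp => (interior_subset hp.2 : p ∈ {p | φ p = 1})
    V_open := isOpen_interior.inter isOpen_interior
    Kc_sub := fun p hp => ⟨c.sub₃ (interior_subset (c.sub₂ (interior_subset (c.sub₁ hp)))),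
      mem_interior_iff_mem_nhds.2 (hφ1 p hp)⟩
    V_sub := fun p hp => c.K₃_subN (interior_subset hp.1)
    f_eq := fun p hp => by
      have h3 : p ∈ c.K₃ := interior_subset hp.1
      rw [hRD, hDf]
      filter_upwards [per_eventuallyEq (fun z => c.ζ z • f z) (hNs (c.K₃_subN h3)),
        c.ζ_one p h3] with z h1 h2
      show per (fun z => c.ζ z • f z) z = f z
      rw [h1, h2, one_smul]
    a_eq := fun p hp => by rw [hRD, hDa]; exact per_eventuallyEq a hp
    w_zero := fun p hp θ => ?_ }⟩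
  show R.D.a p • R.u (p, θ) = 0
  rw [hRD, hDa, show per a p = 0 from image_eq_zero_of_notMem_tsupport (f := a) hp, zero_smul]

namespace RoundCell

variable {N Kg Kc : Set R2} {a : R2 → ℝ} {f : R2 → V4} {k0 S : ℕ}
  (c : RoundCell N Kg Kc a f k0 S)

lemma loop_twist : c.R.spin.loop.Twist := c.R.spin.loop_twist

lemma mem_K {p : R2} (hp : p ∈ sq) : p ∈ c.R.D.K ↔ p ∈ c.K₀ := by
  rw [c.K_eq]
  show frac p ∈ c.K₀ ↔ _
  rw [frac_of_mem hp]

lemma notMem_K {p : R2} (hp : p ∈ sq) (h : p ∉ Kc) : p ∉ c.R.D.K := fun hk =>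
  h (interior_subset (c.K₀_sub ((c.mem_K hp).1 hk)))

/-- Bring a periodic map back to the cell. -/
def glue (H : R2 → V4) (p : R2) : V4 := f p + c.φ p • (H p - c.R.D.f p)

variable {H : R2 → V4}

lemma contDiff_glue (hf : ContDiff ℝ ∞ f) (hH : ContDiff ℝ ∞ H) : ContDiff ℝ ∞ (c.glue H) :=
  hf.add (c.φ_smooth.smul (hH.sub c.R.D.f_smooth.1))

/-- Outside `Kc` nothing changes. -/
lemma glue_eq (hH : ∀ p ∉ c.R.D.K, H p = c.R.D.f p) {p : R2} (hp : p ∉ Kc) :
    c.glue H p = f p := by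
  by_cases hN : p ∈ N
  · simp [glue, hH p (c.notMem_K (c.sub_sq hN) hp)]
  · simp [glue, c.φ_zero p hN]

/-- On `V` nothing is cut. -/
lemma glue_germ_V {p : R2} (hp : p ∈ c.V) : c.glue H =ᶠ[𝓝 p] H := by
  filter_upwards [c.V_open.mem_nhds hp, c.f_eq p hp] with z hz he
  simp [glue, c.φ_one z hz, he]

/-- Off the support of the step the map is the given one. -/
lemma glue_germ_off (hH : ∀ p ∉ c.R.D.K, H p = c.R.D.f p) {p : R2} (hp : p ∈ N)
    (hK : p ∉ c.R.D.K) : c.glue H =ᶠ[𝓝 p] f := by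
  filter_upwards [c.R.D.K_closed.isOpen_compl.mem_nhds hK] with z hz
  simp [glue, hH z hz]

/-- The points of the cell are in `V` or off the support of the step. -/
lemma mem_V_or {p : R2} (hp : p ∈ N) : p ∈ c.V ∨ p ∉ c.R.D.K :=
  (em (p ∈ Kc)).imp (fun h => c.Kc_sub h) fun h => c.notMem_K (c.sub_sq hp) h

/-- Near `Kg` the cut of the free data is one, and the step is supported there. -/
lemma mem_interior_K {p : R2} (hp : p ∈ Kg) : p ∈ interior c.R.D.K := by
  have hs : p ∈ sq := c.sub_sq (c.V_sub (c.Kc_sub (interior_subset (c.K₀_sub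
    (interior_subset (c.sub_K₀ hp))))))
  refine mem_interior_iff_mem_nhds.2 ?_
  filter_upwards [isOpen_interior.mem_nhds (c.sub_K₀ hp), isOpen_sq.mem_nhds hs] with z h1 h2
  exact (c.mem_K h2).2 (interior_subset h1)

end RoundCell

end

end Vale.Agent.P205.Bridge
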