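import Vale.Agent.P205.Full.Bridge.Approx
import Vale.Agent.P205.Full.Bridge.RoundCell
import Vale.Agent.P205.Full.WKB.NonDeg
import Vale.Agent.P205.Full.WKB.Mixed
import Vale.Agent.P205.Full.WKB.Still

/-!
# P205: the bounds of the maps of round two in a cell

`RoundCell.approxMap` is the series at given parameters, brought back to the cell.  For schedules
whose frequencies are at most a fixed power of `lam` and whose amplitudes are small it satisfies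
every requirement of `ApproxStatement` except the lower bound of the criterion.
-/

namespace Vale.Agent.P205.Bridge

open scoped ContDiff Topology
open Correction Set Filter
open Vale.Agent.P205.Algebra

noncomputable section

/-- Symmetric tensors as triples indexed by `Fin 3`. -/
def toV : WKB.Sym3 →L[ℝ] (Fin 3 → ℝ) :=
  ContinuousLinearMap.pi ![ContinuousLinearMap.fst ℝ ℝ (ℝ × ℝ),
    (ContinuousLinearMap.fst ℝ ℝ ℝ).comp (ContinuousLinearMap.snd ℝ ℝ (ℝ × ℝ)),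
    (ContinuousLinearMap.snd ℝ ℝ ℝ).comp (ContinuousLinearMap.snd ℝ ℝ (ℝ × ℝ))]

lemma norm_toV_le : ‖toV‖ ≤ 1 := by
  refine toV.opNorm_le_bound zero_le_one fun z => ?_
  rw [one_mul]
  refine (pi_norm_le_iff_of_nonneg (norm_nonneg _)).2 fun i => ?_
  have h2 : ‖z.2‖ ≤ ‖z‖ := norm_snd_le z
  fin_cases i
  · simpa [toV] using norm_fst_le z
  · simpa [toV] using (norm_fst_le z.2).trans h2
  · simpa [toV] using (norm_snd_le z.2).trans h2

lemma defect_eq_toV (f : R2 → V4) (a : R2 → ℝ) (F : R2 → V4) (p : R2) :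
    defect f a F p = toV (WKB.met F p - WKB.met f p - (a p ^ 2, 0, 0)) := by
  funext i
  fin_cases i <;> simp [defect, toV, metF, WKB.met, g11, g12, g22]; ring

/-- The jets which enter `det g` and `W` depend on the germ only. -/
lemma jets_congr {F G : R2 → V4} {p : R2} (h : F =ᶠ[𝓝 p] G) :
    dx F p = dx G p ∧ dy F p = dy G p ∧ F22 F p = F22 G p := by
  have e : dy F =ᶠ[𝓝 p] dy G := (h.fderiv (𝕜 := ℝ)).mono fun z hz => by simp only [dy, hz]
  exact ⟨by simp only [dx, h.fderiv_eq (𝕜 := ℝ)], by simp only [dy, h.fderiv_eq (𝕜 := ℝ)],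
    by simp only [F22, dy]; exact congrArg (· (0, 1)) (e.fderiv_eq (𝕜 := ℝ))⟩

lemma nondeg_congr {F G : R2 → V4} {p : R2} (h : F =ᶠ[𝓝 p] G) :
    detg F p = detg G p ∧ Wsq (fun _ => 1) F p = Wsq (fun _ => 1) G p := by
  obtain ⟨h1, h2, h3⟩ := jets_congr h
  simp only [WKB.detg_eq_gramJ, WKB.Wsq_eq_normJ, h1, h2, h3, and_self]

/-- Bounds on mixed derivatives give bounds on full ones. -/
lemma exists_iter_bound {E ι : Type} [NormedAddCommGroup E] [NormedSpace ℝ E] (P : ι → Prop)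
    (g : ι → R2 → E) (R : ι → ℕ → ℝ) (i : ℕ) (hg : ∀ x, P x → ContDiff ℝ ∞ (g x))
    (hR : ∀ x, P x → ∀ a ≤ i, 0 ≤ R x a ∧ R x a ≤ R x i)
    (h : ∀ a b, ∃ C, 0 ≤ C ∧ ∀ x, P x → ∀ p, ‖Generic.pd a b (g x) p‖ ≤ C * R x a) :
    ∃ C, 0 ≤ C ∧ ∀ x, P x → ∀ p, ‖iteratedFDeriv ℝ i (g x) p‖ ≤ C * R x i := by
  choose C hC0 hC using h
  obtain ⟨T, hT⟩ : ∃ T, T = ∑ a ∈ Finset.range (i + 1), C a (i - a) := ⟨_, rfl⟩
  refine ⟨2 ^ i * T, mul_nonneg (by positivity) (hT ▸ Finset.sum_nonneg fun a _ => hC0 _ _),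
    fun x hx p => ?_⟩
  refine (WKB.norm_iter_le i (hg x hx) p (T * R x i) fun a b hab => ?_).trans_eq
    (mul_assoc _ _ _).symm
  obtain ⟨h0, h1⟩ := hR x hx a (by omega)
  refine (hC a b x hx p).trans (mul_le_mul ?_ h1 h0 (hT ▸ Finset.sum_nonneg fun a _ => hC0 _ _))
  rw [hT, show b = i - a by omega]
  exact Finset.single_le_sum (f := fun a => C a (i - a)) (fun a _ => hC0 _ _)
    (Finset.mem_range.2 (by omega))

namespace RoundCell

variable {N Kg Kc : Set R2} {a : R2 → ℝ} {f : R2 → V4} {k0 S : ℕ}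
  (c : RoundCell N Kg Kc a f k0 S)

/-- The map of round two at given parameters. -/
def approxMap (NN : ℕ) (lam : ℝ) (M : Fin S × Generic.Mode → ℕ)
    (eps τ : Fin S × Generic.Mode → ℝ) : R2 → V4 :=
  c.glue (c.Φ.H c.R.spin.loop NN (max lam 1) M eps τ)

/-- The parameters allowed in the estimates. -/
structure Adm (M : Fin S × Generic.Mode → ℕ) (eps τ : Fin S × Generic.Mode → ℝ) : Prop where
  one_le : ∀ j, 1 ≤ M j
  eps_nonneg : ∀ j, 0 ≤ eps j
  eps_mul : ∀ j, eps j * M j ≤ 1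
  norm_le : ‖τ‖ ≤ 8

variable {M : Fin S × Generic.Mode → ℕ} {eps τ : Fin S × Generic.Mode → ℝ}

omit c in
lemma Adm.eps_le (h : Adm M eps τ) (j : Fin S × Generic.Mode) : eps j ≤ 1 :=
  (le_mul_of_one_le_right (h.eps_nonneg j) (by exact_mod_cast h.one_le j)).trans (h.eps_mul j)

lemma H_off (NN : ℕ) (lam : ℝ) : ∀ p ∉ c.R.D.K,
    c.Φ.H c.R.spin.loop NN lam M eps τ p = c.R.D.f p :=
  fun _ hp => WKB.approx_off (c.Φ.input M eps τ) NN lam hp

lemma approxMap_eq {NN : ℕ} {lam : ℝ} {p : R2} (hp : p ∉ Kc) :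
    c.approxMap NN lam M eps τ p = f p :=
  c.glue_eq (c.H_off NN _) hp

lemma contDiff_approxMap (hf : ContDiff ℝ ∞ f) (NN : ℕ) (lam : ℝ) (hM : ∀ j, 1 ≤ M j) :
    ContDiff ℝ ∞ (c.approxMap NN lam M eps τ) :=
  c.contDiff_glue hf (c.Φ.contDiff_slice_H NN _ hM eps τ)

lemma germ_V {NN : ℕ} {lam : ℝ} (hlam : 1 ≤ lam) {p : R2} (hp : p ∈ c.V) :
    c.approxMap NN lam M eps τ =ᶠ[𝓝 p] c.Φ.H c.R.spin.loop NN lam M eps τ := by
  rw [approxMap, max_eq_left hlam]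
  exact c.glue_germ_V hp

lemma germ_off {NN : ℕ} {lam : ℝ} {p : R2} (hp : p ∈ N) (hK : p ∉ c.R.D.K) :
    c.approxMap NN lam M eps τ =ᶠ[𝓝 p] f :=
  c.glue_germ_off (c.H_off NN _) hp hK

lemma defect_germ_V {NN : ℕ} {lam : ℝ} (hlam : 1 ≤ lam) {p : R2} (hp : p ∈ c.V) :
    defect f a (c.approxMap NN lam M eps τ) =ᶠ[𝓝 p] toV ∘ fun z =>
      WKB.met (c.Φ.H c.R.spin.loop NN lam M eps τ) z - WKB.met c.R.D.f z
        - (c.R.D.a z ^ 2, 0, 0) := by
  filter_upwards [(c.germ_V (M := M) (eps := eps) (τ := τ) (NN := NN) hlam hp).eventuallyEq_nhds,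
    (c.f_eq p hp).eventuallyEq_nhds, c.a_eq p (c.sub_sq (c.V_sub hp))] with z h1 h2 h3
  rw [Function.comp_apply, ← defect_eq_toV, defect, defect, metF_congr h1, metF_congr h2, h3]

lemma defect_germ_off {NN : ℕ} {lam : ℝ} {p : R2} (hp : p ∈ N) (hK : p ∉ c.R.D.K) :
    defect f a (c.approxMap NN lam M eps τ) =ᶠ[𝓝 p] fun _ => 0 := by
  filter_upwards [(c.germ_off (M := M) (eps := eps) (τ := τ) (NN := NN) (lam := lam) hp
      hK).eventuallyEq_nhds, c.a_eq p (c.sub_sq hp),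
    c.R.D.K_closed.isOpen_compl.mem_nhds hK] with z h1 h2 h3
  rw [defect, metF_congr h1, ← h2, c.R.D.a_zero z h3,
    show (![(0 : ℝ) ^ 2, 0, 0] : Fin 3 → ℝ) = 0 by funext i; fin_cases i <;> simp, add_zero,
    sub_self]

lemma pow_bound {Q i d : ℕ} (hd : d ≤ i) {lam : ℝ} (hlam : 1 ≤ lam) (hMQ : ∀ j, (M j : ℝ) ≤ lam ^ Q)
    (j : Fin S × Generic.Mode) : ((M j : ℝ) * lam) ^ d ≤ lam ^ ((Q + 1) * i) := by
  have h0 : (0 : ℝ) ≤ lam := by linarith
  calc ((M j : ℝ) * lam) ^ d ≤ (lam ^ (Q + 1)) ^ d :=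
        pow_le_pow_left₀ (by positivity) (by
          rw [pow_succ]; exact mul_le_mul_of_nonneg_right (hMQ j) h0) d
    _ ≤ _ := by rw [← pow_mul]; exact pow_le_pow_right₀ hlam (Nat.mul_le_mul_left _ hd)

/-- Every derivative grows at most like a power of `lam`. -/
theorem iter_bound (hf : ContDiff ℝ ∞ f) (hN : IsCompact (closure N)) (NN Q i : ℕ) :
    ∃ C, 0 ≤ C ∧ ∀ M eps τ lam, Adm (S := S) M eps τ → 1 ≤ lam →
      (∀ j, (M j : ℝ) ≤ lam ^ Q) → ∀ p ∈ N,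
        ‖iteratedFDeriv ℝ i (c.approxMap NN lam M eps τ) p‖ ≤ C * lam ^ ((Q + 1) * i) := by
  obtain ⟨B, hB⟩ := hN.exists_bound_of_continuousOn
    (hf.continuous_iteratedFDeriv (m := i) (by exact_mod_cast le_top)).continuousOn
  obtain ⟨C, hC0, hC⟩ := exists_iter_bound
    (fun x : (Fin S × Generic.Mode → ℕ) × (Fin S × Generic.Mode → ℝ) ×
        (Fin S × Generic.Mode → ℝ) × ℝ =>
      Adm x.1 x.2.1 x.2.2.1 ∧ 1 ≤ x.2.2.2 ∧ ∀ j, (x.1 j : ℝ) ≤ x.2.2.2 ^ Q)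
    (fun x => c.Φ.H c.R.spin.loop NN x.2.2.2 x.1 x.2.1 x.2.2.1)
    (fun x d => x.2.2.2 ^ ((Q + 1) * d)) i
    (fun x hx => c.Φ.contDiff_slice_H NN _ hx.1.one_le _ _)
    (fun x hx d hd => ⟨pow_nonneg (by linarith [hx.2.1]) _,
      pow_le_pow_right₀ hx.2.1 (Nat.mul_le_mul_left _ hd)⟩) fun d b => by
    obtain ⟨C, hC0, hC⟩ := c.Φ.base_bound (L := c.R.spin.loop) NN d b
    refine ⟨C * (1 + Fintype.card (Fin S × Generic.Mode)), by positivity,
      fun ⟨M, eps, τ, lam⟩ ⟨hA, hl, hQ⟩ p => ?_⟩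
    simp only at hA hl hQ ⊢
    refine (hC M eps τ lam hA.one_le hA.eps_nonneg hA.eps_mul hA.norm_le hl p).trans ?_
    have h0 : (0 : ℝ) ≤ lam := by linarith
    rw [mul_assoc C]
    refine mul_le_mul_of_nonneg_left ?_ hC0
    rw [add_mul, one_mul]
    refine add_le_add (pow_le_pow_right₀ hl (Nat.le_mul_of_pos_left _ (Nat.succ_pos _)))
      ((Finset.sum_le_card_nsmul _ _ (lam ^ ((Q + 1) * d)) fun j _ => ?_).trans_eq (by simp))
    have h1 : eps j / M j ≤ 1 :=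
      (div_le_self (hA.eps_nonneg j) (by exact_mod_cast hA.one_le j)).trans (hA.eps_le j)
    have h2 : (lam⁻¹) ^ c.Φ.k0 ≤ 1 := pow_le_one₀ (by positivity) (inv_le_one_of_one_le₀ hl)
    refine (mul_le_of_le_one_right (by have := hA.eps_nonneg j; positivity) h2).trans ?_
    exact (mul_le_of_le_one_left (by positivity) h1).trans (pow_bound le_rfl hl hQ j)
  refine ⟨max B 0 + C, by positivity, fun M eps τ lam hA hl hQ p hp => ?_⟩
  have h1 : (1 : ℝ) ≤ lam ^ ((Q + 1) * i) := one_le_pow₀ hl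
  rcases c.mem_V_or hp with hV | hK
  · rw [((c.germ_V hl hV).iteratedFDeriv ℝ i).eq_of_nhds]
    refine (hC ⟨M, eps, τ, lam⟩ ⟨hA, hl, hQ⟩ p).trans ?_
    exact mul_le_mul_of_nonneg_right (by linarith [le_max_right B 0]) (by linarith)
  · rw [((c.germ_off hp hK).iteratedFDeriv ℝ i).eq_of_nhds]
    refine (hB p (subset_closure hp)).trans ?_
    nlinarith [le_max_left B 0, le_max_right B 0]

/-- Every derivative of the error carries the order of the truncation. -/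
theorem defect_iter_bound (NN Q i : ℕ) :
    ∃ C, 0 ≤ C ∧ ∀ M eps τ lam, Adm (S := S) M eps τ → 1 ≤ lam →
      (∀ j, (M j : ℝ) ≤ lam ^ Q) → ∀ p ∈ N,
        ‖iteratedFDeriv ℝ i (defect f a (c.approxMap NN lam M eps τ)) p‖
          ≤ C * ((lam⁻¹) ^ (NN + 1) * lam ^ ((Q + 1) * i)) := by
  have hs : ∀ M eps τ lam, Adm (S := S) M eps τ → ContDiff ℝ ∞ fun z =>
      WKB.met (c.Φ.H c.R.spin.loop NN lam M eps τ) z - WKB.met c.R.D.f z
        - (c.R.D.a z ^ 2, 0, 0) := fun M eps τ lam hA =>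
    ((WKB.FreeData.contDiff_met (c.Φ.contDiff_slice_H NN lam hA.one_le eps τ)).sub
      (WKB.FreeData.contDiff_met c.R.D.f_smooth.1)).sub
      ((c.R.D.a_smooth.1.pow 2).prodMk contDiff_const)
  obtain ⟨C, hC0, hC⟩ := exists_iter_bound
    (fun x : (Fin S × Generic.Mode → ℕ) × (Fin S × Generic.Mode → ℝ) ×
        (Fin S × Generic.Mode → ℝ) × ℝ =>
      Adm x.1 x.2.1 x.2.2.1 ∧ 1 ≤ x.2.2.2 ∧ ∀ j, (x.1 j : ℝ) ≤ x.2.2.2 ^ Q)
    (fun x z => WKB.met (c.Φ.H c.R.spin.loop NN x.2.2.2 x.1 x.2.1 x.2.2.1) z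
      - WKB.met c.R.D.f z - (c.R.D.a z ^ 2, 0, 0))
    (fun x d => (x.2.2.2⁻¹) ^ (NN + 1) * x.2.2.2 ^ ((Q + 1) * d)) i
    (fun x hx => hs _ _ _ _ hx.1)
    (fun x hx d hd => by
      have h0 : (0 : ℝ) ≤ x.2.2.2 := by linarith [hx.2.1]
      exact ⟨by positivity, mul_le_mul_of_nonneg_left
        (pow_le_pow_right₀ hx.2.1 (Nat.mul_le_mul_left _ hd)) (by positivity)⟩) fun d b => by
    obtain ⟨C, hC0, hC⟩ := c.Φ.defect_bound (L := c.R.spin.loop) NN d b c.loop_twist c.exact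
    refine ⟨C * (1 + Fintype.card (Fin S × Generic.Mode)), by positivity,
      fun ⟨M, eps, τ, lam⟩ ⟨hA, hl, hQ⟩ p => ?_⟩
    simp only at hA hl hQ ⊢
    refine (hC M eps τ lam hA.one_le hA.eps_nonneg hA.eps_mul hA.norm_le hl p).trans ?_
    have h0 : (0 : ℝ) ≤ lam := by linarith
    rw [mul_assoc C, mul_left_comm (1 + _)]
    refine mul_le_mul_of_nonneg_left (mul_le_mul_of_nonneg_left ?_ (by positivity)) hC0
    rw [add_mul, one_mul]
    refine add_le_add (pow_le_pow_right₀ hl (Nat.le_mul_of_pos_left _ (Nat.succ_pos _)))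
      ((Finset.sum_le_card_nsmul _ _ (lam ^ ((Q + 1) * d)) fun j _ => ?_).trans_eq (by simp))
    exact (mul_le_of_le_one_left (by positivity) (hA.eps_le j)).trans (pow_bound le_rfl hl hQ j)
  refine ⟨C, hC0, fun M eps τ lam hA hl hQ p hp => ?_⟩
  rcases c.mem_V_or hp with hV | hK
  · rw [((c.defect_germ_V hl hV).iteratedFDeriv ℝ i).eq_of_nhds]
    refine (toV.norm_iteratedFDeriv_comp_left (hs M eps τ lam hA).contDiffAt
      (by exact_mod_cast le_top)).trans ?_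
    exact (mul_le_of_le_one_left (norm_nonneg _) norm_toV_le).trans
      (hC ⟨M, eps, τ, lam⟩ ⟨hA, hl, hQ⟩ p)
  · rw [((c.defect_germ_off hp hK).iteratedFDeriv ℝ i).eq_of_nhds]
    rw [show iteratedFDeriv ℝ i (fun _ : R2 => (0 : Fin 3 → ℝ)) p = 0 by simp, norm_zero]
    have h0 : (0 : ℝ) ≤ lam := by linarith
    positivity

/-- The zeroth and first derivatives stay bounded and the map nondegenerate. -/
theorem first_bound (hf : ContDiff ℝ ∞ f) (hN : IsCompact (closure N)) (hKc : IsCompact Kc)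
    (hdet : ∀ p ∈ closure N, detg f p ≠ 0) (hW : ∀ p ∈ closure N, Wsq (fun _ => 1) f p ≠ 0) :
    ∃ B, ∀ NN, ∃ δ > 0, ∀ M eps τ lam, Adm (S := S) M eps τ → 1 ≤ lam →
      lam⁻¹ + ∑ j, eps j ≤ δ → ∀ p ∈ N,
        (∀ i ≤ 1, ‖iteratedFDeriv ℝ i (c.approxMap NN lam M eps τ) p‖ ≤ B) ∧
          δ ≤ detg (c.approxMap NN lam M eps τ) p ∧
            δ ≤ Wsq (fun _ => 1) (c.approxMap NN lam M eps τ) p := by
  obtain ⟨F0, hF0⟩ := hN.exists_bound_of_continuousOn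
    (hf.continuous_iteratedFDeriv (m := 0) (by exact_mod_cast le_top)).continuousOn
  obtain ⟨F1, hF1⟩ := hN.exists_bound_of_continuousOn
    (hf.continuous_iteratedFDeriv (m := 1) (by exact_mod_cast le_top)).continuousOn
  obtain ⟨X0, hX0⟩ := c.R.spin.loop.isProfile_X0.bound 0
  obtain ⟨D0, hD0⟩ : ∃ D0, D0 = supD 0 c.R.D.f := ⟨_, rfl⟩
  obtain ⟨D1, hD1⟩ : ∃ D1, D1 = supD 0 (dy c.R.D.f) := ⟨_, rfl⟩
  refine ⟨|F0| + |F1| + (|D0| + 1) + 2 * (|X0| + |D1| + 1), fun NN => ?_⟩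
  -- the lower bound off the support of the step
  obtain ⟨J, hJ⟩ : ∃ J : R2 → V4 × V4 × V4, J = fun p => (dx f p, dy f p, F22 f p) := ⟨_, rfl⟩
  have hJc : Continuous J := by
    have hy : ContDiff ℝ ∞ (dy f) :=
      (hf.fderiv_right (m := ∞) le_rfl).clm_apply contDiff_const
    have hx : ContDiff ℝ ∞ (dx f) :=
      (hf.fderiv_right (m := ∞) le_rfl).clm_apply contDiff_const
    have hyy : ContDiff ℝ ∞ (F22 f) :=
      (hy.fderiv_right (m := ∞) le_rfl).clm_apply contDiff_const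
    rw [hJ]
    exact hx.continuous.prodMk (hy.continuous.prodMk hyy.continuous)
  have hpos : ∀ p ∈ closure N, 0 < WKB.gramJ (J p) ∧ 0 < WKB.normJ (J p) := fun p hp => by
    rw [hJ]
    exact WKB.pos_of_indep (WKB.indep_of_nondeg (hdet p hp) (hW p hp))
  obtain ⟨d0, hd0, hlow⟩ : ∃ d0 > 0, ∀ p ∈ closure N,
      d0 ≤ detg f p ∧ d0 ≤ Wsq (fun _ => 1) f p := by
    rcases eq_empty_or_nonempty (closure N) with he | hne
    · exact ⟨1, one_pos, fun p hp => absurd hp (he ▸ notMem_empty p)⟩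
    obtain ⟨p0, hp0, hm⟩ := hN.exists_isMinOn hne
      (f := fun p => min (WKB.gramJ (J p)) (WKB.normJ (J p))) fun p hp =>
        ((Tendsto.min (WKB.contDiffAt_jets (hpos p hp).1.ne').1
          (WKB.contDiffAt_jets (hpos p hp).1.ne').2).comp
            hJc.continuousAt).mono_left nhdsWithin_le_nhds
    refine ⟨_, lt_min (hpos p0 hp0).1 (hpos p0 hp0).2, fun p hp => ?_⟩
    have h : min (WKB.gramJ (J p0)) (WKB.normJ (J p0)) ≤
        min (WKB.gramJ (J p)) (WKB.normJ (J p)) := hm hp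
    rw [WKB.detg_eq_gramJ, WKB.Wsq_eq_normJ]
    simp only [hJ] at h ⊢
    exact ⟨h.trans (min_le_left _ _), h.trans (min_le_right _ _)⟩
  -- near the loop
  obtain ⟨C, hC0, hC⟩ := c.Φ.close_loop (L := c.R.spin.loop) NN
  obtain ⟨d, hd, hnd⟩ := c.Φ.nondeg c.loop_twist NN hKc fun p hp => by
    have hV := c.Kc_sub hp
    obtain ⟨e1, e2, e3⟩ := jets_congr (c.f_eq p hV)
    rw [e1, e2, e3]
    exact WKB.indep_of_nondeg (hdet p (subset_closure (c.V_sub hV)))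
      (hW p (subset_closure (c.V_sub hV)))
  refine ⟨min (min d d0) (C + 1)⁻¹, lt_min (lt_min hd hd0) (by positivity),
    fun M eps τ lam hA hl hsmall p hp => ?_⟩
  have n0 := abs_nonneg F0; have n1 := abs_nonneg F1; have n2 := abs_nonneg X0
  have n3 := abs_nonneg D0; have n4 := abs_nonneg D1
  have hδ : min (min d d0) (C + 1)⁻¹ ≤ d ∧ min (min d d0) (C + 1)⁻¹ ≤ d0 :=
    ⟨(min_le_left _ _).trans (min_le_left _ _), (min_le_left _ _).trans (min_le_right _ _)⟩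
  rcases em (p ∈ Kc) with hK | hK
  · have hV := c.Kc_sub hK
    have g := c.germ_V (M := M) (eps := eps) (τ := τ) (NN := NN) hl hV
    obtain ⟨e1, e2⟩ := nondeg_congr g
    rw [e1, e2]
    obtain ⟨g1, g2⟩ := hnd M eps τ lam hA.one_le hA.eps_nonneg hA.eps_mul hA.norm_le hl
      (hsmall.trans hδ.1) p hK
    refine ⟨fun i hi => ?_, hδ.1.trans g1, hδ.1.trans g2⟩
    rw [(g.iteratedFDeriv ℝ i).eq_of_nhds]
    obtain ⟨c0, c1, c2, -⟩ := hC M eps τ lam hA.one_le hA.eps_nonneg hA.eps_mul hA.norm_le hl p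
    have hs : C * (lam⁻¹ + ∑ j, eps j) ≤ 1 := by
      refine (mul_le_mul_of_nonneg_left (hsmall.trans (min_le_right _ _)) hC0).trans ?_
      rw [mul_inv_le_iff₀ (by linarith)]
      linarith
    obtain ⟨G, hG⟩ : ∃ G, G = c.Φ.H c.R.spin.loop NN lam M eps τ := ⟨_, rfl⟩
    rw [← hG] at c0 c1 c2 ⊢
    have b0 : ‖G p‖ ≤ |D0| + 1 := by
      have h : ‖c.R.spin.f p‖ ≤ D0 :=
        hD0 ▸ norm_iteratedFDeriv_zero.symm.trans_le (le_supD c.R.D.f_smooth 0 p)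
      linarith [norm_le_norm_add_norm_sub' (G p) (c.R.spin.f p), le_abs_self D0]
    have b1 : ‖dx G p‖ ≤ |X0| + 1 := by
      have h := hX0 (p, lam * p.1)
      rw [norm_iteratedFDeriv_zero] at h
      linarith [norm_le_norm_add_norm_sub' (dx G p) (c.R.spin.loop.X0 (p, lam * p.1)),
        le_abs_self X0]
    have b2 : ‖dy G p‖ ≤ |D1| + 1 := by
      have h : ‖dy c.R.spin.f p‖ ≤ D1 :=
        hD1 ▸ norm_iteratedFDeriv_zero.symm.trans_le (le_supD (WKB.smooth2_dy c.R.D.f_smooth) 0 p)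
      linarith [norm_le_norm_add_norm_sub' (dy G p) (dy c.R.spin.f p), le_abs_self D1]
    interval_cases i
    · rw [norm_iteratedFDeriv_zero]
      linarith
    · have hGs : ContDiff ℝ ∞ G := hG ▸ c.Φ.contDiff_slice_H NN lam hA.one_le eps τ
      refine (WKB.norm_iter_le 1 hGs p (|X0| + |D1| + 1) fun x y hxy => ?_).trans (by linarith)
      obtain ⟨rfl, rfl⟩ | ⟨rfl, rfl⟩ : x = 1 ∧ y = 0 ∨ x = 0 ∧ y = 1 := by omega
      · exact b1.trans (by linarith)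
      · exact b2.trans (by linarith)
  · have g := c.germ_off (M := M) (eps := eps) (τ := τ) (NN := NN) (lam := lam) hp
      (c.notMem_K (c.sub_sq hp) hK)
    obtain ⟨e1, e2⟩ := nondeg_congr g
    rw [e1, e2]
    have hc := subset_closure hp
    refine ⟨fun i hi => ?_, hδ.2.trans (hlow p hc).1, hδ.2.trans (hlow p hc).2⟩
    rw [(g.iteratedFDeriv ℝ i).eq_of_nhds]
    interval_cases i
    · linarith [hF0 p hc, le_abs_self F0]
    · linarith [hF1 p hc, le_abs_self F1]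

/-- Away from the piece the map is close to the given one. -/
theorem away_bound (hN : IsCompact (closure N)) {Ka : Set R2} (haKa : tsupport a ⊆ interior Ka)
    (NN i : ℕ) : ∃ C, 0 ≤ C ∧ ∀ M eps τ lam, Adm (S := S) M eps τ → 1 ≤ lam →
      ∀ p ∈ N, p ∉ Ka →
        ‖iteratedFDeriv ℝ i (c.approxMap NN lam M eps τ) p - iteratedFDeriv ℝ i f p‖
          ≤ C * (lam⁻¹ + ∑ j, eps j * ((M j : ℝ) * lam) ^ i) := by
  obtain ⟨L, hL⟩ : ∃ L, L = c.R.spin.loop := ⟨_, rfl⟩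
  obtain ⟨C, hC0, hC⟩ := exists_iter_bound
    (fun x : (Fin S × Generic.Mode → ℕ) × (Fin S × Generic.Mode → ℝ) ×
        (Fin S × Generic.Mode → ℝ) × ℝ => Adm x.1 x.2.1 x.2.2.1 ∧ 1 ≤ x.2.2.2)
    (fun x y => c.Φ.H L NN x.2.2.2 x.1 x.2.1 x.2.2.1 y -
      WKB.approx L (fun _ _ => 0) NN x.2.2.2 y)
    (fun x d => ∑ j, x.2.1 j * ((x.1 j : ℝ) * x.2.2.2) ^ d) i
    (fun x hx => (c.Φ.contDiff_slice_H NN _ hx.1.one_le _ _).sub
      (WKB.contDiff_approx WKB.input_zero NN _))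
    (fun x hx d hd => by
      have h0 : (0 : ℝ) ≤ x.2.2.2 := by linarith [hx.2]
      refine ⟨Finset.sum_nonneg fun j _ => mul_nonneg (hx.1.eps_nonneg j) (by positivity),
        Finset.sum_le_sum fun j _ => mul_le_mul_of_nonneg_left
          (pow_le_pow_right₀ (one_le_mul_of_one_le_of_one_le ?_ hx.2) hd) (hx.1.eps_nonneg j)⟩
      exact_mod_cast hx.1.one_le j) fun d b => by
    obtain ⟨C, hC0, hC⟩ := c.Φ.sub_zero_bound (L := L) NN d b
    refine ⟨C, hC0, fun ⟨M, eps, τ, lam⟩ ⟨hA, hl⟩ p => ?_⟩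
    simp only at hA hl ⊢
    refine (hC M eps τ lam hA.one_le hA.eps_nonneg hA.eps_mul hA.norm_le hl p).trans ?_
    refine mul_le_mul_of_nonneg_left (Finset.sum_le_sum fun j _ => ?_) hC0
    have h0 : (0 : ℝ) ≤ lam := by linarith
    have := hA.eps_nonneg j
    refine (mul_le_of_le_one_right (by positivity)
      (pow_le_one₀ (by positivity) (inv_le_one_of_one_le₀ hl))).trans ?_
    exact mul_le_mul_of_nonneg_right (div_le_self this (by exact_mod_cast hA.one_le j))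
      (by positivity)
  have hU : ∀ k, ContDiff ℝ ∞ fun p : R2 => WKB.U L (fun _ _ => 0) k (p, (0 : ℝ)) := fun k =>
    (WKB.U_prof WKB.input_zero k).1.comp (contDiff_id.prodMk contDiff_const)
  choose B hB using fun k => hN.exists_bound_of_continuousOn
    ((hU k).continuous_iteratedFDeriv (m := i) (by exact_mod_cast le_top)).continuousOn
  refine ⟨C + ∑ k ∈ Finset.range (NN + 1), |B (k + 1)|, by positivity,
    fun M eps τ lam hA hl p hp hpa => ?_⟩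
  have hE : 0 ≤ ∑ j, eps j * ((M j : ℝ) * lam) ^ i := Finset.sum_nonneg fun j _ =>
    mul_nonneg (hA.eps_nonneg j) (pow_nonneg (mul_nonneg (Nat.cast_nonneg _) (by linarith)) _)
  have hi : (0 : ℝ) ≤ lam⁻¹ := inv_nonneg.2 (by linarith)
  rcases c.mem_V_or hp with hV | hK
  swap
  · rw [((c.germ_off hp hK).iteratedFDeriv ℝ i).eq_of_nhds, sub_self, norm_zero]
    positivity
  obtain ⟨O, hO⟩ : ∃ O : Set R2, O = sq ∩ (tsupport a)ᶜ := ⟨_, rfl⟩
  have hOo : IsOpen O := hO ▸ isOpen_sq.inter (isClosed_tsupport a).isOpen_compl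
  have hpO : p ∈ O := hO ▸ ⟨c.sub_sq hp, fun h => hpa (interior_subset (haKa h))⟩
  have e : (fun z => WKB.approx L (fun _ _ => 0) NN lam z - c.R.D.f z) =ᶠ[𝓝 p] fun z =>
      ∑ k ∈ Finset.range (NN + 1),
        (lam⁻¹) ^ (k + 1) • WKB.U L (fun _ _ => 0) (k + 1) (z, (0 : ℝ)) := by
    filter_upwards [hOo.mem_nhds hpO] with z hz
    refine WKB.approx_still (K := NN + 1) WKB.input_zero hOo (fun q hq θ => ?_)
      (fun j _ q _ θ => rfl) le_rfl lam hz
    rw [hO] at hq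
    rw [hL]
    exact c.w_zero q (by rw [frac_of_mem hq.1]; exact hq.2) θ
  have h2 : ‖iteratedFDeriv ℝ i (fun z => WKB.approx L (fun _ _ => 0) NN lam z - c.R.D.f z) p‖
      ≤ (∑ k ∈ Finset.range (NN + 1), |B (k + 1)|) * lam⁻¹ := by
    rw [(e.iteratedFDeriv ℝ i).eq_of_nhds, iteratedFDeriv_fun_sum_apply
      fun k _ => (((hU (k + 1)).of_le (by exact_mod_cast le_top)).const_smul _).contDiffAt,
      Finset.sum_mul]
    refine (norm_sum_le _ _).trans (Finset.sum_le_sum fun k _ => ?_)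
    rw [iteratedFDeriv_const_smul_apply'
      ((hU (k + 1)).of_le (by exact_mod_cast le_top)).contDiffAt, norm_smul, mul_comm]
    refine mul_le_mul ((hB _ p (subset_closure hp)).trans (le_abs_self _)) ?_ (norm_nonneg _)
      (abs_nonneg _)
    rw [Real.norm_eq_abs, abs_of_nonneg (pow_nonneg hi _)]
    exact pow_le_of_le_one hi (inv_le_one_of_one_le₀ hl) (Nat.succ_ne_zero k)
  obtain ⟨G, hG⟩ : ∃ G, G = c.Φ.H c.R.spin.loop NN lam M eps τ := ⟨_, rfl⟩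
  have hGs : ContDiffAt ℝ i G p := hG ▸
    ((c.Φ.contDiff_slice_H NN lam hA.one_le eps τ).of_le (by exact_mod_cast le_top)).contDiffAt
  have hzs : ContDiffAt ℝ i (WKB.approx L (fun _ _ => 0) NN lam) p :=
    ((WKB.contDiff_approx WKB.input_zero NN lam).of_le (by exact_mod_cast le_top)).contDiffAt
  have hfs : ContDiffAt ℝ i c.R.D.f p :=
    (c.R.D.f_smooth.1.of_le (by exact_mod_cast le_top)).contDiffAt
  have h1 := hC ⟨M, eps, τ, lam⟩ ⟨hA, hl⟩ p
  simp only [hL, ← hG] at h1 h2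
  rw [hL] at hzs
  rw [fun_iteratedFDeriv_sub_apply hGs hzs] at h1
  rw [fun_iteratedFDeriv_sub_apply hzs hfs] at h2
  rw [((c.germ_V hl hV).iteratedFDeriv ℝ i).eq_of_nhds,
    ((c.f_eq p hV).symm.iteratedFDeriv ℝ i).eq_of_nhds, ← hG]
  refine (norm_sub_le_norm_sub_add_norm_sub _ _ _).trans ((add_le_add h1 h2).trans ?_)
  have hS : 0 ≤ ∑ k ∈ Finset.range (NN + 1), |B (k + 1)| :=
    Finset.sum_nonneg fun _ _ => abs_nonneg _
  nlinarith

/-- All requirements of `ApproxStatement` but the lower bound of the criterion. -/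
theorem approx_bounds {Ka : Set R2} (hNsq : closure N ⊆ sq) (hKc : IsCompact Kc)
    (haKa : tsupport a ⊆ interior Ka) (hf : ContDiff ℝ ∞ f)
    (hdet : ∀ p ∈ closure N, detg f p ≠ 0) (hW : ∀ p ∈ closure N, Wsq (fun _ => 1) f p ≠ 0)
    (NN : ℕ → ℕ) (hNN : ∀ n, n ≤ NN n) (M : ℕ → ℝ → Fin S × Generic.Mode → ℕ)
    (eps τ : ℕ → ℝ → Fin S × Generic.Mode → ℝ) (Q : ℕ) (hM : ∀ n lam j, 1 ≤ M n lam j)
    (he : ∀ n lam j, 0 ≤ eps n lam j) (heM : ∀ n lam j, eps n lam j * M n lam j ≤ 1)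
    (hτ : ∀ n lam, ‖τ n lam‖ ≤ 8) (hQ : ∀ n lam j, (M n lam j : ℝ) ≤ max lam 1 ^ Q)
    (hsmall : ∀ n, ∀ᶠ lam : ℝ in atTop, ∀ j,
      eps n lam j * ((M n lam j : ℝ) * lam) ^ 10 ≤ lam⁻¹)
    (F : ℕ → ℝ → R2 → V4)
    (hF : ∀ n lam, F n lam = c.approxMap (NN n) lam (M n lam) (eps n lam) (τ n lam)) :
    ∃ (q₀ : ℕ) (B : ℝ),
      (∀ n lam, ContDiff ℝ ∞ (F n lam)) ∧
      (∀ n lam, ∀ p ∈ N, p ∉ Kc → F n lam p = f p) ∧
      (∀ n i, ∃ (C : ℝ) (e : ℕ), ∀ lam : ℝ, 1 ≤ lam → ∀ p ∈ N,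
        ‖iteratedFDeriv ℝ i (F n lam) p‖ ≤ C * lam ^ e) ∧
      (∀ n i, ∃ (C : ℝ) (e : ℕ), ∀ lam : ℝ, 1 ≤ lam → ∀ p ∈ N,
        ‖iteratedFDeriv ℝ i (defect f a (F n lam)) p‖ ≤ C * lam ^ e) ∧
      (∀ i m, ∃ n₀, ∀ n, n₀ ≤ n → ∀ᶠ lam : ℝ in atTop, ∀ p ∈ N,
        ‖iteratedFDeriv ℝ i (defect f a (F n lam)) p‖ * lam ^ m ≤ 1) ∧
      (∀ q, q₀ ≤ q → ∀ n, ∀ᶠ lam : ℝ in atTop, ∀ p ∈ N,
        (∀ i ≤ 1, ‖iteratedFDeriv ℝ i (F n lam) p‖ ≤ B) ∧
        (lam ^ q)⁻¹ ≤ detg (F n lam) p ∧ (lam ^ q)⁻¹ ≤ Wsq (fun _ => 1) (F n lam) p) ∧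
      (∀ q, q₀ ≤ q → ∀ n i, 2 ≤ i → ∀ᶠ lam : ℝ in atTop, ∀ p ∈ N,
        ‖iteratedFDeriv ℝ i (F n lam) p‖ ≤ lam ^ (q * (i - 1))) ∧
      ∀ n, ∀ ε : ℝ, 0 < ε → ∀ᶠ lam : ℝ in atTop, ∀ p ∈ N, p ∉ Ka → ∀ i ≤ 9,
        ‖iteratedFDeriv ℝ i (F n lam) p - iteratedFDeriv ℝ i f p‖ ≤ ε := by
  have hN : IsCompact (closure N) := Metric.isCompact_of_isClosed_isBounded isClosed_closure
    (((Metric.isBounded_Ioo 0 1).prod (Metric.isBounded_Ioo 0 1)).subset hNsq)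
  have hA : ∀ n lam, Adm (M n lam) (eps n lam) (τ n lam) := fun n lam =>
    ⟨hM n lam, he n lam, heM n lam, hτ n lam⟩
  have hQ' : ∀ n lam, 1 ≤ lam → ∀ j, (M n lam j : ℝ) ≤ lam ^ Q := fun n lam hl j =>
    (hQ n lam j).trans_eq (by rw [max_eq_left hl])
  obtain ⟨B, hB⟩ := c.first_bound hf hN hKc hdet hW
  have hinv : Tendsto (fun lam : ℝ => lam⁻¹) atTop (𝓝 0) := tendsto_inv_atTop_zero
  refine ⟨2 * Q + 3, B, fun n lam => hF n lam ▸ c.contDiff_approxMap hf _ _ (hM n lam),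
    fun n lam p _ hp => hF n lam ▸ c.approxMap_eq hp, fun n i => ?_, fun n i => ?_,
    fun i m => ⟨(Q + 1) * i + m, fun n hn => ?_⟩, fun q hq n => ?_, fun q hq n i hi => ?_,
    fun n ε hε => ?_⟩
  · obtain ⟨C, -, hC⟩ := c.iter_bound hf hN (NN n) Q i
    exact ⟨C, (Q + 1) * i, fun lam hl p hp =>
      hF n lam ▸ hC _ _ _ lam (hA n lam) hl (hQ' n lam hl) p hp⟩
  · obtain ⟨C, hC0, hC⟩ := c.defect_iter_bound (NN n) Q i
    refine ⟨C, (Q + 1) * i, fun lam hl p hp => ?_⟩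
    refine (hF n lam ▸ hC _ _ _ lam (hA n lam) hl (hQ' n lam hl) p hp).trans
      (mul_le_mul_of_nonneg_left ?_ hC0)
    exact mul_le_of_le_one_left (by positivity)
      (pow_le_one₀ (by positivity) (inv_le_one_of_one_le₀ hl))
  · obtain ⟨C, hC0, hC⟩ := c.defect_iter_bound (NN n) Q i
    filter_upwards [eventually_ge_atTop 1, eventually_ge_atTop C] with lam hl hlC p hp
    have h0 : (0 : ℝ) < lam := by linarith
    refine (mul_le_mul_of_nonneg_right (hF n lam ▸ hC _ _ _ lam (hA n lam) hl (hQ' n lam hl) p hp)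
      (by positivity)).trans ?_
    rw [mul_assoc, mul_assoc, ← pow_add]
    have h1 : lam ^ ((Q + 1) * i + m) ≤ lam ^ NN n := pow_le_pow_right₀ hl (hn.trans (hNN n))
    calc C * ((lam⁻¹) ^ (NN n + 1) * lam ^ ((Q + 1) * i + m))
        ≤ C * ((lam⁻¹) ^ (NN n + 1) * lam ^ NN n) := by gcongr
      _ = C * lam⁻¹ := by
          rw [pow_succ, mul_comm _ lam⁻¹, mul_assoc lam⁻¹, ← mul_pow, inv_mul_cancel₀ h0.ne',
            one_pow, mul_one]
      _ ≤ 1 := by rw [mul_inv_le_iff₀ h0]; linarith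
  · obtain ⟨δ, hδ, hδ'⟩ := hB (NN n)
    obtain ⟨r, hr⟩ : ∃ r : ℝ, r = δ / (1 + Fintype.card (Fin S × Generic.Mode)) := ⟨_, rfl⟩
    have hr0 : 0 < r := hr ▸ by positivity
    have hrδ : r * (1 + Fintype.card (Fin S × Generic.Mode)) = δ := by
      rw [hr, div_mul_cancel₀ _ (by positivity)]
    filter_upwards [eventually_ge_atTop 1, hsmall n, hinv.eventually (Iic_mem_nhds hr0)] with
      lam hl hs hlr p hp
    have h0 : (0 : ℝ) < lam := by linarith
    have hle : lam⁻¹ + ∑ j, eps n lam j ≤ δ := by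
      have : ∑ j, eps n lam j ≤ Fintype.card (Fin S × Generic.Mode) * r :=
        (Finset.sum_le_card_nsmul _ _ r fun j _ => ?_).trans_eq (by simp)
      · linarith
      refine le_trans ?_ ((hs j).trans hlr)
      refine le_mul_of_one_le_right (he n lam j) (one_le_pow₀ ?_)
      exact one_le_mul_of_one_le_of_one_le (by exact_mod_cast hM n lam j) hl
    obtain ⟨g1, g2, g3⟩ := hδ' _ _ _ lam (hA n lam) hl hle p hp
    have hq1 : (lam ^ q)⁻¹ ≤ δ := by
      rw [← inv_pow]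
      refine (pow_le_of_le_one (by positivity) (inv_le_one_of_one_le₀ hl) (by omega)).trans ?_
      linarith [Finset.sum_nonneg fun j (_ : j ∈ Finset.univ) => he n lam j]
    rw [hF n lam]
    exact ⟨g1, hq1.trans g2, hq1.trans g3⟩
  · obtain ⟨C, hC0, hC⟩ := c.iter_bound hf hN (NN n) Q i
    filter_upwards [eventually_ge_atTop 1, eventually_ge_atTop C] with lam hl hlC p hp
    refine (hF n lam ▸ hC _ _ _ lam (hA n lam) hl (hQ' n lam hl) p hp).trans ?_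
    calc C * lam ^ ((Q + 1) * i) ≤ lam * lam ^ ((Q + 1) * i) := by gcongr
      _ = lam ^ ((Q + 1) * i + 1) := by rw [pow_succ']
      _ ≤ _ := pow_le_pow_right₀ hl ?_
    obtain ⟨k, rfl⟩ : ∃ k, i = k + 2 := ⟨i - 2, by omega⟩
    rw [show k + 2 - 1 = k + 1 by omega]
    calc (Q + 1) * (k + 2) + 1 ≤ (2 * Q + 3) * (k + 1) := by nlinarith
      _ ≤ q * (k + 1) := Nat.mul_le_mul_right _ hq
  · choose C hC0 hC using fun i => c.away_bound hN haKa (NN n) i
    obtain ⟨T, hT⟩ : ∃ T, T = ∑ i ∈ Finset.range 10,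
        C i * (1 + Fintype.card (Fin S × Generic.Mode)) := ⟨_, rfl⟩
    filter_upwards [eventually_ge_atTop 1, hsmall n, eventually_ge_atTop (T / ε)] with
      lam hl hs hlT p hp hpa i hi
    have h0 : (0 : ℝ) < lam := by linarith
    rw [hF n lam]
    refine (hC i _ _ _ lam (hA n lam) hl p hp hpa).trans ?_
    have h1 : ∑ j, eps n lam j * ((M n lam j : ℝ) * lam) ^ i ≤
        Fintype.card (Fin S × Generic.Mode) * lam⁻¹ :=
      (Finset.sum_le_card_nsmul _ _ lam⁻¹ fun j _ => (mul_le_mul_of_nonneg_left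
        (pow_le_pow_right₀ (one_le_mul_of_one_le_of_one_le (by exact_mod_cast hM n lam j) hl)
          (by omega)) (he n lam j)).trans (hs j)).trans_eq (by simp)
    calc C i * (lam⁻¹ + ∑ j, eps n lam j * ((M n lam j : ℝ) * lam) ^ i)
        ≤ C i * ((1 + Fintype.card (Fin S × Generic.Mode)) * lam⁻¹) :=
          mul_le_mul_of_nonneg_left (by linarith) (hC0 i)
      _ ≤ T * lam⁻¹ := by
          rw [← mul_assoc, hT]
          refine mul_le_mul_of_nonneg_right ?_ (by positivity)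
          exact Finset.single_le_sum
            (f := fun i => C i * (1 + Fintype.card (Fin S × Generic.Mode) : ℝ))
            (fun i _ => mul_nonneg (hC0 i) (by positivity)) (Finset.mem_range.2 (by omega))
      _ ≤ ε := by
          rw [mul_inv_le_iff₀ h0]
          rw [div_le_iff₀ hε] at hlT
          linarith

end RoundCell

end

end Vale.Agent.P205.Bridge
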