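import Mathlib

/-!
# P205: one family from approximants of every order

The order `sel lam` grows slowly with the parameter, so every property that holds eventually at
each fixed order holds for the selected family, and every quantity that is polynomially bounded at
each order and eventually bounded by a fixed constant at high order is bounded along the family.
-/

namespace Vale.Agent.P205.Bridge

open Filter

noncomputable section

theorem exists_selection {κ : Type*} [Encodable κ] (Le : ℕ → κ → ℝ → ℝ → Prop)
    (hLe : ∀ N k lam, Monotone (Le N k lam)) (B : κ → ℝ)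
    (P : ℕ → ℝ → Prop) (N₀ : κ → ℕ) (hP : ∀ N, ∀ᶠ lam in atTop, P N lam)
    (hev : ∀ k N, N₀ k ≤ N → ∀ᶠ lam in atTop, Le N k lam (B k))
    (hloc : ∀ k N, ∃ (C : ℝ) (e : ℕ), ∀ lam, 1 ≤ lam → P N lam → Le N k lam (C * lam ^ e)) :
    ∃ (sel : ℝ → ℕ) (G : κ → ℝ) (lam₀ : ℝ), Tendsto sel atTop atTop ∧
      ∀ lam, lam₀ ≤ lam → P (sel lam) lam ∧ ∀ k, Le (sel lam) k lam (G k) := by
  classical
  choose C e hC using hloc
  have hall : ∀ N, ∀ᶠ lam in atTop, P N lam ∧
      ∀ k, Encodable.encode k ≤ N → N₀ k ≤ N → Le N k lam (B k) := by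
    intro N
    have hfin : {k : κ | Encodable.encode k ≤ N}.Finite :=
      (Set.finite_Iic N).preimage Encodable.encode_injective.injOn
    refine (hP N).and ((eventually_all_finite hfin).2 fun k _ => ?_)
    by_cases h : N₀ k ≤ N
    · filter_upwards [hev k N h] with lam h2 using fun _ => h2
    · exact Eventually.of_forall fun lam h' => absurd h' h
  choose T hT using fun N => eventually_atTop.1 (hall N)
  -- the thresholds: increasing and beyond `T`
  set th : ℕ → ℝ := fun N => Nat.rec (motive := fun _ => ℝ) (max (T 0) 1)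
    (fun n r => max (T (n + 1)) (r + 1)) N with hth
  have hth_succ : ∀ N, th N + 1 ≤ th (N + 1) := fun N => le_max_right _ _
  have hthT : ∀ N, T N ≤ th N := fun N => by cases N <;> exact le_max_left _ _
  have hth_mono : Monotone th := monotone_nat_of_le_succ fun N => by linarith [hth_succ N]
  have hth_ge : ∀ N : ℕ, (N : ℝ) ≤ th N := fun N => by
    induction N with
    | zero => exact le_trans (by simp) (le_max_right (T 0) 1)
    | succ n ih => push_cast; linarith [hth_succ n]
  have hbdd : ∀ lam : ℝ, ∃ b : ℕ, ∀ N, th N ≤ lam → N ≤ b := fun lam =>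
    ⟨⌈lam⌉₊, fun N hN => Nat.cast_le.1 ((hth_ge N).trans (hN.trans (Nat.le_ceil _)))⟩
  choose b hb using hbdd
  set sel : ℝ → ℕ := fun lam => Nat.findGreatest (fun N => th N ≤ lam) (b lam)
  have hsel : ∀ lam, th 0 ≤ lam → th (sel lam) ≤ lam := fun lam h =>
    Nat.findGreatest_spec (P := fun N => th N ≤ lam) (Nat.zero_le _) h
  have hmax : ∀ N lam, th N ≤ lam → N ≤ sel lam := fun N lam h =>
    Nat.le_findGreatest (hb lam N h) h
  have hlt : ∀ N lam, sel lam ≤ N → lam ≤ th (N + 1) := fun N lam h => le_of_not_ge fun h' => by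
    have := hmax (N + 1) lam h'; omega
  -- the bound: `B` at high order, the polynomial bound on a bounded range below that
  set M : κ → ℕ := fun k => max (Encodable.encode k) (N₀ k)
  set G : κ → ℝ := fun k => max (B k)
    (∑ N ∈ Finset.range (M k + 1), |C k N| * max 1 (th (M k + 1)) ^ e k N)
  refine ⟨sel, G, th 0, ?_, fun lam hlam => ?_⟩
  · exact tendsto_atTop.2 fun N => eventually_atTop.2 ⟨th N, fun lam h => hmax N lam h⟩
  obtain ⟨hP', hv⟩ := hT _ lam ((hthT _).trans (hsel lam hlam))
  refine ⟨hP', fun k => ?_⟩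
  by_cases h : M k ≤ sel lam
  · exact hLe _ _ _ (le_max_left _ _) (hv k ((le_max_left _ _).trans h) ((le_max_right _ _).trans h))
  · have hk : sel lam ≤ M k := (not_le.1 h).le
    have hl1 : 1 ≤ lam := le_trans (le_max_right (T 0) 1) hlam
    have hS' := hC k (sel lam) lam hl1 hP'
    refine hLe _ _ _ (le_trans ?_ (le_max_right _ _)) hS'
    refine le_trans ?_ (Finset.single_le_sum
      (f := fun N => |C k N| * max 1 (th (M k + 1)) ^ e k N) (fun N _ => by positivity)
      (Finset.mem_range.2 (Nat.lt_succ_of_le hk)))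
    exact mul_le_mul (le_abs_self _) (pow_le_pow_left₀ (by linarith)
      ((hlt _ lam hk).trans (le_max_right _ _)) _) (by positivity) (abs_nonneg _)

end

end Vale.Agent.P205.Bridge
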