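import Vale.Agent.P205.Full.Bridge.Cell

/-!
# P205: from an approximate solution on a plane cell to an exact one

`Cell.exact` turns a family of maps which solve the metric equation on an open subset `N` of the
unit square up to `O(lam^-∞)`, exactly outside a compact `K ⊆ N`, into exact solutions, with a change
which is `O(lam^-∞)` and supported in a fixed compact subset of `N`.  The right inverse enters
through a correction theorem of the shape `Cell.Corr`.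
-/

namespace Vale.Agent.P205.Bridge

open scoped ContDiff Topology
open Correction Set Filter Finset
open Vale.Agent.P205.Algebra

noncomputable section

/-- The cutoffs of a cell. -/
structure Cell (N K : Set R2) where
  /-- the support of the cut `ψ` -/
  K₁ : Set R2
  /-- the support of the cut `η₂` -/
  K₂ : Set R2
  /-- the support of the cut `η₃` -/
  K₃ : Set R2
  /-- the support of the cut `ζ` -/
  K₄ : Set R2
  /-- the cut which defines the radius -/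
  ψ : R2 → ℝ
  /-- the cut of the criterion -/
  η₂ : R2 → ℝ
  /-- the cut of the jets -/
  η₃ : R2 → ℝ
  /-- the cut of the map -/
  ζ : R2 → ℝ
  cK₁ : IsCompact K₁
  cK₂ : IsCompact K₂
  cK₃ : IsCompact K₃
  cK₄ : IsCompact K₄
  sub₁ : K ⊆ interior K₁
  sub₂ : K₁ ⊆ interior K₂
  sub₃ : K₂ ⊆ interior K₃
  sub₄ : K₃ ⊆ interior K₄
  subN : K₄ ⊆ N
  ψ_smooth : ContDiff ℝ ∞ ψ
  η₂_smooth : ContDiff ℝ ∞ η₂
  η₃_smooth : ContDiff ℝ ∞ η₃
  ζ_smooth : ContDiff ℝ ∞ ζ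
  η₃_mem : ∀ p, 0 ≤ η₃ p ∧ η₃ p ≤ 1
  η₂_mem : ∀ p, 0 ≤ η₂ p ∧ η₂ p ≤ 1
  ψ_one : ∀ p ∈ K, ψ p = 1
  η₂_one : ∀ p ∈ K₁, η₂ =ᶠ[𝓝 p] fun _ => 1
  η₃_one : ∀ p ∈ K₂, η₃ =ᶠ[𝓝 p] fun _ => 1
  ζ_one : ∀ p ∈ K₃, ζ =ᶠ[𝓝 p] fun _ => 1
  ψ_zero : ∀ p ∉ K₁, ψ p = 0
  η₂_zero : ∀ p ∉ K₂, η₂ p = 0
  η₃_zero : ∀ p ∉ K₃, η₃ p = 0
  ζ_zero : ∀ p ∉ K₄, ζ p = 0

theorem exists_cell {N K : Set R2} (hN : IsOpen N) (hK : IsCompact K) (hKN : K ⊆ N) :
    Nonempty (Cell N K) := by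
  obtain ⟨ψ, K₁, c1, n1, s1, d1, -, o1, z1⟩ := exists_bump hK hN hKN
  obtain ⟨η₂, K₂, c2, n2, s2, d2, m2, o2, z2⟩ := exists_bump c1 hN n1
  obtain ⟨η₃, K₃, c3, n3, s3, d3, m3, o3, z3⟩ := exists_bump c2 hN n2
  obtain ⟨ζ, K₄, c4, n4, s4, d4, -, o4, z4⟩ := exists_bump c3 hN n3
  exact ⟨{ K₁ := K₁, K₂ := K₂, K₃ := K₃, K₄ := K₄, ψ := ψ, η₂ := η₂, η₃ := η₃, ζ := ζ
           cK₁ := c1, cK₂ := c2, cK₃ := c3, cK₄ := c4, sub₁ := s1, sub₂ := s2, sub₃ := s3
           sub₄ := s4, subN := n4, ψ_smooth := d1, η₂_smooth := d2, η₃_smooth := d3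
           ζ_smooth := d4, η₃_mem := m3, η₂_mem := m2
           ψ_one := fun p hp => (o1 p hp).eq_of_nhds, η₂_one := o2, η₃_one := o3, ζ_one := o4
           ψ_zero := z1, η₂_zero := z2, η₃_zero := z3, ζ_zero := z4 }⟩

namespace Cell

variable {N K : Set R2} (c : Cell N K)

lemma K₃_subN : c.K₃ ⊆ N := c.sub₄.trans (interior_subset.trans c.subN)

lemma K₂_subN : c.K₂ ⊆ N := c.sub₃.trans (interior_subset.trans c.K₃_subN)

lemma K₁_subN : c.K₁ ⊆ N := c.sub₂.trans (interior_subset.trans c.K₂_subN)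

/-- The periodic cut of the jets. -/
def η : R2 → ℝ := per c.η₃

/-- The periodic cut of the criterion. -/
def η' : R2 → ℝ := per c.η₂

/-- The radius function. -/
def radial (p : R2) : ℝ := 3 - 3 * per c.ψ p

/-- The set on which the identities hold. -/
def O : Set R2 := interior {p | c.η p = 1 ∧ c.η' p = 1}

/-- The periodised map. -/
def F0 (f : R2 → V4) : R2 → V4 := per fun p => c.ζ p • f p

/-- The shape of an exact correction theorem for the data of the cell, with `Low` the lower bound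
of the denominator of the right inverse. -/
def Corr (Low : (R2 → V4) → ℝ → Prop) : Prop :=
  ∀ Kb : ℕ → ℝ, ∃ (a n : ℕ) (L₀ : ℝ), ∀ E : ℕ → ℝ, ∃ G : ℕ → ℕ → ℝ, ∀ L : ℝ, L₀ ≤ L →
    ∀ (F g : _), Smooth2 (V := V4) F → Smooth2 (V := Fin 3 → ℝ) g →
      (∀ i, pn i F ≤ Kb i * L ^ i) → (∀ i, pn i g ≤ Kb i * L ^ i) →
      (∀ p, 1 * (2 - 1 / L) < c.radial p → metF F p = g p) →
      (∀ p, L⁻¹ ≤ detg F p + (1 - c.η p)) → (∀ p, L⁻¹ ≤ Wsq c.η F p + (1 - c.η p)) →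
      Low F L →
      (∀ i ≤ a, pn i (fun p => metF F p - g p) * L ^ n ≤ 1) →
      (∀ M, ∀ i ≤ a, pn i (fun p => metF F p - g p) * L ^ M ≤ E M) →
      ∃ x : R2 → V4, Smooth2 x ∧ (∀ p, 2 * (1 : ℝ) ≤ c.radial p → x p = 0) ∧
        (∀ i M, pn i x * L ^ M ≤ G i M) ∧ ∀ p, metF (fun q => F q + x q) p = g p

section
variable (hNsq : N ⊆ sq)
include hNsq

lemma smooth2_η : Smooth2 c.η :=
  smooth2_per c.cK₃ (c.K₃_subN.trans hNsq) c.η₃_zero c.η₃_smooth

lemma smooth2_η' : Smooth2 c.η' :=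
  smooth2_per c.cK₂ (c.K₂_subN.trans hNsq) c.η₂_zero c.η₂_smooth

lemma smooth2_radial : Smooth2 c.radial := by
  have h := smooth2_per c.cK₁ (c.K₁_subN.trans hNsq) c.ψ_zero c.ψ_smooth
  exact ⟨contDiff_const.sub (contDiff_const.mul h.1),
    fun p => by simp only [radial, h.2.1], fun p => by simp only [radial, h.2.2]⟩

lemma mem_O {p : R2} (hp : c.radial p ≤ 2 * 1) : p ∈ c.O := by
  have h1 : frac p ∈ c.K₁ := by
    by_contra h
    have : per c.ψ p = 0 := c.ψ_zero _ h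
    simp only [radial, this] at hp
    linarith
  have hs : frac p ∈ sq := hNsq (c.K₁_subN h1)
  rw [O, mem_interior_iff_mem_nhds]
  filter_upwards [per_germ hs (c.η₂_one _ h1),
    per_germ hs (c.η₃_one _ (interior_subset (c.sub₂ h1)))] with q h2 h3
  exact ⟨h3, h2⟩

omit hNsq in
lemma O_eq {p : R2} (hp : p ∈ c.O) : c.η p = 1 ∧ c.η' p = 1 :=
  (interior_subset hp : p ∈ {p | c.η p = 1 ∧ c.η' p = 1})

/-- Where the cut of the jets is nonzero, the periodised map is a translate of the map. -/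
lemma F0_germ (f : R2 → V4) {p : R2} (hp : c.η p ≠ 0) :
    frac p ∈ N ∧ Sh (frac p - p) p (c.F0 f) f := by
  have h : frac p ∈ c.K₃ := by
    by_contra h
    exact hp (c.η₃_zero _ h)
  refine ⟨c.K₃_subN h, per_germ (hNsq (c.K₃_subN h)) ?_⟩
  filter_upwards [c.ζ_one _ h] with q hq
  rw [hq, one_smul]

omit hNsq in
lemma low_of_zero {L X : ℝ} (hL : 1 ≤ L) (hX : 0 ≤ X) : L⁻¹ ≤ X + (1 - (0 : ℝ)) := by
  linarith [inv_le_one_of_one_le₀ hL]

lemma low_det {f : R2 → V4} {L : ℝ} (hL : 1 ≤ L) (h : ∀ p ∈ N, L⁻¹ ≤ detg f p) (p : R2) :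
    L⁻¹ ≤ detg (c.F0 f) p + (1 - c.η p) := by
  by_cases hp : c.η p = 0
  · rw [hp]; exact low_of_zero hL (detg_nonneg _ _)
  · obtain ⟨hq, hs⟩ := c.F0_germ hNsq f hp
    have := h _ hq
    rw [(detg_congr hs).eq_of_nhds, add_sub_cancel]
    linarith [show c.η p ≤ 1 from (c.η₃_mem _).2]

lemma low_W {f : R2 → V4} {L : ℝ} (hL : 1 ≤ L) (h : ∀ p ∈ N, L⁻¹ ≤ detg f p)
    (hW : ∀ p ∈ N, L⁻¹ ≤ Wsq (fun _ => 1) f p) (p : R2) :
    L⁻¹ ≤ Wsq c.η (c.F0 f) p + (1 - c.η p) := by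
  by_cases hp : c.η p = 0
  · rw [hp]; exact low_of_zero hL real_inner_self_nonneg
  · obtain ⟨hq, hs⟩ := c.F0_germ hNsq f hp
    have hd : 0 < detg (c.F0 f) p := by
      rw [(detg_congr hs).eq_of_nhds, add_sub_cancel]
      exact lt_of_lt_of_le (by positivity) (h _ hq)
    have h1 := (Wsq_congr (η := fun _ => 1) (η' := fun _ => 1) EventuallyEq.rfl hs).eq_of_nhds
    rw [add_sub_cancel] at h1
    linarith [hW _ hq, Wsq_le (η := c.η) (c.F0 f) hd, show c.η p ≤ 1 from (c.η₃_mem _).2]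

lemma low_crit {f : R2 → V4} {L : ℝ} (hL : 1 ≤ L)
    (hC : ∀ p ∈ N, L⁻¹ ≤ criterion (fun _ => 1) f p) (p : R2) :
    L⁻¹ ≤ criterion c.η (c.F0 f) p + (1 - c.η' p) := by
  by_cases hp : c.η' p = 0
  · rw [hp]
    exact low_of_zero hL (add_nonneg (sq_nonneg _)
      (sum_nonneg fun _ _ => sum_nonneg fun _ _ => sq_nonneg _))
  · have h2 : frac p ∈ c.K₂ := by
      by_contra h
      exact hp (c.η₂_zero _ h)
    have hs : frac p ∈ sq := hNsq (c.K₂_subN h2)
    have hη : Sh (frac p - p) p c.η fun _ => 1 := per_germ hs (c.η₃_one _ h2)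
    have hp3 : c.η p ≠ 0 := by rw [hη.eq_of_nhds]; exact one_ne_zero
    rw [(criterion_congr hη (c.F0_germ hNsq f hp3).2).eq_of_nhds, add_sub_cancel]
    linarith [hC _ (c.K₂_subN h2), show c.η' p ≤ 1 from (c.η₂_mem _).2]

/-- The standard correction theorem has the shape `Corr`. -/
theorem corr_criterion :
    c.Corr fun F L => ∀ p, L⁻¹ ≤ criterion c.η F p + (1 - c.η' p) := by
  intro Kb
  obtain ⟨a, n, L₀, h⟩ := exact_correction_bound Kb (c.smooth2_η hNsq)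
    (fun p => (c.η₃_mem _).2) (c.smooth2_η' hNsq) isOpen_interior
    (fun p hp => (c.O_eq hp).1) (fun p hp => (c.O_eq hp).2) (c.smooth2_radial hNsq) one_pos
    (fun p hp => c.mem_O hNsq hp) 0 0
  refine ⟨a, n, L₀, fun E => ?_⟩
  obtain ⟨G, hG⟩ := h E
  refine ⟨G, fun L hL F g h1 h2 h3 h4 h5 h6 h7 h8 h9 h10 => ?_⟩
  obtain ⟨x, hx, hx0, -, hxG, hxe⟩ := hG L hL F g h1 h2 h3 h4 h5 h6 h7 h8 h9 h10
  exact ⟨x, hx, hx0, hxG, hxe⟩

end

/-- The bridge for any correction theorem: the error `metF f - Gm` is `O(lam^-∞)` on `N` and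
vanishes on `N \ K`; the lower bounds of `det g` and `W²` are polynomial, and so is that of the
denominator, given by `Low` on the periodised map. -/
theorem exact (hN : IsOpen N) (hNsq : N ⊆ sq) (hK : IsCompact K) {Low : (R2 → V4) → ℝ → Prop}
    (hcorr : c.Corr Low) (C : ℕ → ℝ) (q : ℕ) (E : ℕ → ℕ → ℝ) :
    ∃ (lam₀ : ℝ) (G : ℕ → ℕ → ℝ) (KF : ℕ → ℝ), ∀ lam : ℝ, lam₀ ≤ lam →
      ∀ (f : R2 → V4) (Gm : R2 → Fin 3 → ℝ), ContDiff ℝ ∞ f → ContDiff ℝ ∞ Gm →
      (∀ i, ∀ p ∈ N, ‖iteratedFDeriv ℝ i f p‖ ≤ C i * lam ^ (q * (i - 1))) →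
      (∀ p ∈ N, p ∉ K → metF f p = Gm p) →
      (∀ i n, ∀ p ∈ N,
        ‖iteratedFDeriv ℝ i (fun z => metF f z - Gm z) p‖ * lam ^ n ≤ E i n) →
      (∀ p ∈ N, (lam ^ q)⁻¹ ≤ detg f p) → (∀ p ∈ N, (lam ^ q)⁻¹ ≤ Wsq (fun _ => 1) f p) →
      Low (c.F0 f) (lam ^ (q + 1)) →
      ∃ x x₀ : R2 → V4, ContDiff ℝ ∞ x ∧ (∀ p ∉ c.K₁, x p = 0) ∧
        (∀ p ∈ N, metF (fun z => f z + x z) p = Gm p) ∧ Smooth2 x₀ ∧
        (∀ i n, pn i x₀ * (lam ^ (q + 1)) ^ n ≤ G i n) ∧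
        (∀ i, pn i (c.F0 f) ≤ KF i * (lam ^ (q + 1)) ^ i) ∧
        ∀ p ∈ c.K₁, (fun z => f z + x z) =ᶠ[𝓝 p] fun z => c.F0 f z + x₀ z := by
  obtain ⟨Bζ, hBζ⟩ := exists_deriv_bound c.ζ_smooth c.cK₄ c.ζ_zero
  set CF : ℕ → ℝ := fun m => ∑ j ∈ range (m + 1), m.choose j * Bζ j * |C (m - j)|
  set KF : ℕ → ℝ := fun i => ∑ m ∈ range (i + 1), CF m
  set ED : ℕ → ℕ → ℝ := fun i n => ∑ m ∈ range (i + 1), |E m n|
  set Kb : ℕ → ℝ := fun i => max (KF i) (bilinNorm metB * (i + 1) * 2 ^ i *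
    (∑ j ∈ range (i + 1), KF (j + 1) * KF (i - j + 1)) + ED i 0)
  obtain ⟨a, n₀, L₀, h⟩ := hcorr Kb
  obtain ⟨G, hG⟩ := h fun M => ED a ((q + 1) * M)
  refine ⟨max (max 1 L₀) (ED a ((q + 1) * n₀ + 1)), G, KF,
    fun lam hlam f Gm hf hGm hfC hout herr hdet hW hlow => ?_⟩
  have hl1 : 1 ≤ lam := ((le_max_left _ _).trans (le_max_left _ _)).trans hlam
  set L := lam ^ (q + 1) with hLdef
  have hlL : lam ≤ L := le_self_pow₀ hl1 (Nat.succ_ne_zero q)
  have hL1 : 1 ≤ L := hl1.trans hlL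
  have hinv : L⁻¹ ≤ (lam ^ q)⁻¹ :=
    inv_anti₀ (by positivity) (pow_le_pow_right₀ hl1 (Nat.le_succ q))
  set u : R2 → V4 := fun p => c.ζ p • f p with hudef
  have hu : ContDiff ℝ ∞ u := c.ζ_smooth.smul hf
  have hu0 : ∀ p ∉ c.K₄, u p = 0 := fun p hp => by simp [hudef, c.ζ_zero p hp]
  have hK4s := c.subN.trans hNsq
  have hF : Smooth2 (c.F0 f) := smooth2_per c.cK₄ hK4s hu0 hu
  have hpow : ∀ {e i : ℕ}, e ≤ (q + 1) * i → lam ^ e ≤ L ^ i := fun he => by
    rw [hLdef, ← pow_mul]; exact pow_le_pow_right₀ hl1 he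
  have hFb : ∀ i, pn i (c.F0 f) ≤ KF i * lam ^ (q * (i - 1)) := fun i => by
    rw [sum_mul]
    refine pn_le_of_supD fun m hm => supD_per_le c.cK₄ hK4s hu0 fun z _ => ?_
    refine (norm_iteratedFDeriv_cut_le c.ζ_smooth hf c.cK₄.isClosed c.ζ_zero hBζ m
      (D := fun j => |C j| * lam ^ (q * (i - 1))) (fun j => by positivity)
      (fun j hj p hp => (hfC j p (c.subN hp)).trans (mul_le_mul (le_abs_self _)
        (pow_le_pow_right₀ hl1 (Nat.mul_le_mul_left q (by omega))) (by positivity)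
        (abs_nonneg _))) z).trans (le_of_eq ?_)
    simp only [CF, sum_mul, mul_assoc]
  set e : R2 → Fin 3 → ℝ := fun z => metF f z - Gm z
  have he : ContDiff ℝ ∞ e := (contDiff_metF hf).sub hGm
  classical
  set d : R2 → Fin 3 → ℝ := N.indicator e
  have heN : ∀ p ∈ N, p ∉ K → e p = 0 := fun p h1 h2 => by simp [e, hout p h1 h2]
  have hd0 : ∀ p ∉ K, d p = 0 := fun p hp => by
    by_cases h1 : p ∈ N
    · simp [d, indicator_of_mem h1, heN p h1 hp]
    · simp [d, indicator_of_notMem h1]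
  have hdK : ∀ p ∉ K, d =ᶠ[𝓝 p] 0 := fun p hp =>
    eventually_of_mem (hK.isClosed.isOpen_compl.mem_nhds hp) hd0
  have hdN : ∀ p ∈ N, d =ᶠ[𝓝 p] e := fun p hp =>
    eventually_of_mem (hN.mem_nhds hp) fun z hz => indicator_of_mem hz e
  have hKN : K ⊆ N := c.sub₁.trans (interior_subset.trans c.K₁_subN)
  have hd : ContDiff ℝ ∞ d := contDiff_iff_contDiffAt.2 fun p => by
    by_cases hp : p ∈ N
    · exact he.contDiffAt.congr_of_eventuallyEq (hdN p hp)
    · exact contDiffAt_const.congr_of_eventuallyEq (hdK p fun h => hp (hKN h))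
  have hdp : Smooth2 (per d) := smooth2_per hK (hKN.trans hNsq) hd0 hd
  have hEn : ∀ m n, supD m (per d) * lam ^ n ≤ |E m n| := fun m n => by
    rw [← le_div_iff₀ (by positivity)]
    refine supD_per_le hK (hKN.trans hNsq) hd0 fun z _ => ?_
    rw [le_div_iff₀ (by positivity)]
    by_cases hz : z ∈ N
    · rw [((hdN z hz).iteratedFDeriv ℝ m).eq_of_nhds]
      exact (herr m n z hz).trans (le_abs_self _)
    · rw [((hdK z fun h => hz (hKN h)).iteratedFDeriv ℝ m).eq_of_nhds]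
      simp
  have hED : ∀ i, i ≤ a → ∀ n, pn i (per d) * lam ^ n ≤ ED a n := fun i hi n =>
    (mul_le_mul_of_nonneg_right (pn_mono hi _) (by positivity)).trans <| by
      rw [pn, sum_mul]; exact sum_le_sum fun m _ => hEn m n
  have hED0 : ∀ i, pn i (per d) ≤ ED i 0 := fun i => by
    rw [pn]; exact sum_le_sum fun m _ => le_trans (by simp) (hEn m 0)
  have hmet : Smooth2 (metF (c.F0 f)) := by
    have h := hF.fderiv.bilin hF.fderiv metB
    rwa [funext fun p => metB_self (c.F0 f) p] at h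
  set g : R2 → Fin 3 → ℝ := fun p => metF (c.F0 f) p - per d p with hgdef
  have hgsub : ∀ p, metF (c.F0 f) p - g p = per d p := fun p => sub_sub_cancel _ _
  have hKF0 : ∀ i, 0 ≤ KF i := fun i => sum_nonneg fun m _ => sum_nonneg fun j _ =>
    mul_nonneg (mul_nonneg (Nat.cast_nonneg _) ((norm_nonneg _).trans (hBζ j 0))) (abs_nonneg _)
  have hgb : ∀ i, pn i g ≤ Kb i * L ^ i := fun i => by
    have h1 : pn i (metF (c.F0 f)) ≤ bilinNorm metB * (i + 1) * 2 ^ i *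
        (∑ j ∈ range (i + 1), KF (j + 1) * KF (i - j + 1)) * L ^ i := by
      rw [← pn_congr (fun p => metB_self (c.F0 f) p) i]
      refine (pn_bilin_le' hF.fderiv hF.fderiv metB i).trans ?_
      rw [mul_assoc _ _ (L ^ i), sum_mul]
      refine mul_le_mul_of_nonneg_left (sum_le_sum fun j hj => ?_)
        (by have := bilinNorm_nonneg metB; positivity)
      have hj' : j ≤ i := Nat.lt_succ_iff.1 (mem_range.1 hj)
      refine (mul_le_mul ((pn_fderiv_le hF j).trans (hFb (j + 1)))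
        ((pn_fderiv_le hF (i - j)).trans (hFb (i - j + 1))) (pn_nonneg _ _)
        (mul_nonneg (hKF0 _) (by positivity))).trans ?_
      rw [mul_mul_mul_comm, ← pow_add]
      refine mul_le_mul_of_nonneg_left (hpow ?_) (mul_nonneg (hKF0 _) (hKF0 _))
      rw [← Nat.mul_add]
      exact Nat.mul_le_mul (Nat.le_succ q) (by omega)
    refine (pn_sub_le hmet hdp i).trans ((add_le_add h1 ((hED0 i).trans
      (le_mul_of_one_le_right (sum_nonneg fun m _ => abs_nonneg _)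
        (one_le_pow₀ hL1 (n := i))))).trans ?_)
    rw [← add_mul]
    exact mul_le_mul_of_nonneg_right (le_max_right _ _) (by positivity)
  obtain ⟨x₀, hx₀, hx0, hxG, hxe⟩ := hG L
    ((((le_max_right _ _).trans (le_max_left _ _)).trans hlam).trans hlL) (c.F0 f) g hF
    (hmet.sub hdp)
    (fun i => (hFb i).trans (mul_le_mul (le_max_left _ _)
      (hpow (Nat.mul_le_mul (Nat.le_succ q) (Nat.sub_le i 1))) (by positivity)
      ((hKF0 i).trans (le_max_left _ _))))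
    hgb
    (fun p hp => by
      have h1 : d (frac p) = 0 := hd0 _ fun h => by
        have : c.radial p = 0 := by
          show 3 - 3 * c.ψ (frac p) = 0
          rw [c.ψ_one _ h]; ring
        rw [this] at hp
        have : 1 / L ≤ 1 := by rw [div_le_one (by linarith)]; exact hL1
        linarith
      rw [← sub_eq_zero, hgsub]; exact h1)
    (c.low_det hNsq hL1 fun p hp => hinv.trans (hdet p hp))
    (c.low_W hNsq hL1 (fun p hp => hinv.trans (hdet p hp)) fun p hp => hinv.trans (hW p hp))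
    hlow
    (fun i hi => by
      rw [pn_congr hgsub i, hLdef, ← pow_mul]
      refine le_of_mul_le_mul_right ?_ (show 0 < lam by linarith)
      rw [one_mul, mul_assoc, ← pow_succ]
      exact (hED i hi _).trans ((le_max_right _ _).trans hlam))
    (fun M i hi => by rw [pn_congr hgsub i, hLdef, ← pow_mul]; exact hED i hi _)
  have hg1 : ∀ p ∈ c.K₁, (fun z => f z + c.η₂ z • x₀ z) =ᶠ[𝓝 p] fun z => c.F0 f z + x₀ z := by
    intro p h1
    have hs : p ∈ sq := hNsq (c.K₁_subN h1)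
    filter_upwards [per_eventuallyEq u hs, c.η₂_one p h1,
      c.ζ_one p (interior_subset (c.sub₃ (interior_subset (c.sub₂ h1))))] with z h1 h2 h3
    show _ = per u z + x₀ z
    rw [h1, h2, one_smul, hudef]
    simp [h3]
  have hout₁ : ∀ p ∈ sq, p ∉ c.K₁ → x₀ p = 0 := fun p hs h1 => by
    refine hx0 p ?_
    simp only [Cell.radial, per_of_mem _ hs, c.ψ_zero p h1]
    norm_num
  refine ⟨fun p => c.η₂ p • x₀ p, x₀, c.η₂_smooth.smul hx₀.1, fun p hp => ?_, fun p hp => ?_, hx₀,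
    hxG, fun i => (hFb i).trans (mul_le_mul_of_nonneg_left
      (hpow (Nat.mul_le_mul (Nat.le_succ q) (Nat.sub_le i 1))) (hKF0 i)), hg1⟩
  · by_cases hs : p ∈ sq
    · simp [hout₁ p hs hp]
    · simp [c.η₂_zero p fun h => hs (hNsq (c.K₂_subN h))]
  · have hs : p ∈ sq := hNsq hp
    by_cases h1 : p ∈ c.K₁
    · have h3 : p ∈ c.K₃ := interior_subset (c.sub₃ (interior_subset (c.sub₂ h1)))
      have ef : c.F0 f =ᶠ[𝓝 p] f := by
        filter_upwards [per_eventuallyEq u hs, c.ζ_one p h3] with z h1 h2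
        show per u z = f z
        rw [h1]; simp [hudef, h2]
      rw [metF_congr (hg1 p h1), hxe p, hgdef]
      simp only [metF_congr ef, per_of_mem d hs, d, indicator_of_mem hp, e, sub_sub_cancel]
    · have e1 : (fun z => f z + c.η₂ z • x₀ z) =ᶠ[𝓝 p] f := by
        filter_upwards [isOpen_sq.mem_nhds hs, c.cK₁.isClosed.isOpen_compl.mem_nhds h1]
          with z hz hz1
        simp [hout₁ z hz hz1]
      rw [metF_congr e1]
      exact hout p hp fun h => h1 (interior_subset (c.sub₁ h))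

end Cell

end

end Vale.Agent.P205.Bridge
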