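import Vale.Agent.P205.Full.Bridge.Plane
import Vale.Agent.P205.Full.Bridge.Exact
import Vale.Agent.P205.Full.Bridge.Diagonal
import Vale.Agent.P205.Full.Bridge.Approx
import Vale.Agent.P205.Full.Bridge.SumCorr

/-!
# P205: round two from approximants of every order
-/

namespace Vale.Agent.P205.Bridge

open scoped ContDiff Topology
open Correction Set Filter
open Vale.Agent.P205.Algebra

noncomputable section

/-- Round two in a cell follows from the approximants. -/
theorem plane_of_approximants (H : ApproxStatement) : PlaneExactStatement := by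
  intro N K a f hN hNsq hK hKN ha haK hf hdet hW hgood
  set N' := interior K
  have hN' : IsOpen N' := isOpen_interior
  have hN'N : N' ⊆ N := interior_subset.trans hKN
  have hN'sq : N' ⊆ sq := hN'N.trans hNsq
  have hcl : closure N' ⊆ N := (closure_minimal interior_subset hK.isClosed).trans hKN
  have hsa : IsCompact (tsupport a) :=
    hK.of_isClosed_subset (isClosed_tsupport a) (haK.trans interior_subset)
  obtain ⟨Ka, hKa, haKa, hKaN⟩ := exists_compact_between hsa hN' haK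
  obtain ⟨Kg, hKg, hKag, hKgN⟩ := exists_compact_between hKa hN' hKaN
  obtain ⟨Kc, hKc, hKgc, hKcN⟩ := exists_compact_between hKg hN' hKgN
  obtain ⟨F, q, B, hFs, hFoff, hFloc, heloc, heev, hmain, hcrit, hFev, hnear⟩ :=
    H N' Ka Kg Kc a f hN' (hcl.trans hNsq) hKa hKg hKc haKa hKag hKgc hKcN ha hf
      (fun p hp => hdet p (hcl hp)) (fun p hp => hW p (hcl hp))
      fun p hp => hgood p (hcl hp)
  obtain ⟨c⟩ := exists_cell hN' hKc hKcN
  have hc12 : c.K₁ ⊆ c.K₂ := c.sub₂.trans interior_subset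
  have hc23 : c.K₂ ⊆ c.K₃ := c.sub₃.trans interior_subset
  have hKc1 : Kc ⊆ c.K₁ := c.sub₁.trans interior_subset
  have haKc : tsupport a ⊆ Kc := haKa.trans <| interior_subset.trans <| hKag.trans <|
    interior_subset.trans <| hKgc.trans interior_subset
  have ha0 : ∀ p, p ∉ Kc → a p = 0 := fun p hp =>
    image_eq_zero_of_notMem_tsupport fun h => hp (haKc h)
  have hF0s : ∀ {g : R2 → V4}, ContDiff ℝ ∞ g → Smooth2 (c.F0 g) := fun hg =>
    smooth2_per c.cK₄ (c.subN.trans hN'sq) (fun p hp => by simp [c.ζ_zero p hp])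
      (c.ζ_smooth.smul hg)
  have hF0near : ∀ (g : R2 → V4), ∀ p ∈ c.K₃, c.F0 g =ᶠ[𝓝 p] g := fun g p hp => by
    filter_upwards [per_eventuallyEq (fun z => c.ζ z • g z) (hN'sq (c.K₃_subN hp)), c.ζ_one p hp]
      with z h1 h2
    show per (fun z => c.ζ z • g z) z = g z
    rw [h1, h2, one_smul]
  have hSW : c.K₂ \ interior Kg ⊆ interior c.K₃ \ Ka := fun p hp =>
    ⟨c.sub₃ hp.1, fun h => hp.2 (hKag h)⟩
  obtain ⟨np, P, hmult, ε, hε, hP⟩ := exists_pieces (hF0s hf)
    (W := interior c.K₃ \ Ka) (S := c.K₂ \ interior Kg) (isOpen_interior.sdiff hKa.isClosed)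
    (sdiff_subset.trans (interior_subset.trans (c.K₃_subN.trans hN'sq)))
    (c.cK₂.diff isOpen_interior) hSW
    fun p hp => (hgood p (hN'N (c.K₂_subN hp.1))).congr (hF0near f p (hc23 hp.1)).symm
  -- one family from the approximants of every order
  choose n₀ hn₀ using heev
  set Le : ℕ → ℕ ⊕ (ℕ × ℕ) → ℝ → ℝ → Prop := fun n k lam G => 1 ≤ lam → ∀ p ∈ N',
    Sum.elim (fun i => ‖iteratedFDeriv ℝ i (F n lam) p‖ ≤ G * lam ^ (q * (i - 1)))
      (fun im : ℕ × ℕ => ‖iteratedFDeriv ℝ im.1 (defect f a (F n lam)) p‖ * lam ^ im.2 ≤ G) k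
  obtain ⟨sel, G, lam₀, -, hsel⟩ := exists_selection Le
    (fun n k lam G G' hG h hl p hp => by
      have h' := h hl p hp
      cases k with
      | inl i => exact h'.trans (mul_le_mul_of_nonneg_right hG (by positivity))
      | inr im => exact h'.trans hG)
    (Sum.elim (fun _ => max B 1) fun _ => 1)
    (fun n lam => 1 ≤ lam ∧ (∀ p ∈ N', (lam ^ q)⁻¹ ≤ detg (F n lam) p ∧
        (lam ^ q)⁻¹ ≤ Wsq (fun _ => 1) (F n lam) p) ∧
      (∀ p ∈ Kg, (lam ^ q)⁻¹ ≤ criterion (fun _ => 1) (F n lam) p) ∧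
      ∀ p ∈ N', p ∉ Ka → ∀ i ≤ 9,
        ‖iteratedFDeriv ℝ i (F n lam) p - iteratedFDeriv ℝ i f p‖ ≤ ε)
    (Sum.elim (fun _ => 0) fun im => n₀ im.1 im.2)
    (fun n => by
      filter_upwards [eventually_ge_atTop 1, hmain n, hcrit n, hnear n ε hε] with lam h1 h2 h3 h4
      exact ⟨h1, fun p hp => (h2 p hp).2, h3, h4⟩)
    (fun k n hn => by
      rcases k with i | ⟨i, m⟩
      · rcases le_or_gt i 1 with hi | hi
        · filter_upwards [hmain n] with lam h hl p hp
          show _ ≤ max B 1 * lam ^ (q * (i - 1))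
          rw [Nat.sub_eq_zero_of_le hi, mul_zero, pow_zero, mul_one]
          exact ((h p hp).1 i hi).trans (le_max_left _ _)
        · filter_upwards [hFev n i hi] with lam h hl p hp
          exact (h p hp).trans (le_mul_of_one_le_left (by positivity) (le_max_right _ _))
      · filter_upwards [hn₀ i m n hn] with lam h hl p hp
        exact h p hp)
    (fun k n => by
      rcases k with i | ⟨i, m⟩
      · obtain ⟨C, e, hC⟩ := hFloc n i
        refine ⟨|C|, e, fun lam hl _ _ p hp => (hC lam hl p hp).trans ?_⟩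
        exact (mul_le_mul_of_nonneg_right (le_abs_self C) (by positivity)).trans
          (le_mul_of_one_le_right (by positivity) (one_le_pow₀ hl))
      · obtain ⟨C, e, hC⟩ := heloc n i
        refine ⟨C, e + m, fun lam hl _ _ p hp => ?_⟩
        show _ * lam ^ m ≤ _
        rw [pow_add, ← mul_assoc]
        exact mul_le_mul_of_nonneg_right (hC lam hl p hp) (by positivity))
  obtain ⟨lam₁, G', KF, hex⟩ := c.exact hN' hN'sq hKc (c.corr_sum hN'sq P)
    (fun i => G (Sum.inl i)) q fun i m => G (Sum.inr (i, m))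
  obtain ⟨Q, L₁, hst⟩ := c.good_of_low hN'sq P KF
  obtain ⟨lam, hl0, hl1, hlε, hlL₁, hlG, hlone⟩ : ∃ lam : ℝ,
      lam₀ ≤ lam ∧ lam₁ ≤ lam ∧ ε⁻¹ ≤ lam ∧ L₁ ≤ lam ∧ G' 9 (Q + 1) ≤ lam ∧ 1 ≤ lam :=
    ((eventually_ge_atTop lam₀).and <| (eventually_ge_atTop lam₁).and <|
      (eventually_ge_atTop ε⁻¹).and <| (eventually_ge_atTop L₁).and <|
      (eventually_ge_atTop (G' 9 (Q + 1))).and (eventually_ge_atTop (1 : ℝ))).exists
  obtain ⟨⟨-, hlow, hcr, hclose⟩, hLe⟩ := hsel lam hl0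
  set g := F (sel lam) lam
  set L := lam ^ (q + 1)
  have hlL : lam ≤ L := le_self_pow₀ hlone (Nat.succ_ne_zero q)
  have hL1 : 1 ≤ L := hlone.trans hlL
  have hinv : L⁻¹ ≤ (lam ^ q)⁻¹ :=
    inv_anti₀ (by positivity) (pow_le_pow_right₀ hlone (Nat.le_succ q))
  obtain ⟨hadm, hsum⟩ := hP (c.F0 g) (hF0s (hFs _ _)) fun p hp i hi => by
    have h3 : p ∈ c.K₃ := interior_subset hp.1
    rw [((hF0near g p h3).iteratedFDeriv ℝ i).eq_of_nhds,
      ((hF0near f p h3).iteratedFDeriv ℝ i).eq_of_nhds]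
    exact hclose p (c.K₃_subN h3) hp.2 i hi
  have hLow : c.LowSum P (c.F0 g) L := by
    refine ⟨hadm L (hlε.trans hlL), fun p => ?_⟩
    have hn := Finset.sum_nonneg (s := Finset.univ) fun i _ => hmult i (c.F0 g) p
    have hc := criterion_nonneg c.η (c.F0 g) p
    simp only [totalCriterion]
    by_cases hp : c.η' p = 0
    · linarith [inv_le_one_of_one_le₀ hL1]
    have h2 : frac p ∈ c.K₂ := by
      by_contra h
      exact hp (c.η₂_zero _ h)
    have hle : c.η' p ≤ 1 := (c.η₂_mem _).2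
    by_cases hg : frac p ∈ interior Kg
    · have hη : Sh (frac p - p) p c.η fun _ => 1 :=
        per_germ (hN'sq (c.K₂_subN h2)) (c.η₃_one _ h2)
      have hp3 : c.η p ≠ 0 := by rw [hη.eq_of_nhds]; exact one_ne_zero
      have he := (criterion_congr hη (c.F0_germ hN'sq g hp3).2).eq_of_nhds
      rw [add_sub_cancel] at he
      linarith [hinv.trans (hcr _ (interior_subset hg))]
    · have he : L⁻¹ ≤ ε := inv_le_of_inv_le₀ hε (hlε.trans hlL)
      linarith [hsum p ⟨h2, hg⟩]
  set Gm : R2 → Fin 3 → ℝ := fun p => metF f p + ![a p ^ 2, 0, 0]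
  have hGm : ContDiff ℝ ∞ Gm := (contDiff_metF hf).add (contDiff_pi.2 fun k => by
    fin_cases k
    · simpa using ha.pow 2
    · simpa using contDiff_const (c := (0 : ℝ))
    · simpa using contDiff_const (c := (0 : ℝ)))
  have hGm0 : ∀ p, p ∉ Kc → Gm p = metF f p := fun p hp => by
    show metF f p + ![a p ^ 2, 0, 0] = _
    rw [ha0 p hp, zero_pow two_ne_zero,
      show (![0, 0, 0] : Fin 3 → ℝ) = 0 from funext fun k => by fin_cases k <;> rfl, add_zero]
  obtain ⟨x, x₀, hx, hx0, hxe, hx₀, hxG, hKF, hgerm⟩ := hex lam hl1 g Gm (hFs _ _) hGm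
    (fun i p hp => hLe (Sum.inl i) hlone p hp)
    (fun p hp hpc => by
      rw [hGm0 p hpc]
      refine metF_congr ?_
      filter_upwards [hN'.mem_nhds hp, hKc.isClosed.isOpen_compl.mem_nhds hpc] with z hz hzc
      exact hFoff _ _ z hz hzc)
    (fun i m p hp => hLe (Sum.inr (i, m)) hlone p hp)
    (fun p hp => (hlow p hp).1) (fun p hp => (hlow p hp).2) hLow
  have hxQ : pn 9 x₀ * L ^ Q ≤ 1 := by
    refine le_of_mul_le_mul_right ?_ (show 0 < L by linarith)
    rw [one_mul, mul_assoc, ← pow_succ]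
    exact (hxG 9 (Q + 1)).trans (hlG.trans hlL)
  have hst' := hst L (hlL₁.trans hlL) _ x₀ (hF0s (hFs _ _)) hx₀ hKF
    (c.low_det hN'sq hL1 fun p hp => hinv.trans (hlow p hp).1)
    (c.low_W hN'sq hL1 (fun p hp => hinv.trans (hlow p hp).1) fun p hp => hinv.trans (hlow p hp).2)
    hLow hxQ
  set Fo : R2 → V4 := fun z => f z + c.η₂ z • (g z - f z) + x z
  have hoff : ∀ z, z ∉ c.K₁ → Fo z = f z := fun z hz => by
    have h1 : c.η₂ z • (g z - f z) = 0 := by
      by_cases h : z ∈ N'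
      · rw [show g z = f z from hFoff _ _ z h fun h' => hz (hKc1 h'), sub_self, smul_zero]
      · rw [c.η₂_zero z fun h' => h (c.K₂_subN h'), zero_smul]
    simp [Fo, h1, hx0 z hz]
  have hnearoff : ∀ p, p ∉ c.K₁ → Fo =ᶠ[𝓝 p] f := fun p hp =>
    eventually_of_mem (c.cK₁.isClosed.isOpen_compl.mem_nhds hp) hoff
  have hon : ∀ p ∈ N', Fo =ᶠ[𝓝 p] fun z => g z + x z := fun p hp => by
    filter_upwards [hN'.mem_nhds hp] with z hz
    by_cases h : z ∈ Kc
    · simp [Fo, (c.η₂_one z (hKc1 h)).eq_of_nhds]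
    · simp [Fo, hFoff (sel lam) lam z hz h, g]
  have hK1 : ∀ p ∈ c.K₁, c.η p = 1 ∧ c.η' p = 1 ∧
      Fo =ᶠ[𝓝 p] fun z => c.F0 g z + x₀ z := fun p hp => by
    have hs : p ∈ sq := hN'sq (c.K₁_subN hp)
    refine ⟨?_, ?_, (hon p (c.K₁_subN hp)).trans (hgerm p hp)⟩
    · rw [Cell.η, per_of_mem _ hs, (c.η₃_one p (hc12 hp)).eq_of_nhds]
    · rw [Cell.η', per_of_mem _ hs, (c.η₂_one p hp).eq_of_nhds]
  refine ⟨Fo, (hf.add (c.η₂_smooth.smul ((hFs _ _).sub hf))).add hx,
    fun p hp => hoff p fun h => hp (interior_subset (c.K₁_subN h)), fun p hp => ?_,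
    fun p hp => ?_, fun p hp => ?_⟩
  · by_cases h : p ∈ c.K₁
    · rw [metF_congr (hon p (c.K₁_subN h))]
      exact hxe p (c.K₁_subN h)
    · rw [metF_congr (hnearoff p h)]
      exact (hGm0 p fun h' => h (hKc1 h')).symm
  · by_cases h : p ∈ c.K₁
    · obtain ⟨h1, h2, h3⟩ := hK1 p h
      have hs : Sh (0 : R2) p Fo fun z => c.F0 g z + x₀ z := by simpa [Sh] using h3
      rw [(Wsq_congr (η := fun _ => 1) (η' := fun _ => 1) EventuallyEq.rfl hs).eq_of_nhds, add_zero]
      exact (hst' p h1 h2).1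
    · have hs : Sh (0 : R2) p Fo f := by simpa [Sh] using hnearoff p h
      rw [(Wsq_congr (η := fun _ => 1) (η' := fun _ => 1) EventuallyEq.rfl hs).eq_of_nhds, add_zero]
      exact hW p hp
  · by_cases h : p ∈ c.K₁
    · obtain ⟨h1, h2, h3⟩ := hK1 p h
      exact (hst' p h1 h2).2.congr h3.symm
    · exact (hgood p hp).congr (hnearoff p h).symm

/-- Round two follows from the approximants. -/
theorem exactStatement_of_approximants (H : ApproxStatement) : Full.ExactStatement :=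
  exactStatement_of_plane (plane_of_approximants H)

end

end Vale.Agent.P205.Bridge
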