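import Vale.Agent.P205.Full.Bridge.PrescBounds

/-!
# P205: prescribed jets of round two

The scalar variation along a block is, up to a relative error `1 / lam`, the pairing of the second
normal with the free normal times the modes, so it takes every jet at the parameter zero; along the
block it moves by less than one frequency.
-/

namespace Vale.Agent.P205.Bridge

open scoped ContDiff RealInnerProductSpace
open Set Metric
open Vale.Agent.P205.Algebra
open Vale.Agent.P205.Generic (Mode mode pd Resp one zeta)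

noncomputable section

set_option maxSynthPendingDepth 3

lemma contDiff_dir {g : R2 → V4} (hg : ContDiff ℝ ∞ g) (v : R2) :
    ContDiff ℝ ∞ fun p => fderiv ℝ g p v :=
  (hg.fderiv_right (m := ∞) le_rfl).clm_apply contDiff_const

lemma contDiff_n1 {F : R2 → V4} (hF : ContDiff ℝ ∞ F) : ContDiff ℝ ∞ (Algebra.n1 one F) := by
  rw [funext (n1_one F)]
  exact ((crossL.contDiff.comp (contDiff_dir hF (1, 0))).clm_apply
    (contDiff_dir hF (0, 1))).clm_apply (contDiff_dir (contDiff_dir hF (0, 1)) (0, 1))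

/-- A constant below a sum of nonnegative ones. -/
lemma le_sum_range {g : ℕ → ℕ → ℝ} (hg : ∀ a b, 0 ≤ g a b) {A B a b : ℕ} (ha : a < A)
    (hb : b < B) : g a b ≤ ∑ a ∈ Finset.range A, ∑ b ∈ Finset.range B, g a b :=
  (Finset.single_le_sum (f := fun b => g a b) (fun b _ => hg a b) (Finset.mem_range.2 hb)).trans
    (Finset.single_le_sum (f := fun a => ∑ b ∈ Finset.range B, g a b)
      (fun a _ => Finset.sum_nonneg fun b _ => hg a b) (Finset.mem_range.2 ha))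

/-- The cross products of nearby jets differ by little. -/
lemma pd_cross_diff {u u' v v' w w' : R2 → V4} (hu : ContDiff ℝ ∞ u) (hu' : ContDiff ℝ ∞ u')
    (hv : ContDiff ℝ ∞ v) (hv' : ContDiff ℝ ∞ v') (hw : ContDiff ℝ ∞ w) (hw' : ContDiff ℝ ∞ w')
    (x : R2) (a b : ℕ) {F U Δ : ℝ} (hF : 0 ≤ F) (hU : 0 ≤ U) (hΔ : 0 ≤ Δ)
    (hs : ∀ g ∈ [u, u', v, v', w, w'], ∀ c d, c ≤ a → d ≤ b → ‖pd c d g x‖ ≤ U * F ^ c)
    (hd : ∀ g ∈ [fun y => u y - u' y, fun y => v y - v' y, fun y => w y - w' y],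
      ∀ c d, c ≤ a → d ≤ b → ‖pd c d g x‖ ≤ Δ * F ^ c) :
    ‖pd a b (fun y => cross4 (u y) (v y) (w y) - cross4 (u' y) (v' y) (w' y)) x‖ ≤
      3 * (2 ^ (a + b) * ‖ContinuousLinearMap.id ℝ (V4 →L[ℝ] V4)‖ *
        (2 ^ (a + b) * ‖crossL‖ * U * Δ * U) * F ^ a) := by
  simp only [List.mem_cons, List.not_mem_nil, or_false, forall_eq_or_imp, forall_eq] at hs hd
  obtain ⟨su, su', sv, sv', sw, sw'⟩ := hs
  obtain ⟨du, dv, dw⟩ := hd
  have two : ∀ c d, c ≤ a → d ≤ b → (2 : ℝ) ^ (c + d) ≤ 2 ^ (a + b) := fun c d h1 h2 =>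
    pow_le_pow_right₀ one_le_two (by omega)
  have one' : ∀ (p q r : R2 → V4) {P Q S : ℝ}, ContDiff ℝ ∞ p → ContDiff ℝ ∞ q →
      ContDiff ℝ ∞ r → 0 ≤ P → 0 ≤ Q → P * Q * S ≤ U * Δ * U →
      (∀ c d, c ≤ a → d ≤ b → ‖pd c d p x‖ ≤ P * F ^ c) →
      (∀ c d, c ≤ a → d ≤ b → ‖pd c d q x‖ ≤ Q * F ^ c) →
      (∀ c d, c ≤ a → d ≤ b → ‖pd c d r x‖ ≤ S * F ^ c) →
      ‖pd a b (fun y => cross4 (p y) (q y) (r y)) x‖ ≤
        2 ^ (a + b) * ‖ContinuousLinearMap.id ℝ (V4 →L[ℝ] V4)‖ *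
          (2 ^ (a + b) * ‖crossL‖ * U * Δ * U) * F ^ a := by
    intro p q r P Q S hp hq hr hP hQ hPQ h1 h2 h3
    have hpq : ContDiff ℝ ∞ fun y => crossL (p y) (q y) :=
      (crossL.contDiff.comp hp).clm_apply hq
    have h12 : ∀ c d, c ≤ a → d ≤ b → ‖pd c d (fun y => crossL (p y) (q y)) x‖ ≤
        2 ^ (a + b) * ‖crossL‖ * (P * Q) * F ^ c := fun c d hc hd' =>
      (Generic.pd_bilin_pow crossL isOpen_univ (mem_univ x) hp.contDiffOn hq.contDiffOn c d hP hF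
        (fun c' d' e1 e2 => h1 c' d' (e1.trans hc) (e2.trans hd'))
        fun c' d' e1 e2 => h2 c' d' (e1.trans hc) (e2.trans hd')).trans (by
          have := two c d hc hd'
          gcongr)
    refine (Generic.pd_bilin_pow (ContinuousLinearMap.id ℝ (V4 →L[ℝ] V4)) isOpen_univ (mem_univ x)
      hpq.contDiffOn hr.contDiffOn a b (by positivity) hF h12 h3).trans ?_
    refine mul_le_mul_of_nonneg_right (mul_le_mul_of_nonneg_left ?_ (by positivity))
      (pow_nonneg hF a)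
    calc 2 ^ (a + b) * ‖crossL‖ * (P * Q) * S = 2 ^ (a + b) * ‖crossL‖ * (P * Q * S) := by ring
      _ ≤ 2 ^ (a + b) * ‖crossL‖ * (U * Δ * U) := mul_le_mul_of_nonneg_left hPQ (by positivity)
      _ = _ := by ring
  have s1 := hu.sub hu'
  have s2 := hv.sub hv'
  have s3 := hw.sub hw'
  have t1 := one' (fun y => u y - u' y) v w s1 hv hw hΔ hU (le_of_eq (by ring)) du sv sw
  have t2 := one' u' (fun y => v y - v' y) w hu' s2 hw hU hΔ le_rfl su' dv sw
  have t3 := one' u' v' (fun y => w y - w' y) hu' hv' s3 hU hU (le_of_eq (by ring)) su' sv' dw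
  have cd : ∀ {p q r : R2 → V4}, ContDiff ℝ ∞ p → ContDiff ℝ ∞ q → ContDiff ℝ ∞ r →
      ContDiffOn ℝ ∞ (fun y => cross4 (p y) (q y) (r y)) univ := fun hp hq hr =>
    (((crossL.contDiff.comp hp).clm_apply hq).clm_apply hr).contDiffOn
  have e : (fun y => cross4 (u y) (v y) (w y) - cross4 (u' y) (v' y) (w' y)) =
      (fun y => cross4 (u y - u' y) (v y) (w y)) + ((fun y => cross4 (u' y) (v y - v' y) (w y)) +
        fun y => cross4 (u' y) (v' y) (w y - w' y)) := funext fun y => by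
    simp only [Pi.add_apply, ← crossL_apply, map_sub, _root_.sub_apply]
    abel
  have h23 : ContDiffOn ℝ ∞ ((fun y => cross4 (u' y) (v y - v' y) (w y)) +
      fun y => cross4 (u' y) (v' y) (w y - w' y)) univ := (cd hu' s2 hw).add (cd hu' hv' s3)
  rw [e, Generic.pd_add isOpen_univ (cd s1 hv hw) h23 a b (mem_univ x), Pi.add_apply, Generic.pd_add isOpen_univ (cd hu' s2 hw) (cd hu' hv' s3) a b
    (mem_univ x), Pi.add_apply]
  refine (norm_add_le _ _).trans ((add_le_add t1 ((norm_add_le _ _).trans (add_le_add t2 t3))).trans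
    (le_of_eq ?_))
  ring

namespace RoundCell

variable {N Kg Kc : Set R2} {a : R2 → ℝ} {f : R2 → V4} (c : RoundCell N Kg Kc a f 2 13)
variable {thr : ℕ → ℕ → ℝ}

/-- The scalar variation at parameter `σ` in a direction of the block. -/
def zAt (i : Sched.State thr) (σ u : Sched.Idx → ℝ) (y : R2) : ℝ :=
  ⟪Algebra.n1 one (c.mapAt i σ) y, Generic.dx (c.varAt i σ u) y⟫

lemma contDiff_mapAt' (i : Sched.State thr) (σ : Sched.Idx → ℝ) : ContDiff ℝ ∞ (c.mapAt i σ) :=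
  c.Φ.contDiff_slice_H (L := loopOf c.R) i.n i.lam i.one_le_M i.ε σ

lemma contDiff_zAt (i : Sched.State thr) (σ u : Sched.Idx → ℝ) : ContDiff ℝ ∞ (c.zAt i σ u) :=
  (contDiff_n1 (c.contDiff_mapAt' i σ)).inner ℝ (contDiff_dir (c.contDiff_varAt i σ u) (1, 0))

/-- The scalar variation of the stage data. -/
lemma zeta_eq (i : Sched.State thr) (τ : closedBall (0 : Fin Sched.dimP → ℝ) 3)
    (w : closedBall (0 : Fin Sched.dimP → ℝ) 1) :
    zeta (c.pert thr).var (i, τ, w) = c.zAt i (i.put τ) (i.dir w) := by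
  funext y
  have hv : Generic.var1 (c.pert thr).var (i, τ, w) = c.varAt i (i.put τ) (i.dir w) := by
    funext y
    have e : (c.pert thr).var (i, τ, w) = fun q : Generic.Ext =>
        c.mapAt i (i.put τ + q.1 • i.dir w) q.2 := funext fun q => by
      show c.mapAt i (i.put ((τ : Fin Sched.dimP → ℝ) + q.1 • (w : Fin Sched.dimP → ℝ))) q.2 = _
      rw [i.put_add]
    rw [Generic.var1, e]
    exact (WKB.FreeData.line_deriv (G := c.mapAt i) (c.contDiff_mapAt i) (i.put τ) (i.dir w)).2 y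
  have hs : Generic.slice (c.pert thr).var (i, τ, w) 0 = c.mapAt i (i.put τ) := funext fun y => by
    show c.mapAt i (i.put ((τ : Fin Sched.dimP → ℝ) + (0 : ℝ) • (w : Fin Sched.dimP → ℝ))) y = _
    rw [zero_smul, add_zero]
  rw [zeta, hv, hs]
  rfl

/-- The leading term near the loop. -/
lemma mainW_eq (i : Sched.State thr) {y : R2} (hy : y ∈ sq) (hχ : c.χ y = 1) (w : Mode → ℝ) :
    c.Φ.mainW (loopOf c.R) i.M i.ε (dirL i w) (y, i.lam * y.1) =
      (Sched.eps i.N i.lam i.lev *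
        ∑ k, w k * mode k (y.2, Sched.freq i.N i.lam i.lev * y.1)) •
          WKB.along (loopOf c.R).e i.lam y := by
  rw [WKB.FreeData.mainW]
  refine congrArg (· • (loopOf c.R).e (y, i.lam * y.1)) ?_
  rw [Fintype.sum_prod_type, Finset.sum_eq_single i.lev, Finset.mul_sum]
  · refine Finset.sum_congr rfl fun k _ => ?_
    simp only [dirL_apply, if_true, Sched.State.ε, Sched.State.M, WKB.freq]
    rw [c.dA_eq (i.lev, k) y hy, hχ, Sched.freq, one_mul, ← mul_assoc (Sched.mult i.N i.lam i.lev : ℝ)]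
    ring
  · intro s _ hs
    exact Finset.sum_eq_zero fun k _ => by simp [dirL_apply, hs]
  · simp

/-- Jets of the map and its second normal are below a power of the scale, free of the order of
truncation. -/
lemma base_jets (hR : Resp (c.pert thr).vscale (c.pert thr).var) : ∃ k₀ : ℕ, ∀ a b, a ≤ 9 → b ≤ 4 →
    ∀ (i : Sched.State thr) (τ : Fin Sched.dimP → ℝ), ‖τ‖ ≤ 3 → ∀ x ∈ c.V,
      ‖pd a b (c.mapAt i (i.put τ)) x‖ ≤ Sched.bigs i.N i.lam i.lev ^ k₀ ∧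
        ‖pd a b (Algebra.n1 one (c.mapAt i (i.put τ))) x‖ ≤ Sched.bigs i.N i.lam i.lev ^ k₀ := by
  have hnb : ∀ a b, ∃ k : ℕ, ∀ (i : Sched.State thr) (τ : Fin Sched.dimP → ℝ), ‖τ‖ ≤ 3 →
      ∀ x ∈ c.V, ‖pd a b (c.mapAt i (i.put τ)) x‖ ≤ Sched.bigs i.N i.lam i.lev ^ k ∧
        ‖pd a b (Algebra.n1 one (c.mapAt i (i.put τ))) x‖ ≤ Sched.bigs i.N i.lam i.lev ^ k := by
    intro a b
    obtain ⟨k1, hk1⟩ := hR.base.bound a b
    obtain ⟨k2, hk2⟩ := hR.frame1.n1.base.bound a b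
    refine ⟨k1 + k2, fun i τ hτ x hx => ?_⟩
    have h1 : (1 : ℝ) ≤ Sched.bigs i.N i.lam i.lev := Sched.one_le_bigs i.one_le
    obtain ⟨j, hj⟩ : ∃ j : Generic.Dir (Sched.State thr) Sched.dimP,
        j = (i, ⟨τ, mem_closedBall_zero_iff.2 hτ⟩, ⟨0, mem_closedBall_self zero_le_one⟩) :=
      ⟨_, rfl⟩
    have e1 : Generic.base0 (c.pert thr).var j = c.mapAt i (i.put τ) := funext fun y => by
      subst hj
      show c.mapAt i (i.put (τ + (0 : ℝ) • (0 : Fin Sched.dimP → ℝ))) y = _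
      rw [zero_smul, add_zero]
    have e2 : Generic.base0 (Generic.lf (c.pert thr).var (Algebra.n1 one)) j =
        Algebra.n1 one (c.mapAt i (i.put τ)) := funext fun y => by
      show Algebra.n1 one (Generic.base0 (c.pert thr).var j) y = _
      rw [e1]
    have a1 := hk1 j x (by subst hj; exact hx)
    have a2 := hk2 j x (by subst hj; exact hx)
    rw [e1] at a1
    rw [e2] at a2
    subst hj
    simp only [one_pow, mul_one] at a1 a2
    exact ⟨a1.trans (pow_le_pow_right₀ h1 (Nat.le_add_right _ _)),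
      a2.trans (pow_le_pow_right₀ h1 (Nat.le_add_left _ _))⟩
  choose k hk using hnb
  obtain ⟨k₀, hk₀⟩ : ∃ k₀, k₀ = ∑ a ∈ Finset.range 10, ∑ b ∈ Finset.range 5, k a b := ⟨_, rfl⟩
  refine ⟨k₀, fun a b ha hb i τ hτ x hx => ?_⟩
  have hle : k a b ≤ k₀ := hk₀ ▸
    (Finset.single_le_sum (f := fun b => k a b) (fun b _ => Nat.zero_le _)
      (Finset.mem_range.2 (by omega : b < 5))).trans
      (Finset.single_le_sum (f := fun a => ∑ b ∈ Finset.range 5, k a b)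
        (fun a _ => Nat.zero_le _) (Finset.mem_range.2 (by omega : a < 10)))
  have h1 : (1 : ℝ) ≤ Sched.bigs i.N i.lam i.lev := Sched.one_le_bigs i.one_le
  obtain ⟨a1, a2⟩ := hk a b i τ hτ x hx
  exact ⟨a1.trans (pow_le_pow_right₀ h1 hle), a2.trans (pow_le_pow_right₀ h1 hle)⟩

/-- Every jet is taken exactly at the parameter zero. -/
theorem presc_exact : ∃ T : ℕ → ℝ, ∀ thr : ℕ → ℕ → ℝ, (∀ N n, T n ≤ thr N n) →
    Resp (c.pert thr).vscale (c.pert thr).var → ∃ N₀, ∀ (i : Sched.State thr), ∀ x ∈ Kg, N₀ ≤ i.N →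
      ∀ y : Fin 9 × Fin 3 → ℝ, Sched.bigs i.N i.lam i.lev ^ 1 * ‖y‖ ≤ 1 →
        ∃ w : closedBall (0 : Fin Sched.dimP → ℝ) 1, ∀ ab : Fin 9 × Fin 3,
          Generic.zj (zeta (c.pert thr).var) ab.1 ab.2
            (i, ⟨0, mem_closedBall_self (by norm_num)⟩, w) x =
              Sched.amp i.N i.lam i.lev * Sched.freq i.N i.lam i.lev ^ ((ab.1 : ℕ) + 1) * y ab := by
  classical
  have hKsq : c.K₀ ⊆ sq := fun p hp =>
    c.sub_sq (c.V_sub (c.Kc_sub (interior_subset (c.K₀_sub hp))))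
  choose B hB2 hB using fun n => pairing_low c.R c.Φ c.cK₀
    (fun p hp => (c.mem_K (hKsq hp)).2 hp) n
  choose Cr hCr0 hCr using c.lead_jet
  choose Ce hCe0 hCe using fun a b => ((WKB.Fam.fixed (m := fun _ : Unit => (1 : ℝ))
    (fun _ => le_rfl) (loopOf c.R).e_prof).osc_pd (fun _ => le_rfl) a b)
  obtain ⟨Km, hKm0, hKm⟩ := mode_bound
  obtain ⟨C₀, hC₀⟩ := Generic.exists_exact_jets
  obtain ⟨G, hG⟩ : ∃ G : ℝ, G = 2 ^ 10 * (‖(innerSL ℝ : V4 →L[ℝ] V4 →L[ℝ] ℝ)‖ +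
      ‖ContinuousLinearMap.mul ℝ ℝ‖) := ⟨_, rfl⟩
  have hG0 : 0 ≤ G := by rw [hG]; positivity
  have hGi : ∀ a b : ℕ, a ≤ 8 → b ≤ 2 →
      2 ^ (a + b) * ‖(innerSL ℝ : V4 →L[ℝ] V4 →L[ℝ] ℝ)‖ ≤ G ∧
        2 ^ (a + b) * ‖ContinuousLinearMap.mul ℝ ℝ‖ ≤ G := fun a b ha hb => by
    have h2 : (2 : ℝ) ^ (a + b) ≤ 2 ^ 10 := pow_le_pow_right₀ one_le_two (by omega)
    rw [hG]
    exact ⟨mul_le_mul h2 (le_add_of_nonneg_right (norm_nonneg _)) (norm_nonneg _) (by positivity),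
      mul_le_mul h2 (le_add_of_nonneg_left (norm_nonneg _)) (norm_nonneg _) (by positivity)⟩
  obtain ⟨Kh, hKh⟩ : ∃ Kh, Kh = G * ∑ a ∈ Finset.range 9, ∑ b ∈ Finset.range 3, Ce a b := ⟨_, rfl⟩
  have hKh0 : 0 ≤ Kh := hKh ▸ mul_nonneg hG0
    (Finset.sum_nonneg fun a _ => Finset.sum_nonneg fun b _ => hCe0 a b)
  obtain ⟨CR, hCR⟩ : ∃ CR : ℕ → ℝ, ∀ n, CR n = ∑ a ∈ Finset.range 9, ∑ b ∈ Finset.range 3, Cr n a b :=
    ⟨_, fun _ => rfl⟩
  obtain ⟨Err, hErr⟩ : ∃ Err : ℕ → ℝ, ∀ n, Err n = G * (B n * CR n) + G * (Kh * Km) :=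
    ⟨_, fun _ => rfl⟩
  have hCR0 : ∀ n, 0 ≤ CR n := fun n => (hCR n).symm ▸
    Finset.sum_nonneg fun a _ => Finset.sum_nonneg fun b _ => hCr0 n a b
  have hB0 : ∀ n, 0 ≤ B n := fun n => zero_le_two.trans (hB2 n)
  have hErr0 : ∀ n, 0 ≤ Err n := fun n => by
    rw [hErr]; have := hB0 n; have := hCR0 n; positivity
  refine ⟨fun n => (1 + Fintype.card Sched.Idx) * B n + B n ^ C₀ * (1 + Err n),
    fun thr hthr hR => ?_⟩
  have hT : ∀ i : Sched.State thr, (1 + Fintype.card Sched.Idx) * B i.n ≤ i.lam ∧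
      B i.n ^ C₀ ≤ i.lam ∧ B i.n ^ C₀ * Err i.n ≤ i.lam := fun i => by
    have h := (hthr i.N i.n).trans i.lam_ge
    have := hB0 i.n; have := hErr0 i.n
    have h1 : 0 ≤ (1 + (Fintype.card Sched.Idx : ℝ)) * B i.n := by positivity
    have h2 : 0 ≤ B i.n ^ C₀ := by positivity
    have h3 : 0 ≤ B i.n ^ C₀ * Err i.n := by positivity
    beta_reduce at h
    rw [mul_add (B i.n ^ C₀), mul_one] at h
    exact ⟨by linarith, by linarith, by linarith⟩
  obtain ⟨k₀, hkk⟩ := c.base_jets hR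
  refine ⟨k₀ + 13, fun i x hxK hN y hy => ?_⟩
  obtain ⟨hTB, hTC, hTE⟩ := hT i
  set A := Sched.amp i.N i.lam i.lev with hAdef
  set F := Sched.freq i.N i.lam i.lev with hFdef
  set S := Sched.bigs i.N i.lam i.lev with hSdef
  have hA : 0 < A := Sched.amp_pos i.one_le
  have hF1 : 1 ≤ F := Sched.one_le_freq i.one_le
  have hF0 : 0 < F := zero_lt_one.trans_le hF1
  have hS1 : 1 ≤ S := Sched.one_le_bigs i.one_le
  have hlS : i.lam ≤ S := Sched.lam_le_bigs i.one_le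
  have hlF : i.lam ≤ F := Sched.lam_le_freq i.one_le
  have hl0 : 0 < i.lam := by linarith [i.two_le]
  have hSF : ∀ m, m ≤ i.N → S ^ m ≤ F := fun m hm =>
    (pow_le_pow_right₀ hS1 hm).trans (Sched.pow_le_freq i.one_le)
  have hx0 : x ∈ c.K₀ := interior_subset (c.sub_K₀ hxK)
  have hxV : x ∈ c.V := c.Kc_sub (interior_subset (c.K₀_sub hx0))
  have hxs : x ∈ sq := hKsq hx0
  have hx2 : |x.2| ≤ 1 := by
    obtain ⟨-, h1, h2⟩ := hxs
    rw [abs_of_pos h1]; exact h2.le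
  obtain ⟨hlow, hlow'⟩ := hB i.n i.M i.ε (i.put 0) i.lam i.one_le_M i.ε_nonneg i.ε_mul
    ((norm_put i (by simp)).trans (by norm_num)) i.one_le x
  have hsmall : B i.n * (i.lam⁻¹ + ∑ j, i.ε j) ≤ 1 := by
    have he : ∑ j, i.ε j ≤ Fintype.card Sched.Idx * i.lam⁻¹ := by
      refine (Finset.sum_le_card_nsmul _ _ i.lam⁻¹ fun j _ => ?_).trans (by simp)
      have hm : i.lam ≤ (i.M j : ℝ) := lam_le_mult i (by omega) j.1
      have h1 := i.ε_mul j
      rw [← one_div, le_div_iff₀ hl0]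
      exact (mul_le_mul_of_nonneg_left hm (i.ε_nonneg j)).trans h1
    refine le_trans (mul_le_mul_of_nonneg_left (add_le_add le_rfl he) (hB0 _)) ?_
    rw [show B i.n * (i.lam⁻¹ + Fintype.card Sched.Idx * i.lam⁻¹) =
      (1 + Fintype.card Sched.Idx) * B i.n / i.lam by ring, div_le_one hl0]
    exact hTB
  obtain ⟨h, hh⟩ : ∃ h, h = pairing c.R c.Φ i.n i.lam i.M i.ε (i.put 0) := ⟨_, rfl⟩
  have hhs : ContDiff ℝ ∞ h := hh ▸ contDiff_pairing c.R c.Φ i.n i.lam i.one_le_M i.ε _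
  obtain ⟨h0, hh0⟩ : ∃ h0 : R2 → ℝ, h0 = fun q => h (x.1, q.2) := ⟨_, rfl⟩
  have hh0s : ContDiff ℝ ∞ h0 := hh0 ▸ hhs.comp (contDiff_const.prodMk contDiff_snd)
  have hh0jet : ∀ a b : ℕ, a ≤ 8 → b ≤ 2 → |pd a b h0 x| ≤ B i.n := fun a b _ hb => by
    rw [hh0, pd_frozen hhs]
    split_ifs
    · exact hh ▸ (hlow b hb).2
    · simpa using hB0 i.n
  have hh0x : 1 ≤ B i.n * |h0 x| := by
    rw [hh0]
    exact hh ▸ hlow' hx0 hsmall
  -- the linear family
  obtain ⟨Z, hZ⟩ : ∃ Z : (Mode → ℝ) →ₗ[ℝ] (R2 → ℝ),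
      ∀ w, Z w = fun y => (A * F)⁻¹ * c.zAt i (i.put 0) (dirL i w) y := by
    have hd : ∀ u, Differentiable ℝ (c.varAt i (i.put 0) u) := fun u =>
      (c.contDiff_varAt i _ u).differentiable (by simp)
    refine ⟨{ toFun := fun w y => (A * F)⁻¹ * c.zAt i (i.put 0) (dirL i w) y,
              map_add' := fun u v => ?_, map_smul' := fun r u => ?_ }, fun _ => rfl⟩
    · funext y
      simp only [zAt, map_add, varAt_add, Generic.dx, Pi.add_apply,
        fderiv_fun_add (hd _ y) (hd _ y), _root_.add_apply, inner_add_right, mul_add]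
    · funext y
      simp only [zAt, map_smul, varAt_smul, Generic.dx, Pi.smul_apply, RingHom.id_apply,
        fderiv_fun_const_smul (hd _ y), _root_.smul_apply, real_inner_smul_right, smul_eq_mul]
      ring
  have hZs : ∀ w, ContDiff ℝ ∞ (Z w) := fun w =>
    hZ w ▸ contDiff_const.mul (c.contDiff_zAt i _ _)
  obtain ⟨μ, hμ⟩ : ∃ μ : (Mode → ℝ) → R2 → ℝ, ∀ w, μ w =
      fun y => ∑ m, w m * mode m (y.2, F * y.1) := ⟨_, fun _ => rfl⟩
  have hμs : ∀ w, ContDiff ℝ ∞ (μ w) := fun w => hμ w ▸ ContDiff.sum fun m _ =>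
    contDiff_const.mul ((Generic.contDiff_mode m).comp
      (contDiff_snd.prodMk (contDiff_const.mul contDiff_fst)))
  have hn := contDiff_n1 (c.contDiff_mapAt' i (i.put 0))
  -- the variation against the modulated modes
  have hclose : ∀ w : Mode → ℝ, ‖w‖ ≤ 1 → ∀ a b : ℕ, a ≤ 8 → b ≤ 2 →
      |pd a b (Z w) x - pd a b (fun q => h0 q * μ w q) x| ≤ Err i.n / i.lam * F ^ a := by
    intro w hw a b ha hb
    obtain ⟨R, hR'⟩ : ∃ R : R2 → V4, R = fun y => Generic.dx (c.varAt i (i.put 0) (dirL i w)) y -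
        i.lam⁻¹ • c.Φ.mainW (loopOf c.R) i.M i.ε (dirL i w) (y, i.lam * y.1) := ⟨_, rfl⟩
    have hRs : ContDiff ℝ ∞ R := hR' ▸ (contDiff_dir (c.contDiff_varAt i _ _) (1, 0)).sub
      ((c.Φ.contDiff_mainW (loopOf c.R) i.M i.ε _ i.lam).const_smul _)
    obtain ⟨U, hUo, hxU, hU⟩ : ∃ U : Set R2, IsOpen U ∧ x ∈ U ∧
        ∀ y ∈ U, y ∈ sq ∧ c.χ y = 1 := by
      obtain ⟨U, hU, hUo, hxU⟩ := _root_.mem_nhds_iff.1 (Filter.inter_mem (isOpen_sq.mem_nhds hxs)
        (c.χ_one x hxK))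
      exact ⟨U, hUo, hxU, fun y hy => hU hy⟩
    have hIR : ContDiff ℝ ∞ fun y => ⟪Algebra.n1 one (c.mapAt i (i.put 0)) y, R y⟫ :=
      hn.inner ℝ hRs
    have hhμ : ContDiff ℝ ∞ fun y => h y * μ w y := hhs.mul (hμs w)
    have eU : EqOn (Z w) ((fun y => (A * F)⁻¹ * ⟪Algebra.n1 one (c.mapAt i (i.put 0)) y, R y⟫)
        + fun y => h y * μ w y) U := fun y hy => by
      obtain ⟨hys, hyχ⟩ := hU y hy
      have ev : Generic.dx (c.varAt i (i.put 0) (dirL i w)) y = R y +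
          i.lam⁻¹ • c.Φ.mainW (loopOf c.R) i.M i.ε (dirL i w) (y, i.lam * y.1) := by
        rw [hR', sub_add_cancel]
      simp only [hZ, zAt, Pi.add_apply, ev, c.mainW_eq i hys hyχ w, hμ, hh, pairing,
        inner_add_right, real_inner_smul_right, ← hFdef]
      have he : Sched.eps i.N i.lam i.lev = F * i.lam * A := by
        rw [hFdef, hAdef, Sched.eps, Sched.freq]; ring
      rw [he]
      field_simp
    have e1 : pd a b (Z w) x = (A * F)⁻¹ *
        pd a b (fun y => ⟪Algebra.n1 one (c.mapAt i (i.put 0)) y, R y⟫) x +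
          pd a b (fun y => h y * μ w y) x := by
      rw [Generic.eqOn_pd hUo eU a b hxU, Generic.pd_add hUo
        (contDiff_const.mul hIR).contDiffOn hhμ.contDiffOn a b hxU, Pi.add_apply,
        Generic.pd_const_mul hUo hIR.contDiffOn _ a b hxU]
    have e2 : pd a b (fun y => h y * μ w y) x - pd a b (fun q => h0 q * μ w q) x =
        pd a b (fun y => ContinuousLinearMap.mul ℝ ℝ (h y - h0 y) (μ w y)) x := by
      rw [WKB.pd_sub_eq hhμ (hh0s.mul (hμs w))]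
      refine congrArg (fun g => pd a b g x) (funext fun y => ?_)
      simp [sub_mul]
    -- the error of the leading term
    have hn0 : ∀ c' d, c' ≤ a → d ≤ b →
        ‖pd c' d (Algebra.n1 one (c.mapAt i (i.put 0))) x‖ ≤ B i.n * F ^ c' := by
      intro c' d hc hd
      rcases Nat.eq_zero_or_pos c' with rfl | hc0
      · simpa using (hlow d (hd.trans hb)).1
      · refine ((hkk c' d (by omega) (by omega) i 0 (by simp) x hxV).2).trans ?_
        exact ((hSF k₀ (by omega)).trans (le_self_pow₀ hF1 (by omega))).trans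
          (le_mul_of_one_le_left (by positivity) (by linarith [hB2 i.n]))
    have hRb : ∀ c' d, c' ≤ a → d ≤ b →
        ‖pd c' d R x‖ ≤ CR i.n * (A * F / i.lam) * F ^ c' := by
      intro c' d hc hd
      refine (hR' ▸ hCr i.n c' d i rfl (by omega) w hw x).trans ?_
      have := hCr0 i.n c' d
      have : Cr i.n c' d ≤ CR i.n := hCR i.n ▸
        le_sum_range (hCr0 i.n) (by omega : c' < 9) (by omega : d < 3)
      gcongr
    have p1 : |(A * F)⁻¹ * pd a b (fun y => ⟪Algebra.n1 one (c.mapAt i (i.put 0)) y, R y⟫) x| ≤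
        G * (B i.n * CR i.n) / i.lam * F ^ a := by
      rw [abs_mul, abs_of_pos (by positivity : 0 < (A * F)⁻¹)]
      refine (mul_le_mul_of_nonneg_left ((Generic.pd_bilin_pow
        (innerSL ℝ : V4 →L[ℝ] V4 →L[ℝ] ℝ) isOpen_univ (mem_univ x) hn.contDiffOn hRs.contDiffOn
        a b (hB0 _) hF0.le hn0 hRb).trans (mul_le_mul_of_nonneg_right
          (mul_le_mul_of_nonneg_right (hGi a b ha hb).1 ?_) (pow_nonneg hF0.le a)))
        (by positivity)).trans_eq ?_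
      · have := hB0 i.n; have := hCR0 i.n; positivity
      · field_simp
    have hhd : ∀ c' d, c' ≤ a → d ≤ b → ‖pd c' d (fun y => h y - h0 y) x‖ ≤
        Kh * (F / i.lam) / F * F ^ c' := by
      intro c' d hc hd
      rw [← WKB.pd_sub_eq hhs hh0s, hh0, pd_frozen hhs]
      rcases Nat.eq_zero_or_pos c' with rfl | hc0
      · simpa using div_nonneg (mul_nonneg hKh0 (div_nonneg hF0.le hl0.le)) hF0.le
      · rw [if_neg (by omega), sub_zero]
        have hb1 : ‖pd c' d h x‖ ≤ G * (S ^ k₀ * ∑ a ∈ Finset.range 9, ∑ b ∈ Finset.range 3,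
            Ce a b) * i.lam ^ c' := by
          rw [show h = fun y => (innerSL ℝ : V4 →L[ℝ] V4 →L[ℝ] ℝ)
            (Algebra.n1 one (c.mapAt i (i.put 0)) y) (WKB.along (loopOf c.R).e i.lam y) from hh]
          refine (Generic.pd_bilin_pow _ isOpen_univ (mem_univ x) hn.contDiffOn
            (WKB.contDiff_along (loopOf c.R).e_prof.1 i.lam).contDiffOn c' d (A := S ^ k₀)
            (B := ∑ a ∈ Finset.range 9, ∑ b ∈ Finset.range 3, Ce a b) (by positivity) hl0.le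
            (fun a' b' h1 h2 => ?_) fun a' b' h1 h2 => ?_).trans
            (mul_le_mul_of_nonneg_right (mul_le_mul_of_nonneg_right
              (hGi c' d (by omega) (by omega)).1 ?_) (by positivity))
          · exact ((hkk a' b' (by omega) (by omega) i 0 (by simp) x hxV).2).trans
              (le_mul_of_one_le_right (by positivity) (one_le_pow₀ i.one_le))
          · refine (hCe a' b' () i.lam i.one_le x).trans ?_
            rw [one_mul]
            exact mul_le_mul_of_nonneg_right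
              (le_sum_range hCe0 (by omega : a' < 9) (by omega : b' < 3)) (by positivity)
          · exact mul_nonneg (by positivity) (Finset.sum_nonneg fun a _ =>
              Finset.sum_nonneg fun b _ => hCe0 a b)
        refine hb1.trans ?_
        have hpow : S ^ k₀ * i.lam ^ c' * i.lam ≤ F ^ c' := by
          calc S ^ k₀ * i.lam ^ c' * i.lam ≤ S ^ k₀ * S ^ c' * S := by gcongr
            _ = S ^ (k₀ + c' + 1) := by rw [pow_add, pow_add, pow_one]
            _ ≤ F := hSF _ (by omega)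
            _ ≤ F ^ c' := le_self_pow₀ hF1 (by omega)
        rw [show Kh * (F / i.lam) / F * F ^ c' = Kh * F ^ c' / i.lam by field_simp,
          le_div_iff₀ hl0, hKh]
        refine le_trans (le_of_eq (by ring)) (mul_le_mul_of_nonneg_left hpow (hKh ▸ hKh0))
    have hμb : ∀ c' d, c' ≤ a → d ≤ b → ‖pd c' d (μ w) x‖ ≤ Km * F ^ c' := fun c' d hc hd => by
      rw [Real.norm_eq_abs, hμ]
      exact (hKm w F hF0.le c' d (by omega) (by omega) x hx2).trans
        (mul_le_of_le_one_right (by positivity) hw)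
    have p2 : |pd a b (fun y => h y * μ w y) x - pd a b (fun q => h0 q * μ w q) x| ≤
        G * (Kh * Km) / i.lam * F ^ a := by
      rw [e2, ← Real.norm_eq_abs]
      refine ((Generic.pd_bilin_pow (ContinuousLinearMap.mul ℝ ℝ) isOpen_univ (mem_univ x)
        (hhs.sub hh0s).contDiffOn (hμs w).contDiffOn a b (by positivity) hF0.le hhd hμb).trans
          (mul_le_mul_of_nonneg_right (mul_le_mul_of_nonneg_right (hGi a b ha hb).2 ?_)
            (pow_nonneg hF0.le a))).trans_eq ?_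
      · positivity
      · field_simp
    rw [e1, add_sub_assoc]
    refine (abs_add_le _ _).trans ((add_le_add p1 p2).trans_eq ?_)
    rw [hErr]
    ring
  have hεB : Err i.n / i.lam * B i.n ^ C₀ ≤ 1 := by
    rw [div_mul_eq_mul_div, div_le_one hl0, mul_comm]
    exact hTE
  obtain ⟨wm, hwm, hjet⟩ := hC₀ (B i.n) F (Err i.n / i.lam) univ x h0 Z (hB2 _)
    (hTC.trans hlF) (div_nonneg (hErr0 _) hl0.le) hεB isOpen_univ (mem_univ x)
    (hx2.trans (by linarith [hB2 i.n])) hh0s.contDiffOn hh0jet hh0x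
    (fun w => (hZs w).contDiffOn) (fun w a b ha hb => by
      obtain ⟨u, hu, hwu⟩ : ∃ u : Mode → ℝ, ‖u‖ ≤ 1 ∧ w = ‖w‖ • u := by
        rcases eq_or_ne w 0 with rfl | hw0
        · exact ⟨0, by simp, by simp⟩
        · refine ⟨‖w‖⁻¹ • w, ?_, by rw [smul_smul, mul_inv_cancel₀ (norm_ne_zero_iff.2 hw0),
            one_smul]⟩
          rw [norm_smul, norm_inv, norm_norm, inv_mul_cancel₀ (norm_ne_zero_iff.2 hw0)]
      have h1 := hclose u hu a b ha hb
      have eZ : pd a b (Z w) x = ‖w‖ * pd a b (Z u) x := by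
        conv_lhs => rw [hwu, map_smul]
        exact Generic.pd_const_mul isOpen_univ (hZs u).contDiffOn _ a b (mem_univ x)
      have eM : pd a b (fun p => h0 p * ∑ j, w j * mode j (p.2, F * p.1)) x =
          ‖w‖ * pd a b (fun q => h0 q * μ u q) x := by
        rw [← Generic.pd_const_mul isOpen_univ (hh0s.mul (hμs u)).contDiffOn _ a b (mem_univ x)]
        refine congrArg (fun g => pd a b g x) (funext fun p => ?_)
        conv_lhs => rw [hwu]
        rw [hμ, Finset.mul_sum, Finset.mul_sum, Finset.mul_sum]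
        exact Finset.sum_congr rfl fun j _ => by simp; ring
      rw [eZ, eM, ← mul_sub, abs_mul, abs_norm, mul_comm _ ‖w‖]
      exact mul_le_mul_of_nonneg_left h1 (norm_nonneg _)) y
  have hw1 : ‖fun q => wm ((Fintype.equivFin Mode).symm q)‖ ≤ 1 := by
    refine (pi_norm_le_iff_of_nonneg zero_le_one).2 fun q => (norm_le_pi_norm wm _).trans ?_
    refine hwm.trans ((mul_le_mul_of_nonneg_right (hTC.trans hlS) (norm_nonneg y)).trans ?_)
    simpa using hy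
  refine ⟨⟨_, mem_closedBall_zero_iff.2 hw1⟩, fun ab => ?_⟩
  rw [Generic.zj, c.zeta_eq]
  show pd (ab.1 : ℕ) (ab.2 : ℕ) (c.zAt i (i.put 0) (i.dir _)) x = _
  rw [← dirL_eq, show c.zAt i (i.put 0) (dirL i wm) = fun q => A * F * Z wm q from funext fun q => by
    rw [hZ, ← mul_assoc, mul_inv_cancel₀ (by positivity), one_mul],
    Generic.pd_const_mul isOpen_univ (hZs wm).contDiffOn _ _ _ (mem_univ x), hjet ab]
  ring

/-- Along the block the scalar variation moves by less than one frequency. -/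
theorem presc_drift : ∃ T : ℕ → ℝ, ∀ thr : ℕ → ℕ → ℝ, (∀ N n, T n ≤ thr N n) →
    Resp (c.pert thr).vscale (c.pert thr).var → ∃ D : ℕ, ∀ (i : Sched.State thr), ∀ x ∈ Kg,
      ∀ (τ : closedBall (0 : Fin Sched.dimP → ℝ) 3) (w : closedBall (0 : Fin Sched.dimP → ℝ) 1),
        ∀ a b : ℕ, a ≤ 8 → b ≤ 2 →
          |Generic.zj (zeta (c.pert thr).var) a b (i, τ, w) x -
            Generic.zj (zeta (c.pert thr).var) a b
              (i, ⟨0, mem_closedBall_self (by norm_num)⟩, w) x| ≤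
            Sched.bigs i.N i.lam i.lev ^ D *
              (Sched.amp i.N i.lam i.lev / Sched.freq i.N i.lam i.lev) := by
  classical
  choose Cv hCv0 hCv using c.var_jet
  choose Cl hCl0 hCl using c.lip_jet
  choose Cd hCd0 hCd using c.diff_jet
  obtain ⟨G, hG⟩ : ∃ G : ℝ, G = 2 ^ 10 * ‖(innerSL ℝ : V4 →L[ℝ] V4 →L[ℝ] ℝ)‖ := ⟨_, rfl⟩
  have hG0 : 0 ≤ G := by rw [hG]; positivity
  obtain ⟨CB, hCB⟩ : ∃ CB : ℕ → ℝ, ∀ n, CB n = ∑ a ∈ Finset.range 10, ∑ b ∈ Finset.range 5,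
      (Cv n a b + Cl n a b + Cd n a b) := ⟨_, fun _ => rfl⟩
  refine ⟨CB, fun thr hthr hR => ?_⟩
  obtain ⟨k₀, hkk⟩ := c.base_jets hR
  obtain ⟨q, hq⟩ : ∃ q : ℕ, G * (3 * (2 ^ 10 * ‖ContinuousLinearMap.id ℝ (V4 →L[ℝ] V4)‖ *
      (2 ^ 10 * ‖crossL‖)) + 1) ≤ (2 : ℝ) ^ q :=
    (pow_unbounded_of_one_lt _ (by norm_num : (1 : ℝ) < 2)).imp fun _ h => h.le
  obtain ⟨D, hD⟩ : ∃ D, D = q + 2 * k₀ + 3 := ⟨_, rfl⟩
  refine ⟨D, fun i x hxK τ w a b ha hb => ?_⟩
  have hTV : CB i.n ≤ i.lam := (hthr i.N i.n).trans i.lam_ge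
  show |pd a b (zeta (c.pert thr).var (i, τ, w)) x -
      pd a b (zeta (c.pert thr).var (i, ⟨0, mem_closedBall_self (by norm_num)⟩, w)) x| ≤
    Sched.bigs i.N i.lam i.lev ^ D * (Sched.amp i.N i.lam i.lev / Sched.freq i.N i.lam i.lev)
  rw [c.zeta_eq, c.zeta_eq]
  set A := Sched.amp i.N i.lam i.lev
  set F := Sched.freq i.N i.lam i.lev
  set S := Sched.bigs i.N i.lam i.lev
  have hA : 0 < A := Sched.amp_pos i.one_le
  have hF1 : 1 ≤ F := Sched.one_le_freq i.one_le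
  have hF0 : 0 < F := zero_lt_one.trans_le hF1
  have hS1 : 1 ≤ S := Sched.one_le_bigs i.one_le
  have hS2 : 2 ≤ S := i.two_le.trans (Sched.lam_le_bigs i.one_le)
  have hxV : x ∈ c.V :=
    c.Kc_sub (interior_subset (c.K₀_sub (interior_subset (c.sub_K₀ hxK))))
  obtain ⟨τ, hτ⟩ := τ
  obtain ⟨w, hw⟩ := w
  rw [mem_closedBall_zero_iff] at hτ hw
  have h30 : ‖(0 : Fin Sched.dimP → ℝ)‖ ≤ 3 := by simp
  have hcb : ∀ a' b', a' ≤ 9 → b' ≤ 4 → Cv i.n a' b' ≤ S ∧ Cl i.n a' b' ≤ S ∧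
      Cd i.n a' b' ≤ S := fun a' b' ha' hb' => by
    have h := le_sum_range (g := fun a b => Cv i.n a b + Cl i.n a b + Cd i.n a b)
      (fun a b => add_nonneg (add_nonneg (hCv0 _ a b) (hCl0 _ a b)) (hCd0 _ a b))
      (by omega : a' < 10) (by omega : b' < 5)
    have := hCv0 i.n a' b'; have := hCl0 i.n a' b'; have := hCd0 i.n a' b'
    have := hTV.trans (Sched.lam_le_bigs (N := i.N) (s := (i.lev : ℕ)) i.one_le)
    rw [hCB] at this
    exact ⟨by linarith, by linarith, by linarith⟩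
  obtain ⟨H1, hH1⟩ : ∃ H, H = c.mapAt i (i.put τ) := ⟨_, rfl⟩
  obtain ⟨H0, hH0⟩ : ∃ H, H = c.mapAt i (i.put 0) := ⟨_, rfl⟩
  obtain ⟨v1, hv1⟩ : ∃ v, v = c.varAt i (i.put τ) (i.dir w) := ⟨_, rfl⟩
  obtain ⟨v0, hv0⟩ : ∃ v, v = c.varAt i (i.put 0) (i.dir w) := ⟨_, rfl⟩
  have sH1 : ContDiff ℝ ∞ H1 := hH1 ▸ c.contDiff_mapAt' i _
  have sH0 : ContDiff ℝ ∞ H0 := hH0 ▸ c.contDiff_mapAt' i _
  have sv1 : ContDiff ℝ ∞ v1 := hv1 ▸ c.contDiff_varAt i _ _
  have sv0 : ContDiff ℝ ∞ v0 := hv0 ▸ c.contDiff_varAt i _ _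
  have dd : ∀ {g : R2 → V4}, ContDiff ℝ ∞ g → ∀ c' d,
      pd c' d (dx g) x = pd (c' + 1) d g x ∧ pd c' d (dy g) x = pd c' (d + 1) g x ∧
        pd c' d (F22 g) x = pd c' (d + 2) g x := fun {g} hg c' d =>
    ⟨rfl, Generic.pd_dy isOpen_univ hg.contDiffOn c' d (mem_univ x),
      (Generic.pd_dy isOpen_univ (contDiff_dir hg (0, 1)).contDiffOn c' d (mem_univ x)).trans
        (Generic.pd_dy isOpen_univ hg.contDiffOn c' (d + 1) (mem_univ x))⟩
  have hU : ∀ g ∈ [dx H1, dx H0, dy H1, dy H0, F22 H1, F22 H0], ∀ c' d, c' ≤ a → d ≤ b →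
      ‖pd c' d g x‖ ≤ S ^ k₀ * F ^ c' := by
    simp only [List.mem_cons, List.not_mem_nil, or_false, forall_eq_or_imp, forall_eq]
    have key : ∀ (σ : Fin Sched.dimP → ℝ), ‖σ‖ ≤ 3 → ∀ c' d, c' ≤ a + 1 → d ≤ b + 2 →
        ∀ e, ‖pd c' d (c.mapAt i (i.put σ)) x‖ ≤ S ^ k₀ * F ^ e := fun σ hσ c' d h1 h2 e =>
      (hkk c' d (by omega) (by omega) i σ hσ x hxV).1.trans
        (le_mul_of_one_le_right (by positivity) (one_le_pow₀ hF1))
    refine ⟨?_, ?_, ?_, ?_, ?_, ?_⟩ <;> intro c' d h1 h2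
    · rw [(dd sH1 c' d).1, hH1]; exact key τ hτ _ _ (by omega) (by omega) _
    · rw [(dd sH0 c' d).1, hH0]; exact key 0 h30 _ _ (by omega) (by omega) _
    · rw [(dd sH1 c' d).2.1, hH1]; exact key τ hτ _ _ (by omega) (by omega) _
    · rw [(dd sH0 c' d).2.1, hH0]; exact key 0 h30 _ _ (by omega) (by omega) _
    · rw [(dd sH1 c' d).2.2, hH1]; exact key τ hτ _ _ (by omega) (by omega) _
    · rw [(dd sH0 c' d).2.2, hH0]; exact key 0 h30 _ _ (by omega) (by omega) _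
  have hΔ : ∀ g ∈ [fun y => dx H1 y - dx H0 y, fun y => dy H1 y - dy H0 y,
      fun y => F22 H1 y - F22 H0 y], ∀ c' d, c' ≤ a → d ≤ b →
        ‖pd c' d g x‖ ≤ S * A * F * F ^ c' := by
    have key : ∀ c' d e, c' ≤ 9 → d ≤ 4 → c' ≤ e + 1 →
        ‖pd c' d H1 x - pd c' d H0 x‖ ≤ S * A * F * F ^ e := fun c' d e h1 h2 h3 => by
      rw [WKB.pd_sub_eq sH1 sH0, hH1, hH0]
      refine (hCd i.n c' d i rfl τ hτ x).trans ?_
      rw [mul_assoc (S * A), ← pow_succ']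
      exact mul_le_mul (mul_le_mul_of_nonneg_right (hcb c' d h1 h2).2.2 hA.le)
        (pow_le_pow_right₀ hF1 h3) (by positivity) (by positivity)
    simp only [List.mem_cons, List.not_mem_nil, or_false, forall_eq_or_imp, forall_eq]
    refine ⟨?_, ?_, ?_⟩ <;> intro c' d h1 h2
    · rw [← WKB.pd_sub_eq (f := dx H1) (g := dx H0) (contDiff_dir sH1 (1, 0)) (contDiff_dir sH0 (1, 0)),
        (dd sH1 c' d).1, (dd sH0 c' d).1]
      exact key _ _ _ (by omega) (by omega) le_rfl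
    · rw [← WKB.pd_sub_eq (f := dy H1) (g := dy H0) (contDiff_dir sH1 (0, 1)) (contDiff_dir sH0 (0, 1)),
        (dd sH1 c' d).2.1, (dd sH0 c' d).2.1]
      exact key _ _ _ (by omega) (by omega) (by omega)
    · rw [← WKB.pd_sub_eq (f := F22 H1) (g := F22 H0) (contDiff_dir (contDiff_dir sH1 (0, 1)) (0, 1))
        (contDiff_dir (contDiff_dir sH0 (0, 1)) (0, 1)), (dd sH1 c' d).2.2, (dd sH0 c' d).2.2]
      exact key _ _ _ (by omega) (by omega) (by omega)
  obtain ⟨Kc', hKc'⟩ : ∃ K : ℝ, K = 3 * (2 ^ 10 * ‖ContinuousLinearMap.id ℝ (V4 →L[ℝ] V4)‖ *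
      (2 ^ 10 * ‖crossL‖)) := ⟨_, rfl⟩
  have hKc0 : 0 ≤ Kc' := by rw [hKc']; positivity
  have hdn : ∀ c' d, c' ≤ a → d ≤ b →
      ‖pd c' d (fun y => Algebra.n1 one H1 y - Algebra.n1 one H0 y) x‖ ≤
        Kc' * (S ^ (2 * k₀ + 1) * A * F) * F ^ c' := by
    intro c' d h1 h2
    simp only [n1_one]
    refine (pd_cross_diff (contDiff_dir sH1 (1, 0)) (contDiff_dir sH0 (1, 0))
      (contDiff_dir sH1 (0, 1)) (contDiff_dir sH0 (0, 1))
      (contDiff_dir (contDiff_dir sH1 (0, 1)) (0, 1))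
      (contDiff_dir (contDiff_dir sH0 (0, 1)) (0, 1)) x c' d hF0.le (by positivity)
      (Δ := S * A * F) (by positivity) (fun g hg a' b' e1 e2 => hU g hg a' b' (e1.trans h1)
        (e2.trans h2)) fun g hg a' b' e1 e2 => hΔ g hg a' b' (e1.trans h1) (e2.trans h2)).trans ?_
    have h2' : (2 : ℝ) ^ (c' + d) ≤ 2 ^ 10 := pow_le_pow_right₀ one_le_two (by omega)
    calc _ = 3 * (2 ^ (c' + d) * ‖ContinuousLinearMap.id ℝ (V4 →L[ℝ] V4)‖ *
          (2 ^ (c' + d) * ‖crossL‖)) * (S ^ (2 * k₀ + 1) * A * F) * F ^ c' := by ring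
      _ ≤ _ := by rw [hKc']; gcongr
  have hdv : ∀ c' d, c' ≤ a → d ≤ b → ‖pd c' d (dx v1) x‖ ≤ S * A * F * F ^ c' := by
    intro c' d h1 h2
    rw [(dd sv1 c' d).1, hv1]
    refine (hCv i.n (c' + 1) d i rfl τ w hτ hw x).trans ?_
    rw [mul_assoc (S * A), ← pow_succ']
    have := (hcb (c' + 1) d (by omega) (by omega)).1
    gcongr
  have hΔv : ∀ c' d, c' ≤ a → d ≤ b →
      ‖pd c' d (fun y => dx v1 y - dx v0 y) x‖ ≤ S * A ^ 2 * F ^ 5 * F ^ c' := by
    intro c' d h1 h2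
    rw [← WKB.pd_sub_eq (f := dx v1) (g := dx v0) (contDiff_dir sv1 (1, 0)) (contDiff_dir sv0 (1, 0)),
      (dd sv1 c' d).1, (dd sv0 c' d).1, WKB.pd_sub_eq sv1 sv0, hv1, hv0]
    refine (hCl i.n (c' + 1) d i rfl τ w hτ hw x).trans ?_
    rw [show S * A ^ 2 * F ^ 5 * F ^ c' = S * (A ^ 2 * F ^ 4) * F ^ (c' + 1) by ring]
    have := (hcb (c' + 1) d (by omega) (by omega)).2.1
    gcongr
  have hn0 : ∀ c' d, c' ≤ a → d ≤ b → ‖pd c' d (Algebra.n1 one H0) x‖ ≤ S ^ k₀ * F ^ c' :=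
    fun c' d h1 h2 => hH0 ▸ (hkk c' d (by omega) (by omega) i 0 h30 x hxV).2.trans
      (le_mul_of_one_le_right (by positivity) (one_le_pow₀ hF1))
  have sn1 := contDiff_n1 sH1
  have sn0 := contDiff_n1 sH0
  have sd1 := contDiff_dir sv1 (1, 0)
  have sd0 := contDiff_dir sv0 (1, 0)
  have b1 := (Generic.pd_bilin_pow (innerSL ℝ : V4 →L[ℝ] V4 →L[ℝ] ℝ) isOpen_univ (mem_univ x)
    (sn1.sub sn0).contDiffOn sd1.contDiffOn a b (by positivity) hF0.le hdn hdv)
  have b2 := (Generic.pd_bilin_pow (innerSL ℝ : V4 →L[ℝ] V4 →L[ℝ] ℝ) isOpen_univ (mem_univ x)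
    sn0.contDiffOn (sd1.sub sd0).contDiffOn a b (by positivity) hF0.le hn0 hΔv)
  have e : (fun y => c.zAt i (i.put τ) (i.dir w) y - c.zAt i (i.put 0) (i.dir w) y) =
      (fun y => (innerSL ℝ : V4 →L[ℝ] V4 →L[ℝ] ℝ)
        (Algebra.n1 one H1 y - Algebra.n1 one H0 y) (dx v1 y)) +
      fun y => (innerSL ℝ : V4 →L[ℝ] V4 →L[ℝ] ℝ) (Algebra.n1 one H0 y) (dx v1 y - dx v0 y) :=
    funext fun y => by
      simp only [zAt, hH1, hH0, hv1, hv0, Pi.add_apply, innerSL_apply_apply, inner_sub_left,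
        inner_sub_right]
      exact (sub_add_sub_cancel _ _ _).symm
  have hs1 : ContDiffOn ℝ ∞ (fun y => (innerSL ℝ : V4 →L[ℝ] V4 →L[ℝ] ℝ)
      (Algebra.n1 one H1 y - Algebra.n1 one H0 y) (dx v1 y)) univ :=
    Generic.contDiffOn_bilin _ (sn1.sub sn0).contDiffOn sd1.contDiffOn
  have hs2 : ContDiffOn ℝ ∞ (fun y => (innerSL ℝ : V4 →L[ℝ] V4 →L[ℝ] ℝ)
      (Algebra.n1 one H0 y) (dx v1 y - dx v0 y)) univ :=
    Generic.contDiffOn_bilin _ sn0.contDiffOn (sd1.sub sd0).contDiffOn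
  show |pd a b (c.zAt i (i.put τ) (i.dir w)) x - pd a b (c.zAt i (i.put 0) (i.dir w)) x| ≤ _
  rw [WKB.pd_sub_eq (c.contDiff_zAt i _ _) (c.contDiff_zAt i _ _), e,
    Generic.pd_add isOpen_univ hs1 hs2 a b (mem_univ x),
    Pi.add_apply, ← Real.norm_eq_abs]
  refine (norm_add_le _ _).trans ((add_le_add b1 b2).trans ?_)
  have hGab : 2 ^ (a + b) * ‖(innerSL ℝ : V4 →L[ℝ] V4 →L[ℝ] ℝ)‖ ≤ G := by
    rw [hG]
    exact mul_le_mul_of_nonneg_right (pow_le_pow_right₀ one_le_two (by omega)) (norm_nonneg _)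
  have small : ∀ m, m ≤ 24 → A * F ^ m ≤ 1 := fun m hm => Sched.amp_mul_le i.one_le (by omega)
  have t1 : A * F * (A * F) * F ^ a ≤ A / F := by
    rw [le_div_iff₀ hF0]
    calc A * F * (A * F) * F ^ a * F = A * (A * F ^ (a + 3)) := by ring
      _ ≤ A := mul_le_of_le_one_right hA.le (small _ (by omega))
  have t2 : A ^ 2 * F ^ 5 * F ^ a ≤ A / F := by
    rw [le_div_iff₀ hF0]
    calc A ^ 2 * F ^ 5 * F ^ a * F = A * (A * F ^ (a + 6)) := by ring
      _ ≤ A := mul_le_of_le_one_right hA.le (small _ (by omega))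
  have hk : S ^ k₀ ≤ S ^ (2 * k₀ + 1) := pow_le_pow_right₀ hS1 (by omega)
  calc 2 ^ (a + b) * ‖(innerSL ℝ : V4 →L[ℝ] V4 →L[ℝ] ℝ)‖ *
          (Kc' * (S ^ (2 * k₀ + 1) * A * F) * (S * A * F)) * F ^ a +
        2 ^ (a + b) * ‖(innerSL ℝ : V4 →L[ℝ] V4 →L[ℝ] ℝ)‖ *
          (S ^ k₀ * (S * A ^ 2 * F ^ 5)) * F ^ a
      = 2 ^ (a + b) * ‖(innerSL ℝ : V4 →L[ℝ] V4 →L[ℝ] ℝ)‖ *
          (Kc' * (S ^ (2 * k₀ + 1) * S) * (A * F * (A * F) * F ^ a) +
            S ^ k₀ * S * (A ^ 2 * F ^ 5 * F ^ a)) := by ring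
    _ ≤ G * (Kc' * (S ^ (2 * k₀ + 1) * S) * (A / F) + S ^ (2 * k₀ + 1) * S * (A / F)) := by
        gcongr
    _ = G * (Kc' + 1) * (S ^ (2 * k₀ + 1) * S * (A / F)) := by ring
    _ ≤ S ^ q * (S ^ (2 * k₀ + 1) * S * (A / F)) := by
        refine mul_le_mul_of_nonneg_right ?_ (by positivity)
        exact hKc' ▸ hq.trans (pow_le_pow_left₀ zero_le_two hS2 q)
    _ ≤ S ^ D * (A / F) := by
        rw [← mul_assoc, ← pow_succ, ← pow_add]
        exact mul_le_mul_of_nonneg_right (pow_le_pow_right₀ hS1 (by omega)) (by positivity)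

/-- Prescribed jets of round two. -/
theorem presc : ∃ T : ℕ → ℝ, ∀ thr : ℕ → ℕ → ℝ, (∀ N n, T n ≤ thr N n) →
    Resp (c.pert thr).vscale (c.pert thr).var → ∃ N₀, (c.pert thr).Presc
      (zeta (c.pert thr).var) fun i => {x ∈ Kg | N₀ ≤ i.N} := by
  obtain ⟨T₁, h₁⟩ := c.presc_exact
  obtain ⟨T₂, h₂⟩ := c.presc_drift
  refine ⟨fun n => max (T₁ n) (T₂ n), fun thr hthr hR => ?_⟩
  obtain ⟨N₁, hjets⟩ := h₁ thr (fun N n => (le_max_left _ _).trans (hthr N n)) hR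
  obtain ⟨D, hdrift⟩ := h₂ thr (fun N n => (le_max_right _ _).trans (hthr N n)) hR
  refine ⟨max N₁ (D + 3), Generic.Pert.presc_of_jets (C := 1) (D := D) (K := D + 3) ?_ ?_ ?_
    (by omega)⟩
  · rintro i x ⟨hx, hN⟩ y hy
    exact hjets i x hx ((le_max_left _ _).trans hN) y hy
  · rintro i x ⟨hx, -⟩ τ w a b ha hb
    exact hdrift i x hx τ w a b ha hb
  · rintro i x ⟨-, hN⟩
    exact (pow_le_pow_right₀ (Sched.one_le_bigs i.one_le) ((le_max_right _ _).trans hN)).trans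
      (Sched.pow_le_freq i.one_le)

end RoundCell

end

end Vale.Agent.P205.Bridge
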