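import Vale.Agent.P205.Full.Bridge.RoundPert
import Vale.Agent.P205.Full.WKB.NonDeg
import Vale.Agent.P205.Generic.Jet2

/-!
# P205: the family of round two is a response family

Above a threshold in `lam` depending on the truncation only, the maps are nondegenerate, cost a
power of the scale, and a block moves them by `amp` at its frequency while the metric moves two
orders less.
-/

namespace Vale.Agent.P205.Bridge

open scoped ContDiff RealInnerProductSpace Topology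
open Set Metric Filter Correction Profile
open Vale.Agent.P205.Algebra

noncomputable section

/-- Constants depending on an order and two small indices are below a power of any scale above a
threshold depending on the order alone. -/
lemma absorb (F : ℕ → ℕ → ℕ → ℝ) : ∃ T : ℕ → ℝ, (∀ n, 0 ≤ T n) ∧ ∀ a b, ∃ C : ℕ, ∀ n (x : ℝ),
    T n ≤ x → 2 ≤ x → F n a b ≤ x ^ C := by
  refine ⟨fun n => ∑ a ∈ Finset.range (n + 1), ∑ b ∈ Finset.range (n + 1), |F n a b|,
    fun n => Finset.sum_nonneg fun _ _ => Finset.sum_nonneg fun _ _ => abs_nonneg _,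
    fun a b => ?_⟩
  obtain ⟨k, hk⟩ := pow_unbounded_of_one_lt (∑ n ∈ Finset.range (max a b), |F n a b|)
    (one_lt_two (α := ℝ))
  refine ⟨k + 1, fun n x hT hx => ?_⟩
  by_cases hn : max a b ≤ n
  · refine le_trans (le_abs_self _) (le_trans ?_ (hT.trans (le_self_pow₀ (by linarith) (by omega))))
    exact (Finset.single_le_sum (f := fun b => |F n a b|) (fun _ _ => abs_nonneg _)
      (Finset.mem_range.2 (show b < n + 1 by omega))).trans
      (Finset.single_le_sum (f := fun a => ∑ b ∈ Finset.range (n + 1), |F n a b|)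
        (fun _ _ => Finset.sum_nonneg fun _ _ => abs_nonneg _)
        (Finset.mem_range.2 (show a < n + 1 by omega)))
  · refine (le_abs_self _).trans (((Finset.single_le_sum (f := fun n => |F n a b|)
      (fun _ _ => abs_nonneg _) (Finset.mem_range.2 (not_le.1 hn))).trans hk.le).trans ?_)
    exact (pow_le_pow_left₀ zero_le_two hx k).trans
      (pow_le_pow_right₀ (by linarith) (Nat.le_succ k))

/-- Linear maps commute with mixed derivatives. -/
lemma pd_clm {V W : Type} [NormedAddCommGroup V] [NormedSpace ℝ V] [NormedAddCommGroup W]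
    [NormedSpace ℝ W] (L : V →L[ℝ] W) {g : R2 → V} (hg : ContDiff ℝ ∞ g) (a b : ℕ) (x : R2) :
    Generic.pd a b (fun y => L (g y)) x = L (Generic.pd a b g x) := by
  have hd : ∀ (u : R2 → V), ContDiff ℝ ∞ u → ∀ v y,
      fderiv ℝ (fun z => L (u z)) y v = L (fderiv ℝ u y v) := fun u hu v y => by
    have h : HasFDerivAt (fun z => L (u z)) (L.comp (fderiv ℝ u y)) y :=
      L.hasFDerivAt.comp y (hu.differentiable (by simp) y).hasFDerivAt
    rw [h.fderiv]
    rfl
  have hx : ∀ a, Generic.dx^[a] (fun y => L (g y)) = fun y => L (Generic.dx^[a] g y) := by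
    intro a
    induction a with
    | zero => rfl
    | succ a ih =>
      simp only [Function.iterate_succ_apply', ih]
      exact funext fun y => hd _ (contDiffOn_univ.1
        (Generic.contDiffOn_dx_iter isOpen_univ hg.contDiffOn a)) _ y
  induction b generalizing x with
  | zero => exact congrFun (hx a) x
  | succ b ih =>
    have e : Generic.dy^[b] (Generic.dx^[a] fun y => L (g y)) = fun y => L (Generic.pd a b g y) :=
      funext fun y => ih y
    simp only [Generic.pd, Function.iterate_succ_apply', e]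
    exact hd _ (contDiffOn_univ.1 (Generic.contDiffOn_pd isOpen_univ hg.contDiffOn a b)) _ x

/-- The jets which matter agree for germs. -/
lemma jets_congr {F G : R2 → V4} {p : R2} (h : F =ᶠ[𝓝 p] G) :
    dx F p = dx G p ∧ dy F p = dy G p ∧ F22 F p = F22 G p := by
  have h1 : dy F =ᶠ[𝓝 p] dy G := by
    filter_upwards [h.eventually_nhds] with z hz
    exact congrArg (fun A : R2 →L[ℝ] V4 => A (0, 1)) (Filter.EventuallyEq.fderiv_eq hz)
  exact ⟨congrArg (fun A : R2 →L[ℝ] V4 => A (1, 0)) h.fderiv_eq, h1.eq_of_nhds,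
    congrArg (fun A : R2 →L[ℝ] V4 => A (0, 1)) h1.fderiv_eq⟩

variable {N Kg Kc : Set R2} {a : R2 → ℝ} {f : R2 → V4}

namespace RoundCell

variable (c : RoundCell N Kg Kc a f 2 13) {thr : ℕ → ℕ → ℝ}

/-- The map at a parameter of the block of a state. -/
def at' (i : Sched.State thr) (τ : Sched.Idx → ℝ) : R2 → V4 := c.fam i.n i.lam i.M i.ε τ

lemma contDiff_at' (i : Sched.State thr) :
    ContDiff ℝ ∞ fun z : (Sched.Idx → ℝ) × R2 => c.at' i z.1 z.2 :=
  c.Φ.contDiff_H i.n i.lam i.one_le_M i.ε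

lemma contDiff_slice' (i : Sched.State thr) (τ : Sched.Idx → ℝ) : ContDiff ℝ ∞ (c.at' i τ) :=
  c.Φ.contDiff_slice_H i.n i.lam i.one_le_M i.ε τ

lemma var_eq (j : Generic.Dir (Sched.State thr) Sched.dimP) : (c.pert thr).var j =
    fun q => c.at' j.1 (j.1.put j.2.1 + q.1 • j.1.dir j.2.2) q.2 := funext fun q => by
  show c.at' j.1 (j.1.put (j.2.1 + q.1 • (j.2.2 : Fin Sched.dimP → ℝ))) q.2 = _
  rw [Sched.State.put_add]

lemma base0_eq (j : Generic.Dir (Sched.State thr) Sched.dimP) :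
    Generic.base0 (c.pert thr).var j = c.at' j.1 (j.1.put j.2.1) := funext fun x => by
  simp [Generic.base0, c.var_eq]

lemma var1_eq (j : Generic.Dir (Sched.State thr) Sched.dimP) (x : R2) :
    Generic.var1 (c.pert thr).var j x =
      fderiv ℝ (fun z : (Sched.Idx → ℝ) × R2 => c.at' j.1 z.1 z.2) (j.1.put j.2.1, x)
        (j.1.dir j.2.2, 0) := by
  rw [Generic.var1, c.var_eq]
  exact (WKB.FreeData.line_deriv (G := c.at' j.1) (c.contDiff_at' j.1) _ _).2 x

lemma lXY_eq (j : Generic.Dir (Sched.State thr) Sched.dimP) (q : Generic.Ext) (v : R2) :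
    fderiv ℝ ((c.pert thr).var j) q (0, v) =
      fderiv ℝ (c.at' j.1 (j.1.put j.2.1 + q.1 • j.1.dir j.2.2)) q.2 v := by
  have h : ContDiff ℝ ∞ ((c.pert thr).var j) := by
    rw [c.var_eq]
    exact (WKB.FreeData.line_deriv (G := c.at' j.1) (c.contDiff_at' j.1) _ _).1
  have h1 : HasFDerivAt (fun x : R2 => (c.pert thr).var j (q.1, x))
      ((fderiv ℝ ((c.pert thr).var j) q).comp (ContinuousLinearMap.inr ℝ ℝ R2)) q.2 :=
    HasFDerivAt.comp (g := (c.pert thr).var j) q.2 (h.differentiable (by simp) q).hasFDerivAt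
      (hasFDerivAt_prodMk_right (𝕜 := ℝ) q.1 q.2)
  rw [show c.at' j.1 (j.1.put j.2.1 + q.1 • j.1.dir j.2.2) =
    fun x => (c.pert thr).var j (q.1, x) from funext fun x => by rw [c.var_eq], h1.fderiv]
  rfl

lemma norm_param {i : Sched.State thr} {τ : Fin Sched.dimP → ℝ} {r : ℝ} (h : ‖τ‖ ≤ r)
    (hr : 1 ≤ r) : ‖i.put τ‖ ≤ r :=
  (i.norm_put_le τ).trans (max_le hr h)

/-- The sum of the normalised sizes of a direction of the block. -/
lemma dir_sum_le (i : Sched.State thr) {w : Fin Sched.dimP → ℝ} (hw : ‖w‖ ≤ 1) :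
    ∑ j, i.ε j / i.M j * |i.dir w j| ≤ Fintype.card Sched.Idx *
      (Sched.eps i.N i.lam i.lev / Sched.mult i.N i.lam i.lev) := by
  refine (Finset.sum_le_card_nsmul _ _ (Sched.eps i.N i.lam i.lev /
    Sched.mult i.N i.lam i.lev) fun j _ => ?_).trans_eq (by rw [nsmul_eq_mul, Finset.card_univ])
  have h0 : 0 ≤ Sched.eps i.N i.lam i.lev / Sched.mult i.N i.lam i.lev :=
    div_nonneg (Sched.eps_nonneg i.one_le) (Nat.cast_nonneg _)
  by_cases h : j.1 = i.lev
  · rw [Sched.State.ε, Sched.State.M, h]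
    refine mul_le_of_le_one_right h0 ((le_of_eq ?_).trans ((norm_le_pi_norm (i.dir w) j).trans
      ((i.norm_dir_le w).trans hw)))
    rfl
  · simpa [Sched.State.dir, h] using h0

/-- The bound of the maps, silencing the later blocks. -/
lemma base_bound' (n a b : ℕ) : ∃ C, 0 ≤ C ∧ ∀ (thr : ℕ → ℕ → ℝ) (i : Sched.State thr)
    (σ : Fin Sched.dimP → ℝ), i.n = n → ‖σ‖ ≤ 5 → ∀ x,
      ‖Generic.pd a b (c.at' i (i.put σ)) x‖ ≤
        C * Sched.bigs i.N i.lam i.lev ^ (a + Sched.ampExp a) := by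
  obtain ⟨C, hC0, hC⟩ := c.Φ.base_bound (L := c.R.spin.loop) n a b
  refine ⟨C * (1 + Fintype.card Sched.Idx), by positivity, fun thr i σ hn hσ x => ?_⟩
  obtain ⟨cl, hcl⟩ : ∃ cl : Sched.Idx → Sched.Idx, cl = fun j => (min j.1 i.lev, j.2) :=
    ⟨_, rfl⟩
  have e : c.at' i (i.put σ) = c.Φ.H c.R.spin.loop n i.lam (i.M ∘ cl) (i.ε ∘ cl) (i.put σ) := by
    rw [at', fam, hn]
    show WKB.approx c.R.spin.loop (c.Φ.data i.M i.ε (i.put σ)) n i.lam =
      WKB.approx c.R.spin.loop (c.Φ.data (i.M ∘ cl) (i.ε ∘ cl) (i.put σ)) n i.lam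
    congr 1
    funext k q
    simp only [WKB.FreeData.data]
    refine if_congr Iff.rfl (Finset.sum_congr rfl fun j _ => ?_) rfl
    rcases le_or_gt j.1 i.lev with h | h
    · simp [hcl, min_eq_left h]
    · simp [Sched.State.put, h.ne', i.prev_zero j h.le]
  rw [e]
  refine (hC _ _ _ i.lam (fun j => i.one_le_M _) (fun j => i.ε_nonneg _) (fun j => i.ε_mul _)
    ((norm_param hσ (by norm_num)).trans (by norm_num)) i.one_le x).trans ?_
  rw [mul_assoc]
  refine mul_le_mul_of_nonneg_left ?_ hC0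
  obtain ⟨B, hB⟩ : ∃ B, B = Sched.bigs i.N i.lam i.lev := ⟨_, rfl⟩
  rw [← hB]
  have hB1 : 1 ≤ B := hB ▸ Sched.one_le_bigs i.one_le
  rw [add_mul, one_mul]
  refine add_le_add ((pow_le_pow_left₀ (zero_le_one.trans i.one_le)
    (hB ▸ Sched.lam_le_bigs i.one_le) a).trans (pow_le_pow_right₀ hB1 (Nat.le_add_right _ _))) ?_
  refine (Finset.sum_le_card_nsmul _ _ (B ^ (a + Sched.ampExp a)) fun j _ => ?_).trans_eq
    (by rw [nsmul_eq_mul, Finset.card_univ])
  obtain ⟨t, ht⟩ : ∃ t : Fin 13, t = min j.1 i.lev := ⟨_, rfl⟩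
  have hM : i.M (cl j) = Sched.mult i.N i.lam t := by simp [hcl, ht, Sched.State.M]
  have hε : i.ε (cl j) = Sched.eps i.N i.lam t := by simp [hcl, ht, Sched.State.ε]
  show i.ε (cl j) / (i.M (cl j) : ℝ) * ((i.M (cl j) : ℝ) * i.lam) ^ a * (i.lam⁻¹) ^ c.Φ.k0 ≤ _
  rw [hM, hε, mul_right_comm, c.k0_eq, Sched.eps_div i.one_le]
  show Sched.amp i.N i.lam t * Sched.freq i.N i.lam t ^ a ≤ _
  rcases (ht ▸ min_le_right j.1 i.lev : t ≤ i.lev).eq_or_lt with h | h
  · rw [h, hB]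
    exact (Sched.amp_freq_le i.two_le (by omega) a).trans
      (pow_le_pow_right₀ (Sched.one_le_bigs i.one_le) (Nat.le_add_left _ _))
  · refine (mul_le_of_le_one_left (pow_nonneg (zero_le_one.trans (Sched.one_le_freq i.one_le)) a)
      (Sched.amp_le_one i.one_le)).trans ?_
    exact (pow_le_pow_left₀ (zero_le_one.trans (Sched.one_le_freq i.one_le))
      (hB ▸ Sched.freq_le_bigs_of_lt i.one_le h) a).trans
        (pow_le_pow_right₀ hB1 (Nat.le_add_right _ _))

variable (hNsq : closure N ⊆ sq) (hdet : ∀ p ∈ closure N, detg f p ≠ 0)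
  (hW : ∀ p ∈ closure N, Wsq (fun _ => 1) f p ≠ 0) (hf : ContDiff ℝ ∞ f)

include hdet hW hNsq hf in
/-- Uniform nondegeneracy at a fixed truncation. -/
theorem nondeg' (n : ℕ) : ∃ e > 0, ∀ (thr : ℕ → ℕ → ℝ) (i : Sched.State thr)
    (τ : Sched.Idx → ℝ), i.n = n → ‖τ‖ ≤ 8 → e⁻¹ ≤ i.lam → ∀ p ∈ c.V,
      e ≤ detg (c.at' i τ) p ∧ e ≤ Wsq (fun _ => 1) (c.at' i τ) p := by
  have hVN : ∀ p ∈ c.V, p ∈ closure N := fun p hp => subset_closure (c.V_sub hp)
  have hind : ∀ p ∈ closure N, LinearIndependent ℝ ![dx f p, dy f p, F22 f p] := fun p hp =>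
    WKB.indep_of_nondeg (hdet p hp) (hW p hp)
  obtain ⟨e1, he1, hn1⟩ := c.Φ.nondeg (L := c.R.spin.loop) c.loop_twist n c.cK₀ fun p hp => by
    have hV : p ∈ c.V := c.Kc_sub (interior_subset (c.K₀_sub hp))
    obtain ⟨g1, g2, g3⟩ := jets_congr (c.f_eq p hV)
    show LinearIndependent ℝ ![dx c.R.D.f p, dy c.R.D.f p, F22 c.R.D.f p]
    rw [g1, g2, g3]
    exact hind p (hVN p hV)
  obtain ⟨e2, he2, hn2⟩ : ∃ e2 > 0, ∀ p ∈ closure N,
      e2 ≤ detg f p ∧ e2 ≤ Wsq (fun _ => 1) f p := by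
    rcases eq_empty_or_nonempty (closure N) with h | h
    · exact ⟨1, one_pos, fun p hp => absurd hp (by simp [h])⟩
    have hb : Bornology.IsBounded (sq : Set R2) :=
      ((isBounded_Ioo (0 : ℝ) 1).prod (isBounded_Ioo (0 : ℝ) 1))
    have hco : IsCompact (closure N) := isCompact_of_isClosed_isBounded isClosed_closure
      (hb.subset hNsq)
    obtain ⟨J, hJ⟩ : ∃ J : R2 → V4 × V4 × V4, J = fun p => (dx f p, dy f p, F22 f p) :=
      ⟨_, rfl⟩
    have hd : ∀ v : R2, ∀ {u : R2 → V4}, ContDiff ℝ ∞ u → ContDiff ℝ ∞ fun p => fderiv ℝ u p v :=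
      fun v u hu => (hu.fderiv_right (m := ∞) le_rfl).clm_apply contDiff_const
    have hJc : Continuous J := hJ ▸ ((hd (1, 0) hf).continuous.prodMk
      ((hd (0, 1) hf).continuous.prodMk (hd (0, 1) (hd (0, 1) hf)).continuous))
    have hpos : ∀ p ∈ closure N, 0 < WKB.gramJ (J p) ∧ 0 < WKB.normJ (J p) := fun p hp => by
      rw [hJ]; exact WKB.pos_of_indep (hind p hp)
    obtain ⟨p0, hp0, hm⟩ := hco.exists_isMinOn h
      (f := fun p => min (WKB.gramJ (J p)) (WKB.normJ (J p))) fun p hp =>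
      ContinuousAt.continuousWithinAt (Filter.Tendsto.min
        ((WKB.contDiffAt_jets (hpos p hp).1.ne').1.comp hJc.continuousAt)
        ((WKB.contDiffAt_jets (hpos p hp).1.ne').2.comp hJc.continuousAt))
    refine ⟨_, lt_min (hpos p0 hp0).1 (hpos p0 hp0).2, fun p hp => ?_⟩
    have := hm hp
    rw [WKB.detg_eq_gramJ, WKB.Wsq_eq_normJ]
    subst hJ
    exact ⟨le_trans this (min_le_left _ _), le_trans this (min_le_right _ _)⟩
  obtain ⟨K, hK⟩ : ∃ K : ℝ, K = 1 + Fintype.card Sched.Idx := ⟨_, rfl⟩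
  have hK0 : 1 ≤ K := by rw [hK]; linarith [Nat.cast_nonneg (α := ℝ) (Fintype.card Sched.Idx)]
  refine ⟨min (e1 / K) e2, lt_min (by positivity) he2, fun thr i τ hn hτ hlam p hp => ?_⟩
  have hl : 0 < i.lam := by linarith [i.two_le]
  by_cases hpK : p ∈ c.R.D.K
  · have hp0 : p ∈ c.K₀ := (c.mem_K (c.sub_sq (c.V_sub hp))).1 hpK
    have hεl : ∀ j, i.ε j ≤ i.lam⁻¹ := fun j => by
      have h3 := Sched.amp_mul_le (N := i.N) (s := (j.1 : ℕ)) (a := 3) i.one_le (by omega)
      have hm := Sched.mult_pos (N := i.N) (s := (j.1 : ℕ)) i.one_le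
      have hm1 : (1 : ℝ) ≤ Sched.mult i.N i.lam j.1 := by
        exact_mod_cast Sched.one_le_mult i.one_le
      rw [Sched.State.ε, Sched.eps, inv_eq_one_div, le_div_iff₀ hl]
      refine le_trans ?_ h3
      rw [Sched.freq, show (Sched.mult i.N i.lam j.1 : ℝ) * i.lam ^ 2 * Sched.amp i.N i.lam j.1 *
        i.lam = Sched.amp i.N i.lam j.1 * ((Sched.mult i.N i.lam j.1 : ℝ) * i.lam ^ 3) by ring,
        mul_pow]
      exact mul_le_mul_of_nonneg_left (mul_le_mul_of_nonneg_right (le_self_pow₀ hm1 (by norm_num))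
        (by positivity)) (Sched.amp_pos i.one_le).le
    have hsum : i.lam⁻¹ + ∑ j, i.ε j ≤ e1 := by
      have h1 : ∑ j, i.ε j ≤ Fintype.card Sched.Idx * i.lam⁻¹ :=
        (Finset.sum_le_card_nsmul _ _ _ fun j _ => hεl j).trans_eq
          (by rw [nsmul_eq_mul, Finset.card_univ])
      have h2 : i.lam⁻¹ ≤ e1 / K :=
        (inv_le_comm₀ (lt_min (by positivity) he2) hl).1 hlam |>.trans (min_le_left _ _)
      rw [le_div_iff₀ (by linarith), hK] at h2
      linarith
    obtain ⟨g1, g2⟩ := hn1 i.M i.ε τ i.lam i.one_le_M i.ε_nonneg i.ε_mul hτ i.one_le hsum p hp0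
    have hle : min (e1 / K) e2 ≤ e1 := (min_le_left _ _).trans (div_le_self he1.le hK0)
    rw [at', fam, hn]
    exact ⟨hle.trans g1, hle.trans g2⟩
  · have hg : c.at' i τ =ᶠ[𝓝 p] f := by
      refine EventuallyEq.trans ?_ (c.f_eq p hp)
      filter_upwards [c.R.D.K_closed.isOpen_compl.mem_nhds hpK] with z hz
      exact WKB.approx_off (c.Φ.input i.M i.ε τ) i.n i.lam hz
    obtain ⟨g1, g2, g3⟩ := jets_congr hg
    obtain ⟨q1, q2⟩ := hn2 p (hVN p hp)
    rw [WKB.detg_eq_gramJ, WKB.Wsq_eq_normJ, g1, g2, g3, ← WKB.detg_eq_gramJ, ← WKB.Wsq_eq_normJ]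
    exact ⟨(min_le_right _ _).trans q1, (min_le_right _ _).trans q2⟩

include hdet hW hNsq hf in
/-- **Response, regularity and thickness of the family of round two.** -/
theorem exists_resp (hKg : IsCompact Kg) : ∃ T : ℕ → ℝ, ∀ thr : ℕ → ℕ → ℝ,
    (∀ N n, T n ≤ thr N n) →
      Generic.Resp (c.pert thr).vscale (c.pert thr).var ∧ (c.pert thr).Regular ∧
      ∀ G : Sched.State thr → Set R2, (∀ i, G i ⊆ Kg) → ∃ L, (c.pert thr).Thick G L := by
  choose Cb _ hCb using c.base_bound'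
  choose Cv hCv0 hCv using c.Φ.var_bound (L := c.R.spin.loop)
  choose Cm hCm0 hCm using fun n a b =>
    c.Φ.met_var_bound (L := c.R.spin.loop) n a b c.loop_twist c.exact
  choose e he0 he using c.nondeg' hNsq hdet hW hf
  obtain ⟨Tb, hTb0, hTb⟩ := absorb Cb
  obtain ⟨Tv, hTv0, hTv⟩ := absorb fun n a b => Cv n a b * Fintype.card Sched.Idx
  obtain ⟨Tm, hTm0, hTm⟩ := absorb fun n a b => Cm n a b * Fintype.card Sched.Idx
  refine ⟨fun n => Tb n + Tv n + Tm n + (e n)⁻¹, fun thr hT => ?_⟩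
  have hlam : ∀ i : Sched.State thr, Tb i.n ≤ Sched.bigs i.N i.lam i.lev ∧
      Tv i.n ≤ Sched.bigs i.N i.lam i.lev ∧ Tm i.n ≤ Sched.bigs i.N i.lam i.lev ∧
      (e i.n)⁻¹ ≤ i.lam := fun i => by
    have h := (hT i.N i.n).trans i.lam_ge
    have := Sched.lam_le_bigs (N := i.N) (s := (i.lev : ℕ)) i.one_le
    have := inv_nonneg.2 (he0 i.n).le
    have := hTb0 i.n; have := hTv0 i.n; have := hTm0 i.n
    refine ⟨?_, ?_, ?_, ?_⟩ <;> linarith
  have hbig2 : ∀ i : Sched.State thr, 2 ≤ Sched.bigs i.N i.lam i.lev :=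
    fun i => i.two_le.trans (Sched.lam_le_bigs i.one_le)
  have hτn : ∀ j : Generic.Dir (Sched.State thr) Sched.dimP,
      ‖j.1.put j.2.1‖ ≤ 3 ∧ ‖j.1.dir j.2.2‖ ≤ 1 := fun j =>
    ⟨norm_param (mem_closedBall_zero_iff.1 j.2.1.2) (by norm_num),
      (j.1.norm_dir_le _).trans (mem_closedBall_zero_iff.1 j.2.2.2)⟩
  have hfreq : ∀ i : Sched.State thr, 0 ≤ Sched.freq i.N i.lam i.lev := fun i =>
    zero_le_one.trans (Sched.one_le_freq i.one_le)
  -- smoothness
  have hsm : ∀ j, ContDiff ℝ ∞ ((c.pert thr).var j) := fun j => by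
    rw [c.var_eq]
    exact (WKB.FreeData.line_deriv (G := c.at' j.1) (c.contDiff_at' j.1) _ _).1
  have hv1 : ∀ {V : Type} [NormedAddCommGroup V] [NormedSpace ℝ V] {g : Generic.Ext → V},
      ContDiff ℝ ∞ g → ContDiff ℝ ∞ fun x : R2 => fderiv ℝ g (0, x) (1, 0) := fun hg =>
    ((hg.fderiv_right (m := ∞) le_rfl).comp (contDiff_const.prodMk contDiff_id)).clm_apply
      contDiff_const
  -- nondegeneracy
  have hnd : ∀ (i : Sched.State thr) (τ : Sched.Idx → ℝ), ‖τ‖ ≤ 8 → ∀ p ∈ c.V,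
      e i.n ≤ detg (c.at' i τ) p ∧ e i.n ≤ Wsq Generic.one (c.at' i τ) p := fun i τ hτ =>
    he i.n thr i τ rfl hτ (hlam i).2.2.2
  have hwin : ∀ (j : Generic.Dir (Sched.State thr) Sched.dimP) (q : Generic.Ext),
      q ∈ (c.pert thr).vscale.win j →
      ‖j.1.put j.2.1 + q.1 • j.1.dir j.2.2‖ ≤ 8 ∧ q.2 ∈ c.V := fun j q hq => by
    obtain ⟨h1, h2⟩ := hτn j
    have hs : |q.1| < 1 := by simpa using hq.1
    refine ⟨(norm_add_le _ _).trans ?_, hq.2⟩
    rw [norm_smul, Real.norm_eq_abs]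
    nlinarith [abs_nonneg q.1, norm_nonneg (j.1.dir j.2.2)]
  have hslice : ∀ (j : Generic.Dir (Sched.State thr) Sched.dimP) (s : ℝ),
      Generic.slice (c.pert thr).var j s = c.at' j.1 (j.1.put j.2.1 + s • j.1.dir j.2.2) :=
    fun j s => funext fun x => by rw [Generic.slice, c.var_eq]
  -- the change of the metric
  have hmet : ∀ L : WKB.Sym3 →L[ℝ] ℝ, ‖L‖ ≤ 1 → Generic.Tiny (c.pert thr).vscale
      (Generic.var1 fun j q =>
        L (WKB.met (c.at' j.1 (j.1.put j.2.1 + q.1 • j.1.dir j.2.2)) q.2)) := by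
    intro L hL
    have h := fun j : Generic.Dir (Sched.State thr) Sched.dimP => WKB.FreeData.line_deriv
      (G := fun σ => WKB.met (c.at' j.1 σ))
      (c.Φ.contDiff_met_H (L := c.R.spin.loop) j.1.n j.1.lam j.1.one_le_M j.1.ε)
      (j.1.put j.2.1) (j.1.dir j.2.2)
    refine ⟨fun j => (hv1 (L.contDiff.comp (h j).1)).contDiffOn, fun a b => ?_⟩
    obtain ⟨C, hC⟩ := hTm a b
    refine ⟨C, fun j x _ => ?_⟩
    obtain ⟨h1, h2⟩ := hτn j
    obtain ⟨g, hg⟩ : ∃ g : Generic.Ext → WKB.Sym3, g = fun q =>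
        WKB.met (c.at' j.1 (j.1.put j.2.1 + q.1 • j.1.dir j.2.2)) q.2 := ⟨_, rfl⟩
    have hgs : ContDiff ℝ ∞ g := hg ▸ (h j).1
    have e1 : Generic.var1 (fun (j : Generic.Dir (Sched.State thr) Sched.dimP) q =>
        L (WKB.met (c.at' j.1 (j.1.put j.2.1 + q.1 • j.1.dir j.2.2)) q.2)) j =
        fun x => L (fderiv ℝ g (0, x) (1, 0)) := funext fun x => by
      rw [Generic.var1, show (fun q : Generic.Ext => L (WKB.met
        (c.at' j.1 (j.1.put j.2.1 + q.1 • j.1.dir j.2.2)) q.2)) = fun q => L (g q) by rw [hg],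
        (show HasFDerivAt (fun q => L (g q)) (L.comp (fderiv ℝ g (0, x))) ((0 : ℝ), x) from
          L.hasFDerivAt.comp ((0 : ℝ), x) (hgs.differentiable (by simp) (0, x)).hasFDerivAt).fderiv]
      rfl
    rw [e1, pd_clm L (hv1 hgs)]
    refine ((L.le_opNorm _).trans (mul_le_of_le_one_left (norm_nonneg _) hL)).trans ?_
    rw [hg, funext (fun x => (h j).2 x)]
    refine (hCm j.1.n a b j.1.M j.1.ε (j.1.put j.2.1) (j.1.dir j.2.2)
      (Sched.mult j.1.N j.1.lam j.1.lev) j.1.lam j.1.one_le_M j.1.ε_nonneg j.1.ε_mul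
      (h1.trans (by norm_num)) h2 (Sched.one_le_mult j.1.one_le) (j.1.active _ _) j.1.one_le
      x).trans ?_
    obtain ⟨i, τ, w⟩ := j
    show _ ≤ Sched.bigs i.N i.lam i.lev ^ C * (Sched.amp i.N i.lam i.lev *
      (Sched.freq i.N i.lam i.lev ^ 2)⁻¹) * Sched.freq i.N i.lam i.lev ^ a
    have hM0 : (0 : ℝ) ≤ Sched.mult i.N i.lam i.lev := Nat.cast_nonneg _
    have hl : (0 : ℝ) < i.lam := by linarith [i.two_le]
    have hd := dir_sum_le i (mem_closedBall_zero_iff.1 w.2)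
    have ht := Sched.tiny_le (N := i.N) (s := (i.lev : ℕ)) i.two_le (by omega) i.n_ge
    have hC0 := hCm0 i.n a b
    have hb0 : 0 ≤ Sched.bigs i.N i.lam i.lev := zero_le_two.trans (hbig2 i)
    have hA := Sched.amp_pos (N := i.N) (s := (i.lev : ℕ)) i.one_le
    have hF := hfreq i
    have hF1 := Sched.one_le_freq (N := i.N) (s := (i.lev : ℕ)) i.one_le
    have hεM : Sched.eps i.N i.lam i.lev / Sched.mult i.N i.lam i.lev *
        Sched.mult i.N i.lam i.lev * (i.lam⁻¹) ^ (i.n + 1) ≤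
        Sched.amp i.N i.lam i.lev * (Sched.freq i.N i.lam i.lev ^ 2)⁻¹ := by
      rw [Sched.eps, mul_comm (_ * _) (Sched.amp i.N i.lam i.lev), div_mul_cancel₀ _
        (Sched.mult_pos i.one_le).ne', mul_assoc]
      refine mul_le_mul_of_nonneg_left ?_ hA.le
      rw [inv_eq_one_div (Sched.freq i.N i.lam i.lev ^ 2), le_div_iff₀ (by positivity)]
      exact (le_of_eq (by ring)).trans ht
    calc Cm i.n a b * ((∑ j, i.ε j / i.M j * |i.dir w j|) * Sched.mult i.N i.lam i.lev) *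
          (Sched.mult i.N i.lam i.lev * i.lam) ^ a * (i.lam⁻¹) ^ (i.n + 1)
        ≤ Cm i.n a b * (Fintype.card Sched.Idx * (Sched.eps i.N i.lam i.lev /
          Sched.mult i.N i.lam i.lev) * Sched.mult i.N i.lam i.lev) *
          Sched.freq i.N i.lam i.lev ^ a * (i.lam⁻¹) ^ (i.n + 1) := by
          rw [Sched.freq]
          gcongr
      _ = Cm i.n a b * Fintype.card Sched.Idx * (Sched.eps i.N i.lam i.lev /
          Sched.mult i.N i.lam i.lev * Sched.mult i.N i.lam i.lev * (i.lam⁻¹) ^ (i.n + 1)) *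
          Sched.freq i.N i.lam i.lev ^ a := by ring
      _ ≤ _ := by
          refine mul_le_mul_of_nonneg_right (mul_le_mul (hC i.n _ (hlam i).2.2.1 (hbig2 i)) hεM
            (mul_nonneg (mul_nonneg (div_nonneg (Sched.eps_nonneg i.one_le) hM0) hM0)
              (by positivity)) (by positivity)) (pow_nonneg hF a)
  have hlXY : ∀ (j : Generic.Dir (Sched.State thr) Sched.dimP) (q : Generic.Ext),
      Generic.lX (c.pert thr).var j q =
        dx (c.at' j.1 (j.1.put j.2.1 + q.1 • j.1.dir j.2.2)) q.2 ∧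
      Generic.lY (c.pert thr).var j q =
        dy (c.at' j.1 (j.1.put j.2.1 + q.1 • j.1.dir j.2.2)) q.2 := fun j q =>
    ⟨c.lXY_eq j q (1, 0), c.lXY_eq j q (0, 1)⟩
  refine ⟨{
    sm := fun j => (hsm j).contDiffOn
    base := ⟨fun j => ?_, fun a b => ?_⟩
    detg_ne := fun j q hq => ?_
    W_ne := fun j q hq => ?_
    low := ⟨1, fun j p hp => ?_⟩
    var := ⟨fun j => (hv1 (hsm j)).contDiffOn, fun a b => ?_⟩
    m11 := ?_, m12 := ?_, m22 := ?_ }, fun i => ⟨?_, fun τ hτ x hx => ?_⟩, fun G hG => ?_⟩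
  · rw [c.base0_eq]
    exact (c.contDiff_slice' _ _).contDiffOn
  · obtain ⟨C, hC⟩ := hTb a b
    refine ⟨C + (a + Sched.ampExp a), fun j x _ => ?_⟩
    rw [c.base0_eq]
    refine (hCb j.1.n a b thr j.1 j.2.1 rfl
      ((mem_closedBall_zero_iff.1 j.2.1.2).trans (by norm_num)) x).trans ?_
    show _ ≤ Sched.bigs j.1.N j.1.lam j.1.lev ^ (C + (a + Sched.ampExp a)) * 1 * 1 ^ a
    rw [mul_one, one_pow, mul_one, pow_add _ C]
    exact mul_le_mul_of_nonneg_right (hC _ _ (hlam j.1).1 (hbig2 j.1))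
      (by have := hbig2 j.1; positivity)
  · obtain ⟨h1, h2⟩ := hwin j q hq
    rw [Generic.lf, hslice]
    exact ((he0 _).trans_le (hnd j.1 _ h1 _ h2).1).ne'
  · obtain ⟨h1, h2⟩ := hwin j q hq
    rw [Generic.lf, hslice]
    exact ((he0 _).trans_le (hnd j.1 _ h1 _ h2).2).ne'
  · rw [hslice, zero_smul, add_zero]
    obtain ⟨g1, g2⟩ := hnd j.1 _ ((hτn j).1.trans (by norm_num)) p hp
    have h1 : 1 ≤ Sched.bigs j.1.N j.1.lam j.1.lev * e j.1.n := by
      rw [← inv_le_iff_one_le_mul₀ (he0 _)]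
      exact (hlam j.1).2.2.2.trans (Sched.lam_le_bigs j.1.one_le)
    have hb := zero_le_one.trans (Sched.one_le_bigs (N := j.1.N) (s := (j.1.lev : ℕ)) j.1.one_le)
    show 1 ≤ Sched.bigs j.1.N j.1.lam j.1.lev ^ 1 * _ ∧ 1 ≤ Sched.bigs j.1.N j.1.lam j.1.lev ^ 1 * _
    rw [pow_one]
    exact ⟨h1.trans (mul_le_mul_of_nonneg_left (g1.trans (le_abs_self _)) hb),
      h1.trans (mul_le_mul_of_nonneg_left (g2.trans (le_abs_self _)) hb)⟩
  · obtain ⟨C, hC⟩ := hTv a b
    refine ⟨C, fun j x _ => ?_⟩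
    rw [funext (c.var1_eq j)]
    obtain ⟨h1, h2⟩ := hτn j
    refine (hCv j.1.n a b j.1.M j.1.ε (j.1.put j.2.1) (j.1.dir j.2.2)
      (Sched.mult j.1.N j.1.lam j.1.lev) j.1.lam j.1.one_le_M j.1.ε_nonneg j.1.ε_mul
      (h1.trans (by norm_num)) h2 (Sched.one_le_mult j.1.one_le) (j.1.active _ _) j.1.one_le
      x).trans ?_
    obtain ⟨i, τ, w⟩ := j
    show _ ≤ Sched.bigs i.N i.lam i.lev ^ C * (Sched.amp i.N i.lam i.lev *
      Sched.freq i.N i.lam i.lev ^ 0) * Sched.freq i.N i.lam i.lev ^ a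
    have hd := dir_sum_le i (mem_closedBall_zero_iff.1 w.2)
    have hA := Sched.amp_pos (N := i.N) (s := (i.lev : ℕ)) i.one_le
    have hF := hfreq i
    have hl : (0 : ℝ) < i.lam := by linarith [i.two_le]
    have hC0 := hCv0 i.n a b
    calc Cv i.n a b * (∑ j, i.ε j / i.M j * |i.dir w j|) *
          (Sched.mult i.N i.lam i.lev * i.lam) ^ a * (i.lam⁻¹) ^ c.Φ.k0
        ≤ Cv i.n a b * (Fintype.card Sched.Idx * (Sched.eps i.N i.lam i.lev /
          Sched.mult i.N i.lam i.lev)) * Sched.freq i.N i.lam i.lev ^ a * (i.lam⁻¹) ^ 2 := by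
          rw [Sched.freq, c.k0_eq]
          gcongr
      _ = Cv i.n a b * Fintype.card Sched.Idx * (Sched.eps i.N i.lam i.lev /
          Sched.mult i.N i.lam i.lev * (i.lam⁻¹) ^ 2) * Sched.freq i.N i.lam i.lev ^ a := by ring
      _ ≤ _ := by
          rw [Sched.eps_div i.one_le, pow_zero, mul_one]
          exact mul_le_mul_of_nonneg_right (mul_le_mul_of_nonneg_right
            (hC i.n _ (hlam i).2.1 (hbig2 i)) hA.le) (pow_nonneg hF a)
  · convert hmet (ContinuousLinearMap.fst ℝ ℝ (ℝ × ℝ)) (ContinuousLinearMap.norm_fst_le ℝ ℝ _)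
      using 2
    funext j q
    rw [(hlXY j q).1]
    rfl
  · convert hmet ((ContinuousLinearMap.fst ℝ ℝ ℝ).comp (ContinuousLinearMap.snd ℝ ℝ (ℝ × ℝ)))
      ((ContinuousLinearMap.opNorm_comp_le _ _).trans (mul_le_one₀
        (ContinuousLinearMap.norm_fst_le ℝ ℝ _) (norm_nonneg _)
        (ContinuousLinearMap.norm_snd_le ℝ ℝ _))) using 2
    funext j q
    rw [(hlXY j q).1, (hlXY j q).2]
    rfl
  · convert hmet ((ContinuousLinearMap.snd ℝ ℝ ℝ).comp (ContinuousLinearMap.snd ℝ ℝ (ℝ × ℝ)))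
      ((ContinuousLinearMap.opNorm_comp_le _ _).trans (mul_le_one₀
        (ContinuousLinearMap.norm_snd_le ℝ ℝ _) (norm_nonneg _)
        (ContinuousLinearMap.norm_snd_le ℝ ℝ _))) using 2
    funext j q
    rw [(hlXY j q).2]
    rfl
  · have hp : ContDiff ℝ ∞ fun σ : Fin Sched.dimP → ℝ => i.put σ := contDiff_pi.2 fun j => by
      by_cases h : j.1 = i.lev
      · simp only [Sched.State.put, h, if_true]
        exact contDiff_apply ℝ ℝ _
      · simp only [Sched.State.put, h, if_false]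
        exact contDiff_const
    exact ((c.contDiff_at' i).comp ((hp.comp contDiff_fst).prodMk contDiff_snd)).contDiffOn
  · obtain ⟨g1, g2⟩ := hnd i (i.put τ) ((norm_param hτ.le (by norm_num)).trans (by norm_num)) x hx
    exact ⟨((he0 _).trans_le g1).ne', ((he0 _).trans_le g2).ne'⟩
  · have hsub : Kg ⊆ c.V := fun p hp =>
      c.Kc_sub (interior_subset (c.K₀_sub (interior_subset (c.sub_K₀ hp))))
    obtain ⟨δ, hδ, hδV⟩ := hKg.exists_cthickening_subset_open c.V_open hsub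
    obtain ⟨R, hR⟩ := hKg.exists_bound_of_continuousOn (f := id) continuousOn_id
    obtain ⟨L, hL⟩ := pow_unbounded_of_one_lt (max R δ⁻¹) (one_lt_two (α := ℝ))
    refine ⟨L, fun i x hx => ⟨?_, fun y hy => hδV ?_⟩⟩
    · exact (hR x (hG i hx)).trans (((le_max_left _ _).trans hL.le).trans
        (pow_le_pow_left₀ zero_le_two (hbig2 i) L))
    · refine mem_cthickening_of_dist_le y x δ Kg (hG i hx) ((mem_closedBall.1 hy).trans ?_)
      refine inv_le_of_inv_le₀ hδ (((le_max_right _ _).trans hL.le).trans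
        (pow_le_pow_left₀ zero_le_two (hbig2 i) L))

end RoundCell

end

end Vale.Agent.P205.Bridge
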