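import Vale.Agent.P205.Full.Bridge.ApproxProof
import Vale.Agent.P205.Full.Bridge.RoundResp
import Vale.Agent.P205.Full.Bridge.RoundPresc
import Vale.Agent.P205.Full.Bridge.Assembly

/-!
# P205: round two is proved

The approximants of round two exist in every cell, hence the exact step holds.
-/

namespace Vale.Agent.P205.Bridge

noncomputable section

/-- The approximants of round two exist. -/
theorem approxStatement : ApproxStatement :=
  approxStatement_of fun _ _ _ _ _ _ _ hNsq _ hKg _ _ _ _ _ _ hf hdet hW _ c =>
    ⟨c.exists_resp hNsq hdet hW hf hKg, c.presc⟩

/-- The exact step of round two. -/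
theorem exactStatement : Full.ExactStatement :=
  exactStatement_of_approximants approxStatement

end

end Vale.Agent.P205.Bridge
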