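import Vale.Agent.P205.Full.Bridge.RoundCriterion
import Vale.Agent.P205.Full.Bridge.ApproxBounds

/-!
# P205: the approximants of round two

Above a threshold in `lam` the frequencies and amplitudes are those of the schedule and the
parameters those found by the climb; below it the free data vanish.
-/

namespace Vale.Agent.P205.Bridge

open scoped ContDiff Topology
open Set Filter
open Vale.Agent.P205.Algebra
open Vale.Agent.P205.Generic (one)

noncomputable section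

/-- The frequencies of round two, trivial below scale two. -/
def freqOf (K : ℕ) (lam : ℝ) (j : Sched.Idx) : ℕ := if 2 ≤ lam then Sched.mult K lam j.1 else 1

/-- The amplitudes of round two, zero below scale two. -/
def ampOf (K : ℕ) (lam : ℝ) (j : Sched.Idx) : ℝ := if 2 ≤ lam then Sched.eps K lam j.1 else 0

lemma one_le_freqOf (K : ℕ) (lam : ℝ) (j : Sched.Idx) : 1 ≤ freqOf K lam j := by
  unfold freqOf
  split_ifs with h
  exacts [Sched.one_le_mult (by linarith), le_rfl]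

lemma ampOf_nonneg (K : ℕ) (lam : ℝ) (j : Sched.Idx) : 0 ≤ ampOf K lam j := by
  unfold ampOf
  split_ifs with h
  exacts [Sched.eps_nonneg (by linarith), le_rfl]

lemma ampOf_mul (K : ℕ) (lam : ℝ) (j : Sched.Idx) : ampOf K lam j * freqOf K lam j ≤ 1 := by
  unfold ampOf freqOf
  split_ifs with h
  · exact Sched.eps_mul_le (by linarith)
  · simp

lemma freqOf_le (K : ℕ) (lam : ℝ) (j : Sched.Idx) :
    (freqOf K lam j : ℝ) ≤ max lam 1 ^ Sched.freqExp K := by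
  unfold freqOf
  split_ifs with h
  · rw [max_eq_left (by linarith)]
    exact (Sched.mult_le_freq (by linarith)).trans (Sched.freq_le_pow h (by omega))
  · simpa using one_le_pow₀ (le_max_right lam 1)

lemma ampOf_small (K : ℕ) :
    ∀ᶠ lam : ℝ in atTop, ∀ j, ampOf K lam j * ((freqOf K lam j : ℝ) * lam) ^ 10 ≤ lam⁻¹ := by
  filter_upwards [eventually_ge_atTop (2 : ℝ)] with lam h j
  have h1 : 1 ≤ lam := by linarith
  simp only [ampOf, freqOf, if_pos h]
  rw [← one_div, le_div_iff₀ (by linarith)]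
  calc Sched.eps K lam j.1 * ((Sched.mult K lam j.1 : ℝ) * lam) ^ 10 * lam
      ≤ Sched.eps K lam j.1 * ((Sched.mult K lam j.1 : ℝ) * lam) ^ 10 *
          (Sched.mult K lam j.1 : ℝ) ^ 2 * lam := by
        refine mul_le_mul_of_nonneg_right (le_mul_of_one_le_right ?_
          (one_le_pow₀ (by exact_mod_cast Sched.one_le_mult h1))) (by linarith)
        exact mul_nonneg (Sched.eps_nonneg h1) (by positivity)
    _ = Sched.amp K lam j.1 * Sched.freq K lam j.1 ^ 13 := by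
        rw [Sched.eps, Sched.freq]; ring
    _ ≤ 1 := Sched.amp_mul_le h1 (by omega)

variable {N Kg Kc : Set R2} {a : R2 → ℝ} {f : R2 → V4}

/-- Parameters for every order and scale. -/
theorem RoundCell.exists_schedule (c : RoundCell N Kg Kc a f 2 13)
    (h : ∃ (K q : ℕ) (T : ℕ → ℝ), ∀ n, Sched.minOrder K ≤ n → ∀ lam, 2 ≤ lam → T n ≤ lam →
      ∃ τ : Sched.Idx → ℝ, ‖τ‖ ≤ 1 ∧ ∀ x ∈ Kg, (lam ^ q)⁻¹ ≤ criterion one
        (c.fam n lam (fun j => Sched.mult K lam j.1) (fun j => Sched.eps K lam j.1) τ) x) :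
    ∃ (K q : ℕ) (τ : ℕ → ℝ → Sched.Idx → ℝ), (∀ n lam, ‖τ n lam‖ ≤ 8) ∧
      ∀ q', q ≤ q' → ∀ n, ∀ᶠ lam : ℝ in atTop, ∀ x ∈ Kg,
        (lam ^ q')⁻¹ ≤ criterion (fun _ => 1) (c.glue (c.Φ.H c.R.spin.loop
          (max n (Sched.minOrder K)) (max lam 1) (freqOf K lam) (ampOf K lam) (τ n lam))) x := by
  classical
  obtain ⟨K, q, T, h⟩ := h
  refine ⟨K, q, fun n lam => if hl : 2 ≤ lam ∧ T (max n (Sched.minOrder K)) ≤ lam then
    Classical.choose (h _ (le_max_right n (Sched.minOrder K)) lam hl.1 hl.2) else 0,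
    fun n lam => ?_, fun q' hq n => ?_⟩
  · dsimp only
    split_ifs with hl
    · exact (Classical.choose_spec (h _ (le_max_right n (Sched.minOrder K)) lam hl.1 hl.2)).1.trans
        (by norm_num)
    · simp
  filter_upwards [eventually_ge_atTop (max 2 (T (max n (Sched.minOrder K))))] with lam hlam x hx
  have hl : 2 ≤ lam ∧ T (max n (Sched.minOrder K)) ≤ lam :=
    ⟨(le_max_left _ _).trans hlam, (le_max_right _ _).trans hlam⟩
  have hs := (Classical.choose_spec (h _ (le_max_right n (Sched.minOrder K)) lam hl.1 hl.2)).2 x hx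
  have h1 : 1 ≤ lam := by linarith [hl.1]
  simp only [dif_pos hl, max_eq_left h1,
    show freqOf K lam = fun j => Sched.mult K lam j.1 from funext fun j => if_pos hl.1,
    show ampOf K lam = fun j => Sched.eps K lam j.1 from funext fun j => if_pos hl.1]
  refine le_trans (inv_anti₀ (pow_pos (by linarith) _) (pow_le_pow_right₀ h1 hq)) (hs.trans (le_of_eq ?_))
  have hV : x ∈ c.V := c.Kc_sub (interior_subset (c.K₀_sub (interior_subset (c.sub_K₀ hx))))
  set τ := Classical.choose (h _ (le_max_right n (Sched.minOrder K)) lam hl.1 hl.2)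
  have e := (criterion_congr (c := (0 : R2)) (η := fun _ => 1) (η' := one)
    (F' := c.fam (max n (Sched.minOrder K)) lam (fun j => Sched.mult K lam j.1)
      (fun j => Sched.eps K lam j.1) τ) EventuallyEq.rfl
    ((c.glue_germ_V (H := c.fam (max n (Sched.minOrder K)) lam (fun j => Sched.mult K lam j.1)
      (fun j => Sched.eps K lam j.1) τ) hV).trans
      (Eventually.of_forall fun z => by simp))).eq_of_nhds
  rw [add_zero] at e
  exact e.symm

/-- `ApproxStatement` in a cell, from the parameters found by the climb. -/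
theorem RoundCell.approximants {Ka : Set R2} (c : RoundCell N Kg Kc a f 2 13)
    (hNsq : closure N ⊆ sq) (hKc : IsCompact Kc) (haKa : tsupport a ⊆ interior Ka)
    (hf : ContDiff ℝ ∞ f) (hdet : ∀ p ∈ closure N, detg f p ≠ 0)
    (hW : ∀ p ∈ closure N, Wsq (fun _ => 1) f p ≠ 0)
    (h : ∃ (K q : ℕ) (T : ℕ → ℝ), ∀ n, Sched.minOrder K ≤ n → ∀ lam, 2 ≤ lam → T n ≤ lam →
      ∃ τ : Sched.Idx → ℝ, ‖τ‖ ≤ 1 ∧ ∀ x ∈ Kg, (lam ^ q)⁻¹ ≤ criterion one
        (c.fam n lam (fun j => Sched.mult K lam j.1) (fun j => Sched.eps K lam j.1) τ) x) :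
    ∃ (F : ℕ → ℝ → R2 → V4) (q : ℕ) (B : ℝ),
      (∀ n lam, ContDiff ℝ ∞ (F n lam)) ∧
      (∀ n lam, ∀ p ∈ N, p ∉ Kc → F n lam p = f p) ∧
      (∀ n i, ∃ (C : ℝ) (e : ℕ), ∀ lam : ℝ, 1 ≤ lam → ∀ p ∈ N,
        ‖iteratedFDeriv ℝ i (F n lam) p‖ ≤ C * lam ^ e) ∧
      (∀ n i, ∃ (C : ℝ) (e : ℕ), ∀ lam : ℝ, 1 ≤ lam → ∀ p ∈ N,
        ‖iteratedFDeriv ℝ i (defect f a (F n lam)) p‖ ≤ C * lam ^ e) ∧
      (∀ i m, ∃ n₀, ∀ n, n₀ ≤ n → ∀ᶠ lam : ℝ in atTop, ∀ p ∈ N,
        ‖iteratedFDeriv ℝ i (defect f a (F n lam)) p‖ * lam ^ m ≤ 1) ∧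
      (∀ n, ∀ᶠ lam : ℝ in atTop, ∀ p ∈ N,
        (∀ i ≤ 1, ‖iteratedFDeriv ℝ i (F n lam) p‖ ≤ B) ∧
        (lam ^ q)⁻¹ ≤ detg (F n lam) p ∧ (lam ^ q)⁻¹ ≤ Wsq (fun _ => 1) (F n lam) p) ∧
      (∀ n, ∀ᶠ lam : ℝ in atTop, ∀ p ∈ Kg, (lam ^ q)⁻¹ ≤ criterion (fun _ => 1) (F n lam) p) ∧
      (∀ n i, 2 ≤ i → ∀ᶠ lam : ℝ in atTop, ∀ p ∈ N,
        ‖iteratedFDeriv ℝ i (F n lam) p‖ ≤ lam ^ (q * (i - 1))) ∧
      ∀ n, ∀ ε : ℝ, 0 < ε → ∀ᶠ lam : ℝ in atTop, ∀ p ∈ N, p ∉ Ka → ∀ i ≤ 9,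
        ‖iteratedFDeriv ℝ i (F n lam) p - iteratedFDeriv ℝ i f p‖ ≤ ε := by
  obtain ⟨K, qc, τ, hτ, hcrit⟩ := c.exists_schedule h
  obtain ⟨q₀, B, a1, a2, a3, a4, a5, a6, a8, a9⟩ := c.approx_bounds hNsq hKc haKa hf hdet hW
    (fun n => max n (Sched.minOrder K)) (fun n => le_max_left _ _) (fun _ => freqOf K)
    (fun _ => ampOf K) τ (Sched.freqExp K) (fun _ => one_le_freqOf K) (fun _ => ampOf_nonneg K)
    (fun _ => ampOf_mul K) hτ (fun _ => freqOf_le K) (fun _ => ampOf_small K)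
    (fun n lam => c.approxMap (max n (Sched.minOrder K)) lam (freqOf K lam) (ampOf K lam) (τ n lam))
    (fun _ _ => rfl)
  exact ⟨_, max q₀ qc, B, a1, a2, a3, a4, a5, a6 _ (le_max_left _ _), hcrit _ (le_max_right _ _),
    a8 _ (le_max_left _ _), a9⟩

/-- The approximants of round two exist, given the response of the family and its jets. -/
theorem approxStatement_of
    (hresp : ∀ (N Ka Kg Kc : Set R2) (a : R2 → ℝ) (f : R2 → V4), IsOpen N → closure N ⊆ sq →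
      IsCompact Ka → IsCompact Kg → IsCompact Kc → tsupport a ⊆ interior Ka → Ka ⊆ interior Kg →
      Kg ⊆ interior Kc → Kc ⊆ N → ContDiff ℝ ∞ a → ContDiff ℝ ∞ f →
      (∀ p ∈ closure N, detg f p ≠ 0) → (∀ p ∈ closure N, Wsq (fun _ => 1) f p ≠ 0) →
      (∀ p ∈ closure N, GoodR f p) → ∀ c : RoundCell N Kg Kc a f 2 13,
      (∃ T : ℕ → ℝ, ∀ thr : ℕ → ℕ → ℝ, (∀ N n, T n ≤ thr N n) →
        Generic.Resp (c.pert thr).vscale (c.pert thr).var ∧ (c.pert thr).Regular ∧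
          ∀ G : Sched.State thr → Set R2, (∀ i, G i ⊆ Kg) → ∃ L, (c.pert thr).Thick G L) ∧
      ∃ T : ℕ → ℝ, ∀ thr : ℕ → ℕ → ℝ, (∀ N n, T n ≤ thr N n) →
        Generic.Resp (c.pert thr).vscale (c.pert thr).var → ∃ N₀, (c.pert thr).Presc
          (Generic.zeta (c.pert thr).var) fun i => {x ∈ Kg | N₀ ≤ i.N}) :
    ApproxStatement := by
  intro N Ka Kg Kc a f hN hNsq hKa hKg hKc haKa hKag hKgc hKcN ha hf hdet hW hgood
  obtain ⟨c⟩ := exists_roundCell hN hNsq hKg hKc haKa hKag hKgc hKcN ha hf hdet hW hgood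
    (k0 := 2) one_le_two 13
  obtain ⟨h1, h2⟩ := hresp N Ka Kg Kc a f hN hNsq hKa hKg hKc haKa hKag hKgc hKcN ha hf hdet hW
    hgood c
  exact c.approximants hNsq hKc haKa hf hdet hW (c.exists_params h1 h2)

end

end Vale.Agent.P205.Bridge
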