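import Vale.Agent.P205.Full.Algebra.Jets

/-!
# P205: the functions of the criterion are local

They depend only on the germs of the map and of the cut and commute with translations; the
regularised `W²` dominates the plain one.
-/

namespace Vale.Agent.P205.Bridge

open scoped Topology RealInnerProductSpace
open Vale.Agent.P205.Algebra Filter

noncomputable section

variable {U : Type*} [NormedAddCommGroup U] [NormedSpace ℝ U] {η η' : R2 → ℝ} {F F' : R2 → V4}
  {p c : R2}

/-- Near `p` the first function is the translate by `c` of the second. -/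
abbrev Sh {Y : Type*} (c p : R2) (u u' : R2 → Y) : Prop := u =ᶠ[𝓝 p] fun q => u' (q + c)

lemma dx_congr {u u' : R2 → U} (h : Sh c p u u') : Sh c p (dx u) (dx u') :=
  h.fderiv.mono fun q hq => show fderiv ℝ u q (1, 0) = fderiv ℝ u' (q + c) (1, 0) by
    rw [hq, fderiv_comp_add_right]

lemma dy_congr {u u' : R2 → U} (h : Sh c p u u') : Sh c p (dy u) (dy u') :=
  h.fderiv.mono fun q hq => show fderiv ℝ u q (0, 1) = fderiv ℝ u' (q + c) (0, 1) by
    rw [hq, fderiv_comp_add_right]

/-- `Sh c p` as an infix relation. -/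
lemma detg_congr (hF : Sh c p (F) (F')) : Sh c p (detg F) (detg F') := by
  filter_upwards [dx_congr hF, dy_congr hF] with q a b
  simp [detg, g11, g12, g22, a, b]

lemma n0_congr (hη : Sh c p (η) (η')) (hF : Sh c p (F) (F')) :
    Sh c p (v1 η F) (v1 η' F') ∧ Sh c p (v2 η F) (v2 η' F') ∧ Sh c p (n0 η F) (n0 η' F') := by
  have a := dx_congr hF
  have b := dy_congr hF
  have h1 : Sh c p (v1 η F) (v1 η' F') := by
    filter_upwards [a, b, detg_congr hF, hη] with q a b d e
    simp [v1, g12, g22, rinv, a, b, d, e]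
  have h2 : Sh c p (v2 η F) (v2 η' F') := by
    filter_upwards [a, b, detg_congr hF, hη] with q a b d e
    simp [v2, g12, g11, rinv, a, b, d, e]
  refine ⟨h1, h2, ?_⟩
  filter_upwards [a, b, dy_congr b, h1, h2] with q a b c h1 h2
  simp [n0, F22, a, b, c, h1, h2]

lemma Wsq_congr (hη : Sh c p (η) (η')) (hF : Sh c p (F) (F')) : Sh c p (Wsq η F) (Wsq η' F') := by
  filter_upwards [(n0_congr hη hF).2.2] with q h
  simp [Wsq, h]

lemma det4_congr {A B C D A' B' C' D' : Row} (hA : Sh c p (A.u) (A'.u) ∧ Sh c p (A.v) (A'.v))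
    (hB : Sh c p (B.u) (B'.u) ∧ Sh c p (B.v) (B'.v)) (hC : Sh c p (C.u) (C'.u) ∧ Sh c p (C.v) (C'.v))
    (hD : Sh c p (D.u) (D'.u) ∧ Sh c p (D.v) (D'.v)) :
    Sh c p (det4 A B C D) (det4 A' B' C' D') := by
  filter_upwards [hA.1, hA.2, hB.1, hB.2, hC.1, hC.2, hD.1, hD.2] with q a a' b b' c c' d d'
  simp only [det4, a, a', b, b', c, c', d, d']

/-- The criterion depends only on the germs of the cut and of the map. -/
theorem criterion_congr (hη : Sh c p (η) (η')) (hF : Sh c p (F) (F')) :
    Sh c p (criterion η F) (criterion η' F') := by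
  obtain ⟨v1e, v2e, n0e⟩ := n0_congr hη hF
  have Wsqe := Wsq_congr hη hF
  have a := dx_congr hF
  have b := dy_congr hF
  have f11 : Sh c p (F11 F) (F11 F') := dx_congr a
  have f12 : Sh c p (F12 F) (F12 F') := dy_congr a
  have f22 : Sh c p (F22 F) (F22 F') := dy_congr b
  have iWe : Sh c p (iW η F) (iW η' F') := by
    filter_upwards [Wsqe, hη] with q w e
    simp [iW, rinv, w, e]
  have n1e : Sh c p (n1 η F) (n1 η' F') := by
    filter_upwards [a, b, n0e] with q a b n
    simp [n1, a, b, n]
  have cae : Sh c p (ca η F) (ca η' F') := by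
    filter_upwards [f11, n0e, iWe] with q x n w
    simp [ca, x, n, w]
  have cbe : Sh c p (cb η F) (cb η' F') := by
    filter_upwards [f12, n0e, iWe] with q x n w
    simp [cb, x, n, w]
  have cPe : Sh c p (cP η F) (cP η' F') := by
    filter_upwards [f11, n1e, iWe] with q x n w
    simp [cP, x, n, w]
  have cRe : Sh c p (cR η F) (cR η' F') := by
    filter_upwards [f12, n1e, iWe] with q x n w
    simp [cR, x, n, w]
  have cce : Sh c p (cc η F) (cc η' F') := by
    filter_upwards [cPe, cRe] with q x y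
    simp [cc, x, y]
  have N1e : Sh c p (N1 η F) (N1 η' F') := by
    filter_upwards [f11, f12, f22, v1e, cae, cbe] with q x y z v s t
    simp [N1, G111, G112, G122, x, y, z, v, s, t]
  have N2e : Sh c p (N2 η F) (N2 η' F') := by
    filter_upwards [f11, f12, f22, v2e, cae, cbe, dy_congr cae, dy_congr cbe]
      with q x y z v s t s' t'
    simp [N2, G211, G212, G222, x, y, z, v, s, t, s', t']
  have mulNe : ∀ {u u' : R2 → R2}, Sh c p (u) (u') → Sh c p (mulN η F u) (mulN η' F' u') := by
    intro u u' h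
    filter_upwards [h, N1e, N2e] with q x y z
    simp [mulN, x, y, z]
  have mulMe : ∀ {u u' : R2 → R2}, Sh c p (u) (u') →
      Sh c p (Algebra.mulM η F u) (Algebra.mulM η' F' u') := by
    intro u u' h
    filter_upwards [h, cae, cbe] with q x y z
    simp [Algebra.mulM, x, y, z]
  have dXue : ∀ {E E' : Row}, Sh c p (E.u) (E'.u) → Sh c p (E.v) (E'.v) →
      Sh c p (dXu η F E) (dXu η' F' E') := by
    intro E E' hu hv
    filter_upwards [dx_congr hu, mulNe hu, hv, dy_congr N1e, dy_congr N2e] with q x y z s t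
    simp [dXu, x, y, z, s, t]
  have dXve : ∀ {E E' : Row}, Sh c p (E.u) (E'.u) → Sh c p (E.v) (E'.v) →
      Sh c p (dXv η F E) (dXv η' F' E') := by
    intro E E' hu hv
    filter_upwards [mulMe hu, dx_congr hv, mulNe hv, hv, dy_congr cae, dy_congr cbe]
      with q x y z v s t
    simp [dXv, x, y, z, v, s, t]
  have perpe : Sh c p (Algebra.perp η F) (Algebra.perp η' F') := by
    filter_upwards [cPe, cRe] with q x y
    simp [Algebra.perp, x, y]
  have k1e : Sh c p (k1 η F) (k1 η' F') := by
    filter_upwards [perpe, cce] with q x y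
    simp [k1, x, y]
  have k2e : Sh c p (k2 η F) (k2 η' F') := by
    filter_upwards [mulMe perpe, cce] with q x y
    simp [k2, x, y]
  have rX : Sh c p ((rowX η F).u) ((rowX η' F').u) ∧ Sh c p ((rowX η F).v) ((rowX η' F').v) := by
    refine ⟨?_, mulMe cce⟩
    filter_upwards [dx_congr cce, mulNe cce] with q x y
    simp [rowX, x, y]
  have rY : Sh c p ((rowY η F).u) ((rowY η' F').u) ∧ Sh c p ((rowY η F).v) ((rowY η' F').v) :=
    ⟨dy_congr cce, cce⟩
  have rC : Sh c p ((rowC η F).u) ((rowC η' F').u) ∧ Sh c p ((rowC η F).v) ((rowC η' F').v) :=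
    ⟨cce, EventuallyEq.rfl⟩
  have rB : Sh c p ((rowBox η F).u) ((rowBox η' F').u) ∧ Sh c p ((rowBox η F).v) ((rowBox η' F').v) := by
    constructor
    · filter_upwards [dXue rX.1 rX.2, cbe, cae, dy_congr rX.1, dy_congr rY.1] with q x s t y z
      simp [rowBox, dYu, x, s, t, y, z]
    · filter_upwards [dXve rX.1 rX.2, cbe, cae, rX.1, dy_congr rX.2, rY.1, dy_congr rY.2]
        with q x s t y z u w
      simp [rowBox, dYv, x, s, t, y, z, u, w]
  have che : ∀ k, Sh c p ((chain η F k).u) ((chain η' F' k).u) ∧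
      Sh c p ((chain η F k).v) ((chain η' F' k).v) := by
    intro k
    induction k with
    | zero => exact rX
    | succ k ih =>
      have nu : Sh c p ((norm1 η F (chain η F k)).u) ((norm1 η' F' (chain η' F' k)).u) := by
        filter_upwards [k1e, ih.1, perpe, ih.2, dy_congr cce] with q x y z w t
        simp [norm1, x, y, z, w, t]
      have nv : Sh c p ((norm1 η F (chain η F k)).v) ((norm1 η' F' (chain η' F' k)).v) := by
        filter_upwards [k1e, ih.2, perpe, cce] with q x y z w
        simp [norm1, x, y, z, w]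
      constructor
      · filter_upwards [k1e, k2e, dXue nu nv, dy_congr nu, ih.2, cce, perpe, mulMe perpe,
          dy_congr (dy_congr cce)] with q a b c d e f g h i
        simp [chain, Algebra.next, dYu, a, b, c, d, e, f, g, h, i]
      · filter_upwards [k1e, k2e, dXve nu nv, nu, dy_congr nv, ih.2, cce, perpe, mulMe perpe,
          dy_congr cce] with q a b c d d' e f g h i
        simp [chain, Algebra.next, dYv, a, b, c, d, d', e, f, g, h, i]
  have detCe : ∀ j k, Sh c p (detChain η F j k) (detChain η' F' j k) :=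
    fun j k => det4_congr rC rY (che j) (che k)
  have d4 : Sh c p (delta4 η F) (delta4 η' F') := det4_congr rC rX rY rB
  have pHe : Sh c p (pHess η F (delta4 η F)) (pHess η' F' (delta4 η' F')) := by
    filter_upwards [cRe, cPe, cbe, cae, dx_congr (dx_congr d4), dy_congr (dx_congr d4),
      dy_congr (dy_congr d4), dx_congr d4, dy_congr d4, f11, f12, f22, v1e, v2e]
      with q r s t u xx xy yy x y e1 e2 e3 w1 w2
    simp [pHess, hess11, hess12, hess22, G111, G112, G122, G211, G212, G222, r, s, t, u, xx, xy,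
      yy, x, y, e1, e2, e3, w1, w2]
  have me : Sh c p (mainMult η F) (mainMult η' F') := by
    filter_upwards [dx_congr pHe, dy_congr pHe, cbe, cae] with q x y s t
    simp [mainMult, m0, x, y, s, t]
  have all : ∀ᶠ q in 𝓝 p, ∀ jk ∈ Finset.range 6 ×ˢ Finset.range 6,
      detChain η F jk.1 jk.2 q = detChain η' F' jk.1 jk.2 (q + c) :=
    (Filter.eventually_all_finset _).2 fun jk _ => detCe jk.1 jk.2
  filter_upwards [me, all] with q m hd
  simp only [criterion, m]
  congr 1
  refine Finset.sum_congr rfl fun k hk => Finset.sum_congr rfl fun j hj => ?_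
  have hk' := Finset.mem_range.1 hk
  have hj' := Finset.mem_range.1 hj
  rw [hd (j, k) (Finset.mem_product.2 ⟨Finset.mem_range.2 (by omega), hk⟩)]

/-- The regularised `W²` dominates the plain one where the metric is nondegenerate. -/
theorem Wsq_le (F : R2 → V4) {p : R2} (hd : 0 < detg F p) :
    Wsq (fun _ => 1) F p ≤ Wsq η F p := by
  set A := dx F p
  set B := dy F p
  set Y := F22 F p
  set d := detg F p with hd'
  have hde : d = ⟪A, A⟫ * ⟪B, B⟫ - ⟪A, B⟫ ^ 2 := rfl
  set T : V4 := ⟪Y, A⟫ • (⟪B, B⟫ • A - ⟪A, B⟫ • B) + ⟪Y, B⟫ • (⟪A, A⟫ • B - ⟪A, B⟫ • A) with hT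
  have e : ∀ η : R2 → ℝ, n0 η F p = Y - (d + (1 - η p))⁻¹ • T := by
    intro η
    simp only [n0, v1, v2, rinv, g11, g12, g22, hT, smul_add, smul_smul]
    rw [mul_comm _ ⟪Y, A⟫, mul_comm _ ⟪Y, B⟫]
    abel
  set N := Y - d⁻¹ • T
  have hN : n0 (fun _ => 1) F p = N := by rw [e, sub_self, add_zero]
  have hTA : ⟪T, A⟫ = d * ⟪Y, A⟫ := by
    simp only [hT, inner_add_left, inner_smul_left, inner_sub_left, conj_trivial, hde,
      real_inner_comm B A]
    ring
  have hTB : ⟪T, B⟫ = d * ⟪Y, B⟫ := by
    simp only [hT, inner_add_left, inner_smul_left, inner_sub_left, conj_trivial, hde,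
      real_inner_comm B A]
    ring
  have hNA : ⟪N, A⟫ = 0 := by
    rw [inner_sub_left, inner_smul_left, conj_trivial, hTA, inv_mul_cancel_left₀ hd.ne', sub_self]
  have hNB : ⟪N, B⟫ = 0 := by
    rw [inner_sub_left, inner_smul_left, conj_trivial, hTB, inv_mul_cancel_left₀ hd.ne', sub_self]
  have hNT : ⟪N, T⟫ = 0 := by
    simp [hT, inner_add_right, inner_smul_right, inner_sub_right, hNA, hNB]
  have e' : n0 η F p = N + (d⁻¹ - (d + (1 - η p))⁻¹) • T := by
    rw [e]; simp only [N, sub_smul]; abel
  simp only [Wsq]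
  rw [e', hN]
  simp only [inner_add_left, inner_add_right, inner_smul_left, inner_smul_right, conj_trivial,
    real_inner_comm N T, hNT, mul_zero, add_zero, zero_add]
  nlinarith [real_inner_self_nonneg (x := T), sq_nonneg (d⁻¹ - (d + (1 - η p))⁻¹)]

/-- The determinant of the induced metric is nonnegative. -/
theorem detg_nonneg (F : R2 → V4) (p : R2) : 0 ≤ detg F p := by
  have h := real_inner_mul_inner_self_le (dx F p) (dy F p)
  simp only [detg, g11, g12, g22]
  nlinarith

end

end Vale.Agent.P205.Bridge
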