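import Vale.Agent.P205.Full.Algebra.Inverse
import Vale.Agent.P205.Full.Bridge.Periodize
import Vale.Agent.P205.Full.Bridge.Local

/-!
# P205: cutoffs and estimates for a plane cell

Tools for transferring a problem on an open subset of the unit square to the periodic plane.
-/

namespace Vale.Agent.P205.Bridge

open scoped ContDiff Topology Manifold
open Correction Set Filter Finset

noncomputable section

variable {U : Type*} [NormedAddCommGroup U] [NormedSpace ℝ U]

/-- A smooth cutoff equal to one near `K`, with compact support in `N`. -/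
lemma exists_bump {K N : Set R2} (hK : IsCompact K) (hN : IsOpen N) (hKN : K ⊆ N) :
    ∃ (φ : R2 → ℝ) (K' : Set R2), IsCompact K' ∧ K' ⊆ N ∧ K ⊆ interior K' ∧ ContDiff ℝ ∞ φ ∧
      (∀ p, 0 ≤ φ p ∧ φ p ≤ 1) ∧ (∀ p ∈ K, φ =ᶠ[𝓝 p] fun _ => 1) ∧ ∀ p ∉ K', φ p = 0 := by
  obtain ⟨K', hK', hKK', hK'N⟩ := exists_compact_between hK hN hKN
  obtain ⟨f, h1, h0, hf⟩ := exists_contMDiffMap_one_nhds_of_subset_interior (n := (⊤ : ℕ∞))
    𝓘(ℝ, R2) hK.isClosed hKK'
  exact ⟨f, K', hK', hK'N, hKK', contMDiff_iff_contDiff.1 f.contMDiff, hf,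
    fun p hp => h1.filter_mono (nhds_le_nhdsSet hp), h0⟩

lemma exists_deriv_bound {u : R2 → U} {K : Set R2} (hu : ContDiff ℝ ∞ u) (hK : IsCompact K)
    (h0 : ∀ p ∉ K, u p = 0) : ∃ B : ℕ → ℝ, ∀ m p, ‖iteratedFDeriv ℝ m u p‖ ≤ B m := by
  choose B hB using fun m => (hu.continuous_iteratedFDeriv (by exact_mod_cast le_top)
    (m := m)).bounded_above_of_compact_support ((HasCompactSupport.intro hK h0).iteratedFDeriv m)
  exact ⟨B, hB⟩

/-- Derivatives of a product with a cutoff, from bounds on the support of the cutoff. -/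
lemma norm_iteratedFDeriv_cut_le {φ : R2 → ℝ} {u : R2 → U} {K : Set R2} {B D : ℕ → ℝ}
    (hφ : ContDiff ℝ ∞ φ) (hu : ContDiff ℝ ∞ u) (hK : IsClosed K) (h0 : ∀ p ∉ K, φ p = 0)
    (hB : ∀ m p, ‖iteratedFDeriv ℝ m φ p‖ ≤ B m) (m : ℕ) (hD0 : ∀ j, 0 ≤ D j)
    (hD : ∀ j ≤ m, ∀ p ∈ K, ‖iteratedFDeriv ℝ j u p‖ ≤ D j) (p : R2) :
    ‖iteratedFDeriv ℝ m (fun q => φ q • u q) p‖
      ≤ ∑ j ∈ range (m + 1), m.choose j * B j * D (m - j) := by
  by_cases hp : p ∈ K
  · refine (norm_iteratedFDeriv_smul_le hφ hu p (by exact_mod_cast le_top)).trans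
      (sum_le_sum fun j hj => ?_)
    rw [mul_assoc, mul_assoc]
    refine mul_le_mul_of_nonneg_left ?_ (Nat.cast_nonneg _)
    exact mul_le_mul (hB j p) (hD (m - j) (Nat.sub_le _ _) p hp) (norm_nonneg _)
      ((norm_nonneg _).trans (hB j p))
  · have he : (fun q => φ q • u q) =ᶠ[𝓝 p] 0 :=
      eventually_of_mem (hK.isOpen_compl.mem_nhds hp) fun q hq =>
        show φ q • u q = 0 by rw [h0 q hq, zero_smul]
    rw [(he.iteratedFDeriv ℝ m).eq_of_nhds]
    simp only [iteratedFDeriv_zero, Pi.zero_apply, norm_zero]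
    exact sum_nonneg fun j _ =>
      mul_nonneg (mul_nonneg (Nat.cast_nonneg _) ((norm_nonneg _).trans (hB j p))) (hD0 _)

omit [NormedAddCommGroup U] [NormedSpace ℝ U] in
/-- The periodic extension near a point agrees with a translate of any germ of the map. -/
lemma per_germ {u v : R2 → U} {p : R2} (hp : frac p ∈ sq) (h : u =ᶠ[𝓝 (frac p)] v) :
    Sh (frac p - p) p (per u) v := by
  have ht : Tendsto (fun q => q + (frac p - p)) (𝓝 p) (𝓝 (frac p)) := by
    simpa using ((continuous_id.add continuous_const).tendsto (f := fun q : R2 => q + (frac p - p)) p)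
  exact (per_shift u hp).trans (ht.eventually h)

lemma metF_congr {f f' : R2 → Algebra.V4} {p : R2} (h : f =ᶠ[𝓝 p] f') :
    Algebra.metF f p = Algebra.metF f' p := by
  rw [← Algebra.metB_self, ← Algebra.metB_self, h.fderiv_eq]

lemma contDiff_metF {f : R2 → Algebra.V4} (hf : ContDiff ℝ ∞ f) :
    ContDiff ℝ ∞ (Algebra.metF f) := by
  have hd : ContDiff ℝ ∞ (fderiv ℝ f) := hf.fderiv_right (m := ∞) le_rfl
  have e : Algebra.metF f = fun p => Algebra.metB (fderiv ℝ f p) (fderiv ℝ f p) :=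
    funext fun p => (Algebra.metB_self f p).symm
  rw [e]
  exact (Algebra.metB.contDiff.comp hd).clm_apply hd

end

end Vale.Agent.P205.Bridge
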