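import Vale.Agent.P205.Full.Global.Transition
import Vale.Agent.P205.Full.Straighten
import Vale.Agent.P205.Full.Bridge.Cell
import Vale.Agent.P205.Full.Bridge.GoodR

/-!
# P205: round two reduces to one coordinate cell

`PlaneExactStatement` is round two in coordinates: the piece is `a² dx²` inside the unit square and
the kernel lines are the `y` lines.  `exactStatement_of_plane` gives `ExactStatement` from it.
-/

namespace Vale.Agent.P205.Bridge

open scoped ContDiff Topology RealInnerProductSpace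
open Set Function Filter Metric
open Vale.Agent.P205.Algebra Vale.Agent.P205.Full

noncomputable section

/-- Round two in one coordinate cell. -/
def PlaneExactStatement : Prop :=
  ∀ (N K : Set R2) (a : R2 → ℝ) (f : R2 → V4),
    IsOpen N → N ⊆ sq → IsCompact K → K ⊆ N → ContDiff ℝ ∞ a → tsupport a ⊆ interior K →
    ContDiff ℝ ∞ f → (∀ p ∈ N, detg f p ≠ 0) → (∀ p ∈ N, Wsq (fun _ => 1) f p ≠ 0) →
    (∀ p ∈ N, GoodR f p) →
    ∃ F : R2 → V4, ContDiff ℝ ∞ F ∧ (∀ p ∉ K, F p = f p) ∧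
      (∀ p ∈ N, metF F p = metF f p + ![a p ^ 2, 0, 0]) ∧
      (∀ p ∈ N, Wsq (fun _ => 1) F p ≠ 0) ∧ ∀ p ∈ N, GoodR F p

lemma fderiv_apply_eq (f : R2 → V4) (p v : R2) :
    fderiv ℝ f p v = v.1 • Algebra.dx f p + v.2 • Algebra.dy f p := by
  conv_lhs => rw [show v = v.1 • ((1 : ℝ), (0 : ℝ)) + v.2 • ((0 : ℝ), (1 : ℝ)) by ext <;> simp]
  rw [map_add, map_smul, map_smul]
  rfl

/-- The induced product in coordinates. -/
lemma inner_fderiv_eq (f : R2 → V4) (p v w : R2) :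
    ⟪fderiv ℝ f p v, fderiv ℝ f p w⟫ = metF f p 0 * (v.1 * w.1)
      + metF f p 1 * (v.1 * w.2 + v.2 * w.1) + metF f p 2 * (v.2 * w.2) := by
  rw [fderiv_apply_eq, fderiv_apply_eq]
  simp only [inner_add_left, inner_add_right, real_inner_smul_left, real_inner_smul_right, metF,
    g11, g12, g22, Matrix.cons_val_zero, Matrix.cons_val_one, Matrix.cons_val,
    real_inner_comm (Algebra.dx f p) (Algebra.dy f p)]
  ring

/-- An immersion has nondegenerate metric. -/
lemma detg_pos_of_injective {f : R2 → V4} {p : R2} (h : Injective (fderiv ℝ f p)) :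
    0 < detg f p := by
  refine (detg_nonneg f p).lt_of_ne' fun h0 => ?_
  set A := Algebra.dx f p with hA
  set B := Algebra.dy f p with hB
  have hv : g22 f p • A - g12 f p • B = 0 := by
    have e : ⟪g22 f p • A - g12 f p • B, g22 f p • A - g12 f p • B⟫ = g22 f p * detg f p := by
      simp only [inner_sub_left, inner_sub_right, real_inner_smul_left, real_inner_smul_right,
        detg, g11, g12, g22, ← hA, ← hB, real_inner_comm A B]
      ring
    rw [← @inner_self_eq_zero ℝ, e, h0, mul_zero]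
  have hz : fderiv ℝ f p (g22 f p, -g12 f p) = 0 := by
    rw [fderiv_apply_eq, ← hv, neg_smul, ← sub_eq_add_neg]
  have h22 : g22 f p = 0 := congrArg Prod.fst (h (hz.trans (map_zero _).symm))
  have hB0 : B = 0 := inner_self_eq_zero (𝕜 := ℝ).1 h22
  exact one_ne_zero (congrArg Prod.snd (h (show fderiv ℝ f p (0, 1) = fderiv ℝ f p 0 by
    rw [map_zero]; exact hB0)))

/-- `W ≠ 0` says that `F_yy` is not tangent. -/
lemma Wsq_ne_zero_iff {f : R2 → V4} {p : R2} (hd : detg f p ≠ 0) :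
    Wsq (fun _ => 1) f p ≠ 0 ↔ F22 f p ∉ range (fderiv ℝ f p) := by
  rw [not_iff_not, Wsq, inner_self_eq_zero, Set.mem_range]
  simp only [fderiv_apply_eq]
  constructor
  · intro h
    simp only [n0, v1, v2, rinv, sub_self, add_zero, smul_sub, smul_smul] at h
    refine ⟨(⟪F22 f p, Algebra.dx f p⟫ * ((detg f p)⁻¹ * g22 f p)
      - ⟪F22 f p, Algebra.dy f p⟫ * ((detg f p)⁻¹ * g12 f p),
      ⟪F22 f p, Algebra.dy f p⟫ * ((detg f p)⁻¹ * g11 f p)
      - ⟪F22 f p, Algebra.dx f p⟫ * ((detg f p)⁻¹ * g12 f p)), ?_⟩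
    refine (sub_eq_zero.1 ?_).symm
    rw [← h]
    simp only [sub_smul]
    abel
  · rintro ⟨⟨s, t⟩, hst⟩
    simp only [n0, v1, v2, rinv, sub_self, add_zero, ← hst, inner_add_left, real_inner_smul_left,
      smul_sub, smul_smul, real_inner_comm (Algebra.dx f p) (Algebra.dy f p), ← g11.eq_def,
      ← g12.eq_def, ← g22.eq_def]
    match_scalars <;> simp only [detg, g11, g12, g22] at * <;> field_simp <;> ring

/-- `F_yy` of a composition differs from the second derivative along the image of `∂y` by a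
tangent vector. -/
lemma normalAccel_iff_Wsq {f : E2 → E4} {Φ : R2 → E2} {p : R2} (hf : ContDiff ℝ ∞ f)
    (hΦ : ContDiff ℝ ∞ Φ) (hs : Surjective (fderiv ℝ Φ p)) (hd : detg (f ∘ Φ) p ≠ 0) :
    NormalAccel f (Φ p) (fderiv ℝ Φ p (0, 1)) ↔ Wsq (fun _ => 1) (f ∘ Φ) p ≠ 0 := by
  rw [Wsq_ne_zero_iff hd, normalAccel_iff hf.contDiffAt]
  have hf' : Differentiable ℝ (fderiv ℝ f) :=
    (hf.fderiv_right (m := ∞) le_rfl).differentiable (by simp)
  have hdy : Differentiable ℝ (Algebra.dy Φ) :=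
    ((hΦ.fderiv_right (m := ∞) le_rfl).clm_apply contDiff_const).differentiable (by simp)
  have e : Algebra.dy (f ∘ Φ) = fun q => fderiv ℝ f (Φ q) (Algebra.dy Φ q) := funext fun q => by
    show fderiv ℝ (f ∘ Φ) q (0, 1) = _
    rw [fderiv_comp q (hf.differentiable (by simp) _) (hΦ.differentiable (by simp) q)]
    rfl
  have h2 : F22 (f ∘ Φ) p = fderiv ℝ (fderiv ℝ f) (Φ p) (fderiv ℝ Φ p (0, 1)) (fderiv ℝ Φ p (0, 1))
      + fderiv ℝ f (Φ p) (Algebra.dy (Algebra.dy Φ) p) := by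
    show fderiv ℝ (Algebra.dy (f ∘ Φ)) p (0, 1) = _
    have hc : DifferentiableAt ℝ (fun q => fderiv ℝ f (Φ q)) p :=
      (hf' _).comp p (hΦ.differentiable (by simp) p)
    rw [e, fderiv_clm_apply hc (hdy p),
      show fderiv ℝ (fun q => fderiv ℝ f (Φ q)) p = (fderiv ℝ (fderiv ℝ f) (Φ p)).comp (fderiv ℝ Φ p)
        from fderiv_comp p (hf' _) (hΦ.differentiable (by simp) p)]
    simp only [add_apply, ContinuousLinearMap.comp_apply, ContinuousLinearMap.flip_apply]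
    rw [add_comm]
    rfl
  have hr : range (fderiv ℝ (f ∘ Φ) p) = range (fderiv ℝ f (Φ p)) := by
    rw [fderiv_comp p (hf.differentiable (by simp) _) (hΦ.differentiable (by simp) p)]
    exact hs.range_comp _
  rw [hr, h2]
  constructor
  · rintro h ⟨u, hu⟩
    exact h ⟨u - Algebra.dy (Algebra.dy Φ) p, by rw [map_sub, hu, add_sub_cancel_right]⟩
  · rintro h ⟨u, hu⟩
    exact h ⟨u + Algebra.dy (Algebra.dy Φ) p, by rw [map_add, hu]⟩

lemma normalAccel_smul {f : E2 → E4} {y u : E2} (hf : ContDiff ℝ ∞ f) {r : ℝ} (hr : r ≠ 0)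
    (h : NormalAccel f y u) : NormalAccel f y (r • u) := by
  rw [normalAccel_iff hf.contDiffAt] at h ⊢
  rintro ⟨w, hw⟩
  refine h ⟨(r * r)⁻¹ • w, ?_⟩
  rw [map_smul, hw]
  simp [map_smul, smul_smul]
  field_simp
  simp

/-- Round two follows from its coordinate form. -/
theorem exactStatement_of_plane (H : PlaneExactStatement) : ExactStatement := by
  intro U K₀ c r ξ ν a f hU hK₀ hK₀U hr hball ha ha0 hf hν hinj hν0 htrans hacc hgood
  have hBU : closedBall c r ⊆ U := hball.trans (interior_subset.trans hK₀U)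
  have hξ : ξ ≠ 0 := by
    rintro rfl
    obtain ⟨u, hu, hu0⟩ := (Submodule.ne_bot_iff _).1
      (LinearMap.ker_ne_bot_of_finrank_lt (f := ((ν c : E2 →L[ℝ] ℝ) : E2 →ₗ[ℝ] ℝ)) (by simp))
    exact htrans c (hBU (mem_closedBall_self hr.le)) u hu0 (by simpa using hu) (by simp)
  set σ : Form2 := fun y => (ν y).smulRight (ν y)
  have hσapp : ∀ y v w, σ y v w = ν y v * ν y w := fun y v w => by simp [σ]
  have hσ : ContDiff ℝ ∞ σ :=
    contDiff_clm_apply_iff.2 fun v => contDiff_clm_apply_iff.2 fun w => by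
      simpa only [hσapp] using (hν.clm_apply (contDiff_const (c := v))).mul
        (hν.clm_apply (contDiff_const (c := w)))
  obtain ⟨Φ₀, Ψ₀, V, hΦ₀, hΨ₀, hΦΨ₀, hΨΦ₀, hV, hBV, hVU, -, hΦi₀, hVs⟩ :=
    exists_adapted_chart hU (isCompact_closedBall c r) hBU hξ hσ
      (fun y hy => ⟨ν y, hν0 y hy, hσapp y⟩)
      (fun y hy u hu h => htrans y hy u hu (mul_self_eq_zero.1 (by rwa [← hσapp])))
  obtain ⟨ρ, hρ0, hρ⟩ : ∃ ρ, 0 < ρ ∧ Ψ₀ '' closedBall c r ⊆ closedBall 0 ρ := by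
    obtain ⟨ρ, hρ⟩ := ((isCompact_closedBall c r).image hΨ₀.continuous).isBounded.subset_closedBall 0
    exact ⟨max ρ 1, by positivity, hρ.trans (closedBall_subset_closedBall (le_max_left _ _))⟩
  obtain ⟨R, hR⟩ : ∃ R, R = 4 * ρ := ⟨_, rfl⟩
  have hR0 : 0 < R := by linarith
  -- the kernel lines become the `y` lines inside the unit square
  set Φ : R2 → E2 := fun p => Φ₀ (R * (p.2 - 1 / 2), R * (p.1 - 1 / 2)) with hΦdef
  set Ψ : E2 → R2 := fun y => ((Ψ₀ y).2 / R + 1 / 2, (Ψ₀ y).1 / R + 1 / 2) with hΨdef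
  have hΦ : ContDiff ℝ ∞ Φ := hΦ₀.comp (by fun_prop)
  have hΨ : ContDiff ℝ ∞ Ψ :=
    (((contDiff_snd.comp hΨ₀).div_const R).add contDiff_const).prodMk
      (((contDiff_fst.comp hΨ₀).div_const R).add contDiff_const)
  have hΦΨ : ∀ y, Φ (Ψ y) = y := fun y => by
    simp only [Φ, Ψ, add_sub_cancel_right, mul_div_cancel₀ _ hR0.ne', Prod.mk.eta, hΦΨ₀]
  have hΨΦ : ∀ p, Ψ (Φ p) = p := fun p => by
    simp only [Φ, Ψ, hΨΦ₀, mul_div_cancel_left₀ _ hR0.ne', sub_add_cancel]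
  have hdΦ : ∀ p v, fderiv ℝ Φ p v
      = fderiv ℝ Φ₀ (R * (p.2 - 1 / 2), R * (p.1 - 1 / 2)) (R * v.2, R * v.1) := fun p v => by
    have h1 := (((hasFDerivAt_snd (𝕜 := ℝ) (p := p) (E := ℝ) (F := ℝ)).sub_const (1 / 2)).const_mul R).prodMk
      ((hasFDerivAt_fst.sub_const (1 / 2)).const_mul R)
    have h2 := ((hΦ₀.differentiable (by simp) _).hasFDerivAt.comp p h1).fderiv
    exact congrArg (fun T : R2 →L[ℝ] E2 => T v) h2
  have hΦi : ∀ p, Injective (fderiv ℝ Φ p) := fun p v w h => by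
    rw [hdΦ, hdΦ] at h
    have h' := Prod.ext_iff.1 (hΦi₀ _ h)
    exact Prod.ext (mul_left_cancel₀ hR0.ne' h'.2) (mul_left_cancel₀ hR0.ne' h'.1)
  have hΦs : ∀ p, Surjective (fderiv ℝ Φ p) := fun p =>
    (LinearMap.injective_iff_surjective_of_finrank_eq_finrank (by simp)
      (f := (fderiv ℝ Φ p : R2 →ₗ[ℝ] E2))).1 (hΦi p)
  set k : R2 → ℝ := fun p => ν (Φ p) (fderiv ℝ Φ p (1, 0))
  have hk : ContDiff ℝ ∞ k :=
    (hν.comp hΦ).clm_apply ((hΦ.fderiv_right (m := ∞) le_rfl).clm_apply contDiff_const)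
  have hkv : ∀ p, Φ p ∈ V → k p ≠ 0 ∧ ∀ v, ν (Φ p) (fderiv ℝ Φ p v) = v.1 * k p := by
    intro p hp
    obtain ⟨hs, hform⟩ := hVs _ hp
    set D := fderiv ℝ Φ₀ (R * (p.2 - 1 / 2), R * (p.1 - 1 / 2))
    have h10 : ν (Φ p) (D (1, 0)) = 0 := by
      have h := hform (1, 0) (1, 0)
      rw [hσapp] at h
      exact mul_self_eq_zero.1 (h.trans (by simp))
    have h01 : ν (Φ p) (D (0, 1)) ≠ 0 := fun h => by
      rw [hσapp] at hs
      exact hs.ne' (show ν (Φ p) (D (0, 1)) * ν (Φ p) (D (0, 1)) = 0 by rw [h, mul_zero])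
    have hv : ∀ v, ν (Φ p) (fderiv ℝ Φ p v) = v.1 * (R * ν (Φ p) (D (0, 1))) := fun v => by
      rw [hdΦ, show ((R * v.2, R * v.1) : R2) = (R * v.2) • (1, 0) + (R * v.1) • (0, 1) by
        ext <;> simp, map_add, map_add, map_smul, map_smul, map_smul, map_smul, h10]
      simp only [smul_eq_mul]
      ring
    have hkp : k p = R * ν (Φ p) (D (0, 1)) := (hv (1, 0)).trans (one_mul _)
    exact ⟨hkp ▸ mul_ne_zero hR0.ne' h01, fun v => by rw [hv, hkp]⟩
  set N : Set R2 := sq ∩ Φ ⁻¹' (V ∩ interior K₀)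
  have hN : IsOpen N := isOpen_sq.inter ((hV.inter isOpen_interior).preimage hΦ.continuous)
  have hB : Ψ '' closedBall c r ⊆ N := by
    rintro _ ⟨y, hy, rfl⟩
    refine ⟨?_, by rw [mem_preimage, hΦΨ]; exact ⟨hBV hy, hball hy⟩⟩
    have h := hρ (mem_image_of_mem Ψ₀ hy)
    rw [mem_closedBall_zero_iff, Prod.norm_def, max_le_iff, Real.norm_eq_abs, Real.norm_eq_abs,
      abs_le, abs_le] at h
    have hsq : ∀ x : ℝ, -ρ ≤ x → x ≤ ρ → x / R + 1 / 2 ∈ Ioo (0 : ℝ) 1 := fun x h1 h2 => by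
      constructor
      · have : -(1 / 4) ≤ x / R := by rw [le_div_iff₀ hR0]; linarith
        linarith
      · have : x / R ≤ 1 / 4 := by rw [div_le_iff₀ hR0]; linarith
        linarith
    exact ⟨hsq _ h.2.1 h.2.2, hsq _ h.1.1 h.1.2⟩
  obtain ⟨K, hK, hKi, hKN⟩ :=
    exists_compact_between ((isCompact_closedBall c r).image hΨ.continuous) hN hB
  set a' : R2 → ℝ := fun p => a (Φ p) * k p
  have ha' : tsupport a' ⊆ interior K := by
    refine (closure_minimal (fun p hp => ?_)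
      ((isCompact_closedBall c r).image hΨ.continuous).isClosed).trans hKi
    have : Φ p ∈ ball c r := by
      by_contra h
      exact hp (by simp [a', ha0 _ h])
    exact ⟨Φ p, ball_subset_closedBall this, hΨΦ p⟩
  have hNU : ∀ p ∈ N, Φ p ∈ U := fun p hp => hVU hp.2.1
  have hdet : ∀ p ∈ N, detg (f ∘ Φ) p ≠ 0 := fun p hp => by
    refine (detg_pos_of_injective ?_).ne'
    rw [fderiv_comp p (hf.differentiable (by simp) _) (hΦ.differentiable (by simp) p)]
    exact (hinj _ (hNU p hp)).comp (hΦi p)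
  obtain ⟨G, hG, hGoff, hGmet, hGW, hGgood⟩ := H N K a' (f ∘ Φ) hN inter_subset_left hK hKN
    ((ha.comp hΦ).mul hk) ha' (hf.comp hΦ) hdet
    (fun p hp => (normalAccel_iff_Wsq hf hΦ (hΦs p) (hdet p hp)).1 <| by
      have h := (hkv p hp.2.1).2 (0, 1)
      rw [zero_mul] at h
      refine hacc _ (hNU p hp) _ (fun h0 => ?_) h
      have := congrArg Prod.snd (hΦi p (h0.trans (map_zero _).symm))
      exact one_ne_zero this)
    (fun p hp => by
      obtain ⟨φ, q, hφ, hq, hφi, hc⟩ := hgood _ (hNU p hp)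
      have e : Φ ∘ (Ψ ∘ φ) = φ := funext fun z => hΦΨ (φ z)
      refine ⟨Ψ ∘ φ, q, hΨ.comp hφ, by rw [comp_apply, hq, hΨΦ], ?_, by rwa [comp_assoc, e]⟩
      rw [fderiv_comp q (hΨ.differentiable (by simp) _) (hφ.differentiable (by simp) q)]
      refine Injective.comp (g := fderiv ℝ Ψ (φ q)) ?_ hφi
      refine HasLeftInverse.injective ⟨fderiv ℝ Φ (Ψ (φ q)), fun v => ?_⟩
      have h := fderiv_comp (φ q) (hΦ.differentiable (by simp) (Ψ (φ q)))
        (hΨ.differentiable (by simp) (φ q))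
      rw [show Φ ∘ Ψ = id from funext hΦΨ, fderiv_id] at h
      exact (congrArg (fun T : E2 →L[ℝ] E2 => T v) h).symm)
  set F : E2 → E4 := fun y => f y + (G (Ψ y) - f (Φ (Ψ y))) with hFdef
  have hF : ContDiff ℝ ∞ F := hf.add ((hG.comp hΨ).sub (hf.comp (hΦ.comp hΨ)))
  have hFG : F ∘ Φ = G := funext fun p => by simp only [F, comp_apply, hΨΦ]; abel
  have hFoff : ∀ y, Ψ y ∉ K → F y = f y := fun y hy => by
    simp only [F, hGoff _ hy, comp_apply, sub_self, add_zero]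
  have hnear : ∀ y, Ψ y ∉ N → F =ᶠ[𝓝 y] f ∧ a y = 0 := fun y hy => by
    refine ⟨Filter.eventually_of_mem
      ((hK.isClosed.isOpen_compl.preimage hΨ.continuous).mem_nhds fun h => hy (hKN h))
      fun z hz => hFoff z hz, ha0 y fun h => hy (hB (mem_image_of_mem Ψ (ball_subset_closedBall h)))⟩
  have hFd : ∀ y v, fderiv ℝ F y (fderiv ℝ Φ (Ψ y) v) = fderiv ℝ G (Ψ y) v := fun y v => by
    conv_rhs => rw [← hFG]
    rw [fderiv_comp _ (hF.differentiable (by simp) _) (hΦ.differentiable (by simp) _), hΦΨ]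
    rfl
  refine ⟨F, hF, fun y hy => hFoff y fun h => hy ?_, fun y hy v w => ?_, fun y hy u hu h0 => ?_,
    fun y hy => ?_⟩
  · have := interior_subset (hKN h).2.2
    rwa [hΦΨ] at this
  · by_cases hp : Ψ y ∈ N
    · obtain ⟨v', rfl⟩ := hΦs (Ψ y) v
      obtain ⟨w', rfl⟩ := hΦs (Ψ y) w
      have hfd : ∀ v, fderiv ℝ f y (fderiv ℝ Φ (Ψ y) v) = fderiv ℝ (f ∘ Φ) (Ψ y) v := fun v => by
        rw [fderiv_comp _ (hf.differentiable (by simp) _) (hΦ.differentiable (by simp) _), hΦΨ]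
        rfl
      have hνv : ∀ v, ν y (fderiv ℝ Φ (Ψ y) v) = v.1 * k (Ψ y) := fun v => by
        have := (hkv _ hp.2.1).2 v
        rwa [hΦΨ] at this
      simp only [pullE2, hFd, hfd, hνv, inner_fderiv_eq, hGmet _ hp, Pi.add_apply, a', hΦΨ,
        Matrix.cons_val_zero, Matrix.cons_val_one, Matrix.cons_val]
      ring
    · obtain ⟨he, ha⟩ := hnear y hp
      simp [pullE2, he.fderiv_eq, ha]
  · by_cases hp : Ψ y ∈ N
    · obtain ⟨u', rfl⟩ := hΦs (Ψ y) u
      obtain ⟨hk0, hkl⟩ := hkv _ hp.2.1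
      rw [hΦΨ] at hkl
      have h1 : u'.1 = 0 := (mul_eq_zero.1 ((hkl u').symm.trans h0)).resolve_right hk0
      have h2 : u'.2 ≠ 0 := fun h => hu (by rw [show u' = 0 from Prod.ext h1 h, map_zero])
      have hd : detg (F ∘ Φ) (Ψ y) ≠ 0 := by
        have hpos := detg_pos_of_injective (f := f ∘ Φ) (p := Ψ y) (by
          rw [fderiv_comp _ (hf.differentiable (by simp) _) (hΦ.differentiable (by simp) _)]
          exact (hinj _ (hNU _ hp)).comp (hΦi _))
        have e := hGmet _ hp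
        have e0 := congrFun e 0
        have e1 := congrFun e 1
        have e2 := congrFun e 2
        simp [metF] at e0 e1 e2
        rw [hFG]
        simp only [detg, e0, e1, e2] at hpos ⊢
        have : 0 ≤ a' (Ψ y) ^ 2 * g22 (f ∘ Φ) (Ψ y) :=
          mul_nonneg (sq_nonneg _) real_inner_self_nonneg
        nlinarith
      have hacc' := (normalAccel_iff_Wsq hF hΦ (hΦs _) hd).2 (by rw [hFG]; exact hGW _ hp)
      rw [hΦΨ] at hacc'
      rw [show u' = u'.2 • ((0 : ℝ), (1 : ℝ)) from Prod.ext (by simp [h1]) (by simp), map_smul]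
      exact normalAccel_smul hF h2 hacc'
    · exact (hacc y hy u hu h0).congr (hnear y hp).1.symm
  · by_cases hp : Ψ y ∈ N
    · obtain ⟨φ, q, hφ, hq, hφi, hc⟩ := hGgood _ hp
      refine ⟨Φ ∘ φ, q, hΦ.comp hφ, by rw [comp_apply, hq, hΦΨ], ?_, ?_⟩
      · rw [fderiv_comp q (hΦ.differentiable (by simp) _) (hφ.differentiable (by simp) q)]
        exact (hΦi _).comp hφi
      · rw [← comp_assoc, hFG]; exact hc
    · exact (hgood y hy).congr (hnear y hp).1.symm

end

end Vale.Agent.P205.Bridge
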