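import Vale.Agent.P205.Generic.Climb
import Vale.Agent.P205.Generic.Prescribe

/-!
# P205: the schedule of round two

Thirteen blocks of directions.  The frequency of a block beats the `N`-th power of the scale reached
before it, its amplitude is the inverse of a fixed power of its frequency; for fixed `N` everything
is below a fixed power of `lam`.
-/

namespace Vale.Agent.P205.Bridge.Sched

open scoped ContDiff
open Set
open Vale.Agent.P205.Algebra

noncomputable section

/-- Directions: a block and a mode. -/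
abbrev Idx := Fin 13 × Generic.Mode

/-- The number of parameters of a block. -/
abbrev dimP : ℕ := Fintype.card Generic.Mode

/-- Exponent of the scale after some blocks. -/
def bigExp (N : ℕ) : ℕ → ℕ
  | 0 => 1
  | s + 1 => bigExp N s + (N + 25) * (N * bigExp N s + 1)

/-- Frequency of a block in the phase. -/
def mult (N : ℕ) (lam : ℝ) (s : ℕ) : ℕ := ⌈lam⌉₊ ^ (N * bigExp N s)

/-- Frequency of a block. -/
def freq (N : ℕ) (lam : ℝ) (s : ℕ) : ℝ := mult N lam s * lam

/-- Amplitude of a block. -/
def amp (N : ℕ) (lam : ℝ) (s : ℕ) : ℝ := (freq N lam s ^ (N + 24))⁻¹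

/-- The scale reached before a block. -/
def bigs (N : ℕ) (lam : ℝ) : ℕ → ℝ
  | 0 => lam
  | s + 1 => bigs N lam s * freq N lam s / amp N lam s

/-- Amplitude of the free data of a block, of order two. -/
def eps (N : ℕ) (lam : ℝ) (s : ℕ) : ℝ := mult N lam s * lam ^ 2 * amp N lam s

/-- The least order of truncation for given `N`. -/
def minOrder (N : ℕ) : ℕ := 6 * (N * bigExp N 12) + N + 8

/-- The exponent bounding the frequencies by the scale. -/
def freqExp (N : ℕ) : ℕ := 2 * (N * bigExp N 12 + 1)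

variable {N : ℕ} {lam : ℝ} {s : ℕ}

lemma bigExp_mono (N : ℕ) : Monotone (bigExp N) :=
  monotone_nat_of_le_succ fun s => by simp [bigExp]

section Bounds

variable (h : 1 ≤ lam)
include h

lemma one_le_mult : 1 ≤ mult N lam s :=
  Nat.one_le_pow _ _ (Nat.ceil_pos.2 (by linarith))

lemma mult_pos : (0 : ℝ) < mult N lam s := by
  have := one_le_mult (N := N) (s := s) h
  exact_mod_cast this

lemma lam_le_freq : lam ≤ freq N lam s :=
  le_mul_of_one_le_left (by linarith) (by exact_mod_cast one_le_mult h)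

lemma mult_le_freq : (mult N lam s : ℝ) ≤ freq N lam s :=
  le_mul_of_one_le_right (mult_pos h).le h

lemma one_le_freq : 1 ≤ freq N lam s := h.trans (lam_le_freq h)

lemma amp_pos : 0 < amp N lam s := by
  have := one_le_freq (N := N) (s := s) h
  rw [amp]; positivity

lemma amp_mul_le {a : ℕ} (ha : a ≤ N + 24) : amp N lam s * freq N lam s ^ a ≤ 1 := by
  have h1 := one_le_freq (N := N) (s := s) h
  rw [amp, inv_mul_le_iff₀ (by positivity), mul_one]
  exact pow_le_pow_right₀ h1 ha

lemma amp_le_one : amp N lam s ≤ 1 := by simpa using amp_mul_le (a := 0) h (Nat.zero_le _)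

omit h in
lemma freq_div_amp : freq N lam s / amp N lam s = freq N lam s ^ (N + 25) := by
  rw [amp, div_inv_eq_mul, ← pow_succ']

omit h in
lemma bigs_succ : bigs N lam (s + 1) = bigs N lam s * freq N lam s ^ (N + 25) := by
  rw [bigs, mul_div_assoc, freq_div_amp]

lemma lam_le_bigs : lam ≤ bigs N lam s := by
  induction s with
  | zero => exact le_rfl
  | succ s ih =>
    rw [bigs_succ]
    exact ih.trans (le_mul_of_one_le_right ((zero_le_one.trans h).trans ih)
      (one_le_pow₀ (one_le_freq h)))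

lemma one_le_bigs : 1 ≤ bigs N lam s := h.trans (lam_le_bigs h)

lemma bigs_mono : Monotone (bigs N lam) :=
  monotone_nat_of_le_succ fun s => by
    rw [bigs_succ]
    exact le_mul_of_one_le_right (zero_le_one.trans (one_le_bigs h)) (one_le_pow₀ (one_le_freq h))

lemma freq_le_bigs_of_lt {t : ℕ} (ht : t < s) : freq N lam t ≤ bigs N lam s := by
  refine le_trans ?_ (bigs_mono h ht)
  rw [show t.succ = t + 1 from rfl, bigs_succ]
  exact (le_self_pow₀ (one_le_freq h) (by omega)).trans
    (le_mul_of_one_le_left (by have := one_le_freq (N := N) (s := t) h; positivity) (one_le_bigs h))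

lemma freq_le_ceil : freq N lam s ≤ (⌈lam⌉₊ : ℝ) ^ (N * bigExp N s + 1) := by
  rw [freq, mult, pow_succ, Nat.cast_pow]
  exact mul_le_mul_of_nonneg_left (Nat.le_ceil lam) (by positivity)

lemma bigs_le : bigs N lam s ≤ (⌈lam⌉₊ : ℝ) ^ bigExp N s := by
  induction s with
  | zero => simpa [bigs, bigExp] using Nat.le_ceil lam
  | succ s ih =>
    rw [bigs_succ, bigExp, mul_comm (N + 25), pow_add (⌈lam⌉₊ : ℝ), pow_mul (⌈lam⌉₊ : ℝ)]
    exact mul_le_mul ih (pow_le_pow_left₀ (zero_le_one.trans (one_le_freq h)) (freq_le_ceil h) _)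
      (by have := one_le_freq (N := N) (s := s) h; positivity) (by positivity)

lemma pow_le_freq : bigs N lam s ^ N ≤ freq N lam s := by
  refine le_trans ?_ (mult_le_freq h)
  rw [mult, Nat.cast_pow, mul_comm, pow_mul]
  exact pow_le_pow_left₀ (zero_le_one.trans (one_le_bigs h)) (bigs_le h) _

lemma eps_nonneg : 0 ≤ eps N lam s := by
  have := amp_pos (N := N) (s := s) h
  rw [eps]; positivity

lemma eps_div : eps N lam s / mult N lam s * (lam⁻¹) ^ 2 = amp N lam s := by
  have := (mult_pos (N := N) (s := s) h).ne'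
  have : lam ≠ 0 := by linarith
  rw [eps]
  field_simp

lemma eps_mul_le : eps N lam s * mult N lam s ≤ 1 := by
  have h0 : eps N lam s * mult N lam s = amp N lam s * freq N lam s ^ 2 := by
    rw [eps, freq]; ring
  rw [h0]
  exact amp_mul_le h (by omega)

end Bounds

section Two

variable (h : 2 ≤ lam)
include h

lemma ceil_le_sq : (⌈lam⌉₊ : ℝ) ≤ lam ^ 2 := by
  have := Nat.ceil_lt_add_one (show 0 ≤ lam by linarith)
  nlinarith

lemma mult_le : (mult N lam s : ℝ) ≤ lam ^ (2 * (N * bigExp N s)) := by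
  rw [mult, Nat.cast_pow, pow_mul lam 2]
  exact pow_le_pow_left₀ (Nat.cast_nonneg _) (ceil_le_sq h) _

lemma bigs_le_pow (hs : s ≤ 12) : bigs N lam s ≤ lam ^ (2 * bigExp N 12) := by
  refine (bigs_le (by linarith)).trans ?_
  rw [pow_mul]
  exact (pow_le_pow_left₀ (Nat.cast_nonneg _) (ceil_le_sq h) _).trans
    (pow_le_pow_right₀ (by nlinarith) (bigExp_mono N hs))

lemma freq_le_pow (hs : s ≤ 12) : freq N lam s ≤ lam ^ freqExp N := by
  refine (freq_le_ceil (by linarith)).trans ?_
  rw [freqExp, pow_mul]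
  exact (pow_le_pow_left₀ (Nat.cast_nonneg _) (ceil_le_sq h) _).trans (pow_le_pow_right₀
    (by nlinarith) (Nat.succ_le_succ (Nat.mul_le_mul_left N (bigExp_mono N hs))))

end Two

/-- The exponent of the bound of `amp * freq ^ a`, independent of `N`. -/
def ampExp (a : ℕ) : ℕ := a * (Finset.range a).sup freqExp

/-- Every derivative of the perturbation is below a power of the scale, uniformly in `N`. -/
lemma amp_freq_le (h : 2 ≤ lam) (hs : s ≤ 12) (a : ℕ) :
    amp N lam s * freq N lam s ^ a ≤ bigs N lam s ^ ampExp a := by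
  have h1 : 1 ≤ lam := by linarith
  by_cases ha : a ≤ N + 24
  · exact (amp_mul_le h1 ha).trans (one_le_pow₀ (one_le_bigs h1))
  · refine (mul_le_of_le_one_left (by have := one_le_freq (N := N) (s := s) h1; positivity)
      (amp_le_one h1)).trans ?_
    refine (pow_le_pow_left₀ (zero_le_one.trans (one_le_freq h1)) (freq_le_pow h hs) a).trans ?_
    refine (pow_le_pow_left₀ (by positivity)
      (pow_le_pow_left₀ (by linarith) (lam_le_bigs (N := N) (s := s) h1) _) a).trans ?_
    rw [← pow_mul]
    refine pow_le_pow_right₀ (one_le_bigs h1) ?_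
    rw [ampExp, mul_comm]
    exact Nat.mul_le_mul_left a (Finset.le_sup (f := freqExp) (Finset.mem_range.2 (by omega)))

/-- The truncation is below the change of the metric allowed to a perturbation. -/
lemma tiny_le (h : 2 ≤ lam) (hs : s ≤ 12) {n : ℕ} (hn : minOrder N ≤ n) :
    mult N lam s * lam ^ 2 * freq N lam s ^ 2 * (lam⁻¹) ^ (n + 1) ≤ 1 := by
  have h1 : 1 ≤ lam := by linarith
  rw [inv_pow, ← div_eq_mul_inv, div_le_one (by positivity)]
  calc (mult N lam s : ℝ) * lam ^ 2 * freq N lam s ^ 2 = (mult N lam s : ℝ) ^ 3 * lam ^ 4 := by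
        rw [freq]; ring
    _ ≤ (lam ^ (2 * (N * bigExp N 12))) ^ 3 * lam ^ 4 := by
        gcongr
        exact (mult_le h).trans (pow_le_pow_right₀ h1
          (Nat.mul_le_mul_left 2 (Nat.mul_le_mul_left N (bigExp_mono N hs))))
    _ = lam ^ (6 * (N * bigExp N 12) + 4) := by rw [← pow_mul, ← pow_add]; ring_nf
    _ ≤ lam ^ (n + 1) := pow_le_pow_right₀ h1 (by simp only [minOrder] at hn; omega)

/-- A state: the exponent, the order, the scale, the block reached and the parameters chosen. -/
structure State (thr : ℕ → ℕ → ℝ) where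
  /-- exponent -/
  N : ℕ
  /-- order of truncation -/
  n : ℕ
  /-- scale -/
  lam : ℝ
  /-- block -/
  lev : Fin 13
  /-- parameters of the earlier blocks -/
  prev : Idx → ℝ
  prev_le : ‖prev‖ ≤ 1
  prev_zero : ∀ j, lev ≤ j.1 → prev j = 0
  n_ge : minOrder N ≤ n
  lam_ge : thr N n ≤ lam
  two_le : 2 ≤ lam

namespace State

variable {thr : ℕ → ℕ → ℝ} (i : State thr)

lemma one_le : 1 ≤ i.lam := by linarith [i.two_le]

/-- The frequencies of all directions. -/
def M (j : Idx) : ℕ := mult i.N i.lam j.1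

/-- The amplitudes of all directions. -/
def ε (j : Idx) : ℝ := eps i.N i.lam j.1

/-- The parameters: `σ` in the block of the state. -/
def put (σ : Fin dimP → ℝ) (j : Idx) : ℝ :=
  if j.1 = i.lev then σ (Fintype.equivFin _ j.2) else i.prev j

/-- The directions of the block of the state. -/
def dir (σ : Fin dimP → ℝ) (j : Idx) : ℝ :=
  if j.1 = i.lev then σ (Fintype.equivFin _ j.2) else 0

lemma put_zero : i.put 0 = i.prev := funext fun j => by
  by_cases h : j.1 = i.lev
  · simp [put, h, i.prev_zero j h.ge]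
  · simp [put, h]

lemma put_add (σ w : Fin dimP → ℝ) (t : ℝ) : i.put (σ + t • w) = i.put σ + t • i.dir w :=
  funext fun j => by by_cases h : j.1 = i.lev <;> simp [put, dir, h]

lemma norm_dir_le (σ : Fin dimP → ℝ) : ‖i.dir σ‖ ≤ ‖σ‖ :=
  (pi_norm_le_iff_of_nonneg (norm_nonneg _)).2 fun j => by
    by_cases h : j.1 = i.lev
    · simpa [dir, h] using norm_le_pi_norm σ _
    · simp [dir, h]

lemma norm_put_le (σ : Fin dimP → ℝ) : ‖i.put σ‖ ≤ max 1 ‖σ‖ :=
  (pi_norm_le_iff_of_nonneg (le_max_of_le_left zero_le_one)).2 fun j => by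
    by_cases h : j.1 = i.lev
    · exact le_max_of_le_right (by simpa [put, h] using norm_le_pi_norm σ _)
    · exact le_max_of_le_left (by simpa [put, h] using (norm_le_pi_norm i.prev j).trans i.prev_le)

/-- The active directions have frequency at most that of the block. -/
lemma active (σ w : Fin dimP → ℝ) (j : Idx) :
    i.M j ≤ mult i.N i.lam i.lev ∨ i.put σ j = 0 ∧ i.dir w j = 0 := by
  rcases le_or_gt j.1 i.lev with h | h
  · exact Or.inl (Nat.pow_le_pow_right (Nat.ceil_pos.2 (by linarith [i.two_le]))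
      (Nat.mul_le_mul_left _ (bigExp_mono _ h)))
  · exact Or.inr ⟨by simp [put, h.ne', i.prev_zero j h.le], by simp [dir, h.ne']⟩

lemma one_le_M (j : Idx) : 1 ≤ i.M j := one_le_mult i.one_le
lemma ε_nonneg (j : Idx) : 0 ≤ i.ε j := eps_nonneg i.one_le
lemma ε_mul (j : Idx) : i.ε j * i.M j ≤ 1 := eps_mul_le i.one_le

/-- The move: the parameters of the block become fixed. -/
def next (σ : Fin dimP → ℝ) : State thr :=
  if h : (i.lev : ℕ) < 12 ∧ ‖σ‖ ≤ 1 then
    { i with
      lev := ⟨i.lev + 1, by omega⟩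
      prev := i.put σ
      prev_le := (i.norm_put_le σ).trans (max_le le_rfl h.2)
      prev_zero := fun j hj => by
        have hlt : i.lev < j.1 := Nat.lt_of_succ_le (Fin.le_def.1 hj)
        simp [put, hlt.ne', i.prev_zero j hlt.le] }
  else i

lemma next_fields (σ : Fin dimP → ℝ) :
    (i.next σ).N = i.N ∧ (i.next σ).n = i.n ∧ (i.next σ).lam = i.lam := by
  unfold next
  split_ifs <;> exact ⟨rfl, rfl, rfl⟩

lemma desc_fields {i i' : State thr}
    (h : Generic.Desc (fun i : State thr => (i.lev : ℕ)) State.next i i') :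
    i'.N = i.N ∧ i'.n = i.n ∧ i'.lam = i.lam := by
  induction h with
  | refl => exact ⟨rfl, rfl, rfl⟩
  | move h hl hσ ih =>
    obtain ⟨a, b, c⟩ := next_fields _ _
    exact ⟨a.trans ih.1, b.trans ih.2.1, c.trans ih.2.2⟩

/-- The start. -/
def start (N n : ℕ) (lam : ℝ) (hn : minOrder N ≤ n) (h : thr N n ≤ lam) (h2 : 2 ≤ lam) :
    State thr where
  N := N
  n := n
  lam := lam
  lev := 0
  prev := 0
  prev_le := by simp
  prev_zero _ _ := rfl
  n_ge := hn
  lam_ge := h
  two_le := h2

end State

/-- The stage data of a family of maps along the states. -/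
def pert (thr : ℕ → ℕ → ℝ) (V : Set R2) (hV : IsOpen V)
    (H : ℕ → ℝ → (Idx → ℕ) → (Idx → ℝ) → (Idx → ℝ) → R2 → V4) :
    Generic.Pert (State thr) dimP where
  dom _ := V
  big i := bigs i.N i.lam i.lev
  isOpen _ := hV
  two_le i := i.two_le.trans (lam_le_bigs i.one_le)
  amp i := amp i.N i.lam i.lev
  freq i := freq i.N i.lam i.lev
  H i σ := H i.n i.lam i.M i.ε (i.put σ)
  amp_pos i := amp_pos i.one_le
  amp_le i := amp_le_one i.one_le
  one_le_freq i := one_le_freq i.one_le

variable {thr : ℕ → ℕ → ℝ} {V : Set R2} {hV : IsOpen V}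
  {H : ℕ → ℝ → (Idx → ℕ) → (Idx → ℝ) → (Idx → ℝ) → R2 → V4}

/-- The moves form a climb. -/
theorem climb (G : State thr → Set R2) (hG : ∀ i σ, G i ⊆ G (i.next σ)) :
    Generic.Climb (pert thr V hV H) G (fun i => (i.lev : ℕ)) (fun i => i.N) State.next where
  small i _ := ⟨pow_le_freq i.one_le, by
    show bigs i.N i.lam i.lev ^ i.N * (amp i.N i.lam i.lev * freq i.N i.lam i.lev ^ 10) ≤ 1
    refine (mul_le_mul_of_nonneg_right (pow_le_freq i.one_le) (by
      have := amp_pos (N := i.N) (s := (i.lev : ℕ)) i.one_le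
      have := one_le_freq (N := i.N) (s := (i.lev : ℕ)) i.one_le
      positivity)).trans ?_
    rw [mul_left_comm, ← pow_succ']
    exact amp_mul_le i.one_le (by omega)⟩
  lev_next i σ hl hσ := by
    unfold State.next
    rw [dif_pos ⟨hl, hσ⟩]
  N_next i σ hl hσ := by
    unfold State.next
    rw [dif_pos ⟨hl, hσ⟩]
  big_next i σ hl hσ := by
    unfold State.next
    rw [dif_pos ⟨hl, hσ⟩]
    rfl
  G_next i σ _ _ := hG i σ
  H_next i σ hl hσ := by
    show H _ _ _ _ ((i.next σ).put 0) = H _ _ _ _ (i.put σ)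
    rw [State.put_zero]
    unfold State.next
    rw [dif_pos ⟨hl, hσ⟩]
    rfl

end

end Vale.Agent.P205.Bridge.Sched
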