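import Vale.Agent.P205.Full.Bridge.RoundCell
import Vale.Agent.P205.Full.Bridge.Schedule
import Vale.Agent.P205.Full.WKB.VarBounds

/-!
# P205: the family of round two along the schedule
-/

namespace Vale.Agent.P205.Bridge

open scoped ContDiff
open Vale.Agent.P205.Algebra

noncomputable section

variable {N Kg Kc : Set R2} {a : R2 → ℝ} {f : R2 → V4}

/-- The periodic maps of round two: order, scale, frequencies, amplitudes and parameters. -/
def RoundCell.fam (c : RoundCell N Kg Kc a f 2 13) (n : ℕ) (lam : ℝ) (M : Sched.Idx → ℕ)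
    (ε τ : Sched.Idx → ℝ) : R2 → V4 :=
  c.Φ.H c.R.spin.loop n lam M ε τ

/-- The stage data of round two. -/
abbrev RoundCell.pert (c : RoundCell N Kg Kc a f 2 13) (thr : ℕ → ℕ → ℝ) :
    Generic.Pert (Sched.State thr) Sched.dimP :=
  Sched.pert thr c.V c.V_open c.fam

end

end Vale.Agent.P205.Bridge
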