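import Vale.Agent.P205.Full.Bridge.PrescLow
import Vale.Agent.P205.Full.Bridge.RoundPert
import Vale.Agent.P205.Full.WKB.Lead
import Vale.Agent.P205.Full.WKB.SecondVar

/-!
# P205: jets of the variations of round two at a state

For each order of truncation, constants bounding the variation, its change, the change of the map
and the distance of the variation of `F_x` from its leading term, uniformly in the state.
-/

namespace Vale.Agent.P205.Bridge

open scoped ContDiff RealInnerProductSpace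
open Set
open Vale.Agent.P205.Algebra
open Vale.Agent.P205.Generic (Mode)

noncomputable section

namespace RoundCell

variable {N Kg Kc : Set R2} {a : R2 → ℝ} {f : R2 → V4} (c : RoundCell N Kg Kc a f 2 13)
variable {thr : ℕ → ℕ → ℝ} (i : Sched.State thr)

/-- The map of a state at a parameter. -/
abbrev mapAt (σ : Sched.Idx → ℝ) : R2 → V4 := c.Φ.H (loopOf c.R) i.n i.lam i.M i.ε σ

/-- Its derivative along a direction. -/
def varAt (σ u : Sched.Idx → ℝ) (y : R2) : V4 :=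
  fderiv ℝ (fun z : (Sched.Idx → ℝ) × R2 => c.mapAt i z.1 z.2) (σ, y) (u, 0)

lemma contDiff_mapAt : ContDiff ℝ ∞ fun z : (Sched.Idx → ℝ) × R2 => c.mapAt i z.1 z.2 :=
  c.Φ.contDiff_H (L := loopOf c.R) i.n i.lam i.one_le_M i.ε

lemma contDiff_varAt (σ u : Sched.Idx → ℝ) : ContDiff ℝ ∞ (c.varAt i σ u) :=
  ((((c.contDiff_mapAt i).fderiv_right (m := ∞) le_rfl).comp
    (contDiff_const.prodMk contDiff_id)).clm_apply contDiff_const :)

lemma varAt_add (σ u v : Sched.Idx → ℝ) :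
    c.varAt i σ (u + v) = fun y => c.varAt i σ u y + c.varAt i σ v y := funext fun y => by
  simp only [varAt, ← map_add, Prod.mk_add_mk, add_zero]

lemma varAt_smul (σ u : Sched.Idx → ℝ) (r : ℝ) :
    c.varAt i σ (r • u) = fun y => r • c.varAt i σ u y := funext fun y => by
  simp only [varAt, ← map_smul, Prod.smul_mk, smul_zero]

lemma top_hyp : 1 ≤ Sched.mult i.N i.lam i.lev := Sched.one_le_mult i.one_le

lemma norm_put {τ : Fin Sched.dimP → ℝ} (hτ : ‖τ‖ ≤ 3) : ‖i.put τ‖ ≤ 3 :=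
  (i.norm_put_le τ).trans (max_le (by norm_num) hτ)

/-- The weight of a direction of the block. -/
lemma weight_le (u : Sched.Idx → ℝ) (hu : ∀ j, j.1 ≠ i.lev → u j = 0) :
    ∑ j, i.ε j / i.M j * |u j| ≤
      Fintype.card Sched.Idx * (i.lam ^ 2 * Sched.amp i.N i.lam i.lev) * ‖u‖ := by
  have hA := (Sched.amp_pos (N := i.N) (s := (i.lev : ℕ)) i.one_le).le
  refine (Finset.sum_le_card_nsmul _ _ (i.lam ^ 2 * Sched.amp i.N i.lam i.lev * ‖u‖)
    fun j _ => ?_).trans_eq (by rw [Finset.card_univ, nsmul_eq_mul]; ring)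
  by_cases hj : j.1 = i.lev
  · have hm := (Sched.mult_pos (N := i.N) (s := (i.lev : ℕ)) i.one_le).ne'
    have e : i.ε j / i.M j = i.lam ^ 2 * Sched.amp i.N i.lam i.lev := by
      simp only [Sched.State.ε, Sched.State.M, Sched.eps, hj]
      field_simp
    rw [e]
    exact mul_le_mul_of_nonneg_left (norm_le_pi_norm u j) (by positivity)
  · rw [hu j hj, abs_zero, mul_zero]
    positivity

/-- The unit map on a direction of the block. -/
lemma unit_le (u : Sched.Idx → ℝ) (hu : ∀ j, j.1 ≠ i.lev → u j = 0) :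
    ‖WKB.FreeData.unitMap i.M i.ε u‖ ≤
      Sched.amp i.N i.lam i.lev * Sched.freq i.N i.lam i.lev ^ 2 * ‖u‖ := by
  have hA := (Sched.amp_pos (N := i.N) (s := (i.lev : ℕ)) i.one_le).le
  have hF := Sched.one_le_freq (N := i.N) (s := (i.lev : ℕ)) i.one_le
  refine (pi_norm_le_iff_of_nonneg (by positivity)).2 fun j => ?_
  rw [WKB.FreeData.unitMap_apply, Real.norm_eq_abs, abs_mul]
  by_cases hj : j.1 = i.lev
  · refine mul_le_mul (le_of_eq ?_) (norm_le_pi_norm u j) (abs_nonneg _) (by positivity)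
    rw [abs_of_nonneg (mul_nonneg (i.ε_nonneg j) (Nat.cast_nonneg _))]
    simp only [Sched.State.ε, Sched.State.M, Sched.eps, Sched.freq, hj]
    ring
  · rw [hu j hj, abs_zero, mul_zero]
    positivity

lemma dir_off (w : Fin Sched.dimP → ℝ) (j : Sched.Idx) (hj : j.1 ≠ i.lev) : i.dir w j = 0 := by
  simp [Sched.State.dir, hj]

lemma put_sub (τ : Fin Sched.dimP → ℝ) : i.put τ - i.put 0 = i.dir τ := by
  have h := i.put_add 0 τ 1
  rw [one_smul, zero_add, one_smul] at h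
  rw [h, add_sub_cancel_left]

lemma inv_lam_sq : (i.lam⁻¹) ^ c.Φ.k0 * i.lam ^ 2 = 1 := by
  rw [c.k0_eq, ← mul_pow, inv_mul_cancel₀ (by linarith [i.two_le] : i.lam ≠ 0), one_pow]

/-- The variation. -/
theorem var_jet (n a b : ℕ) : ∃ C, 0 ≤ C ∧ ∀ {thr : ℕ → ℕ → ℝ} (i : Sched.State thr), i.n = n →
    ∀ τ w : Fin Sched.dimP → ℝ, ‖τ‖ ≤ 3 → ‖w‖ ≤ 1 → ∀ x,
      ‖Generic.pd a b (c.varAt i (i.put τ) (i.dir w)) x‖ ≤
        C * Sched.amp i.N i.lam i.lev * Sched.freq i.N i.lam i.lev ^ a := by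
  obtain ⟨C, hC0, hC⟩ := c.Φ.var_bound (L := loopOf c.R) n a b
  refine ⟨C * Fintype.card Sched.Idx, by positivity, fun i hn τ w hτ hw x => ?_⟩
  subst hn
  have hA := (Sched.amp_pos (N := i.N) (s := (i.lev : ℕ)) i.one_le).le
  have hw' : ‖i.dir w‖ ≤ 1 := (i.norm_dir_le w).trans hw
  refine (hC i.M i.ε _ _ _ i.lam i.one_le_M i.ε_nonneg i.ε_mul ((norm_put i hτ).trans (by norm_num))
    hw' (top_hyp i) (i.active τ w) i.one_le x).trans ?_
  have h1 : ∑ j, i.ε j / i.M j * |i.dir w j| ≤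
      Fintype.card Sched.Idx * (i.lam ^ 2 * Sched.amp i.N i.lam i.lev) :=
    (weight_le i _ (dir_off i w)).trans (mul_le_of_le_one_right (by positivity) hw')
  have hl : 0 ≤ i.lam := zero_le_one.trans i.one_le
  refine (mul_le_mul_of_nonneg_right (mul_le_mul_of_nonneg_right
    (mul_le_mul_of_nonneg_left h1 hC0) (pow_nonneg (mul_nonneg (Nat.cast_nonneg _) hl) _))
    (by positivity)).trans_eq ?_
  calc C * (Fintype.card Sched.Idx * (i.lam ^ 2 * Sched.amp i.N i.lam i.lev)) *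
        ((Sched.mult i.N i.lam i.lev : ℕ) * i.lam) ^ a * (i.lam⁻¹) ^ c.Φ.k0
      = C * Fintype.card Sched.Idx * Sched.amp i.N i.lam i.lev *
        ((Sched.mult i.N i.lam i.lev : ℕ) * i.lam) ^ a * ((i.lam⁻¹) ^ c.Φ.k0 * i.lam ^ 2) := by ring
    _ = _ := by rw [c.inv_lam_sq i, mul_one]; rfl

/-- The change of the variation along the block. -/
theorem lip_jet (n a b : ℕ) : ∃ C, 0 ≤ C ∧ ∀ {thr : ℕ → ℕ → ℝ} (i : Sched.State thr), i.n = n →
    ∀ τ w : Fin Sched.dimP → ℝ, ‖τ‖ ≤ 3 → ‖w‖ ≤ 1 → ∀ x,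
      ‖Generic.pd a b (fun y => c.varAt i (i.put τ) (i.dir w) y -
          c.varAt i (i.put 0) (i.dir w) y) x‖ ≤
        C * (Sched.amp i.N i.lam i.lev ^ 2 * Sched.freq i.N i.lam i.lev ^ 4) *
          Sched.freq i.N i.lam i.lev ^ a := by
  obtain ⟨C, hC0, hC⟩ := c.Φ.var_lip (L := loopOf c.R) n a b
  refine ⟨C * 3, by positivity, fun i hn τ w hτ hw x => ?_⟩
  subst hn
  have hA := (Sched.amp_pos (N := i.N) (s := (i.lev : ℕ)) i.one_le).le
  have hF := Sched.one_le_freq (N := i.N) (s := (i.lev : ℕ)) i.one_le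
  have hl : 0 ≤ i.lam := zero_le_one.trans i.one_le
  have hact : ∀ j, i.M j ≤ Sched.mult i.N i.lam i.lev ∨
      i.put 0 j = 0 ∧ i.put τ j = 0 ∧ i.dir w j = 0 := fun j => by
    rcases i.active τ w j with h | h
    · exact Or.inl h
    · rcases i.active 0 w j with h' | h'
      exacts [Or.inl h', Or.inr ⟨h'.1, h⟩]
  refine (hC i.M i.ε _ _ _ _ i.lam i.one_le_M i.ε_nonneg i.ε_mul
    ((norm_put i (by simp)).trans (by norm_num))
    ((norm_put i hτ).trans (by norm_num)) (top_hyp i) hact i.one_le x).trans ?_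
  have hd : ∀ (u : Fin Sched.dimP → ℝ) (r : ℝ), ‖u‖ ≤ r →
      ‖WKB.FreeData.unitMap i.M i.ε (i.dir u)‖ ≤
        Sched.amp i.N i.lam i.lev * Sched.freq i.N i.lam i.lev ^ 2 * r := fun u r hu =>
    (unit_le i _ (dir_off i u)).trans
      (mul_le_mul_of_nonneg_left ((i.norm_dir_le u).trans hu) (by positivity))
  have hk : (i.lam⁻¹) ^ c.Φ.k0 ≤ 1 := pow_le_one₀ (inv_nonneg.2 hl)
    (inv_le_one_of_one_le₀ i.one_le)
  rw [put_sub]
  refine (mul_le_of_le_one_right (by positivity) hk).trans ?_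
  refine (mul_le_mul_of_nonneg_right (mul_le_mul (mul_le_mul_of_nonneg_left (hd τ 3 hτ) hC0)
    (hd w 1 hw) (norm_nonneg _) (by positivity)) (by positivity)).trans_eq ?_
  simp only [Sched.freq]
  ring

/-- The change of the map along the block. -/
theorem diff_jet (n a b : ℕ) : ∃ C, 0 ≤ C ∧ ∀ {thr : ℕ → ℕ → ℝ} (i : Sched.State thr), i.n = n →
    ∀ τ : Fin Sched.dimP → ℝ, ‖τ‖ ≤ 3 → ∀ x,
      ‖Generic.pd a b (fun y => c.mapAt i (i.put τ) y - c.mapAt i (i.put 0) y) x‖ ≤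
        C * Sched.amp i.N i.lam i.lev * Sched.freq i.N i.lam i.lev ^ a := by
  obtain ⟨C, hC0, hC⟩ := c.Φ.diff_bound (L := loopOf c.R) n a b
  refine ⟨C * (3 * Fintype.card Sched.Idx), by positivity, fun i hn τ hτ x => ?_⟩
  subst hn
  have hA := (Sched.amp_pos (N := i.N) (s := (i.lev : ℕ)) i.one_le).le
  have hl : 0 ≤ i.lam := zero_le_one.trans i.one_le
  obtain ⟨k, hk⟩ : ∃ k : WKB.FreeData.Ix Sched.Idx, k = WKB.FreeData.ixOf (M := i.M) (eps := i.ε)
      (Sched.mult i.N i.lam i.lev) i.one_le_M i.ε_nonneg i.ε_mul (top_hyp i) (i.put 0) (i.put τ)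
      ((norm_put i (by simp)).trans (by norm_num)) ((norm_put i hτ).trans (by norm_num)) :=
    ⟨_, rfl⟩
  have e : ∀ σ : Fin Sched.dimP → ℝ, c.mapAt i (i.put σ) =
      c.Φ.H (loopOf c.R) i.n i.lam k.M k.eps (i.put σ) := fun σ => by
    rw [hk]
    exact c.Φ.H_silent (WKB.FreeData.silent_top _ fun j =>
      (i.active σ 0 j).imp id fun h => h.1) i.n i.lam
  have e0 : k.τ = i.put 0 := by rw [hk]; rfl
  have e1 : k.τ' = i.put τ := by rw [hk]; rfl
  have hg : WKB.FreeData.gap k ≤ 3 * Fintype.card Sched.Idx * (i.lam ^ 2 * Sched.amp i.N i.lam i.lev) := by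
    have hsum : WKB.FreeData.gap k = ∑ j, i.ε j / i.M j * |i.dir τ j| := by
      rw [WKB.FreeData.gap, hk]
      refine Finset.sum_congr rfl fun j _ => ?_
      simp only [WKB.FreeData.ixOf, ← put_sub i τ, Pi.sub_apply]
      rcases i.active τ τ j with h | h
      · rw [min_eq_left h]
      · rcases i.active 0 τ j with h' | h'
        · rw [min_eq_left h']
        · rw [h.1, h'.1, sub_zero, abs_zero, mul_zero, mul_zero]
    rw [hsum]
    refine (weight_le i _ (dir_off i τ)).trans ((mul_le_mul_of_nonneg_left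
      ((i.norm_dir_le τ).trans hτ) (by positivity)).trans_eq (by ring))
  rw [e τ, e 0, ← e0, ← e1]
  refine (hC k i.lam i.one_le x).trans ?_
  have ht : (k.top : ℝ) = Sched.mult i.N i.lam i.lev := by rw [hk]; rfl
  rw [ht]
  refine (mul_le_mul_of_nonneg_right (mul_le_mul_of_nonneg_right
    (mul_le_mul_of_nonneg_left hg hC0) (pow_nonneg (mul_nonneg (Nat.cast_nonneg _) hl) _))
    (by positivity)).trans_eq ?_
  calc C * (3 * Fintype.card Sched.Idx * (i.lam ^ 2 * Sched.amp i.N i.lam i.lev)) *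
        ((Sched.mult i.N i.lam i.lev : ℕ) * i.lam) ^ a * (i.lam⁻¹) ^ c.Φ.k0
      = C * (3 * Fintype.card Sched.Idx) * Sched.amp i.N i.lam i.lev *
        ((Sched.mult i.N i.lam i.lev : ℕ) * i.lam) ^ a * ((i.lam⁻¹) ^ c.Φ.k0 * i.lam ^ 2) := by ring
    _ = _ := by rw [c.inv_lam_sq i, mul_one]; rfl

/-- The directions of the block from the modes. -/
def dirL : (Mode → ℝ) →ₗ[ℝ] (Sched.Idx → ℝ) where
  toFun w j := if j.1 = i.lev then w j.2 else 0
  map_add' u v := funext fun j => by by_cases h : j.1 = i.lev <;> simp [h]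
  map_smul' r u := funext fun j => by by_cases h : j.1 = i.lev <;> simp [h]

lemma dirL_apply (w : Mode → ℝ) (j : Sched.Idx) :
    dirL i w j = if j.1 = i.lev then w j.2 else 0 := rfl

lemma dirL_eq (w : Mode → ℝ) :
    dirL i w = i.dir fun k => w ((Fintype.equivFin Mode).symm k) := funext fun j => by
  simp [dirL_apply, Sched.State.dir]

lemma lam_le_mult (hN : 1 ≤ i.N) (s : ℕ) : i.lam ≤ Sched.mult i.N i.lam s := by
  refine (Nat.le_ceil i.lam).trans ?_
  rw [Sched.mult, Nat.cast_pow]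
  refine le_self_pow₀ (by exact_mod_cast Nat.ceil_pos.2 (by linarith [i.two_le])) ?_
  have h1 : 1 ≤ Sched.bigExp i.N s := Sched.bigExp_mono i.N (Nat.zero_le s)
  exact Nat.mul_ne_zero (by omega) (by omega)

/-- The variation of `F_x` is near its leading term. -/
theorem lead_jet (n a b : ℕ) : ∃ C, 0 ≤ C ∧ ∀ {thr : ℕ → ℕ → ℝ} (i : Sched.State thr), i.n = n →
    1 ≤ i.N → ∀ w : Mode → ℝ, ‖w‖ ≤ 1 → ∀ x,
      ‖Generic.pd a b (fun y => Generic.dx (c.varAt i (i.put 0) (dirL i w)) y -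
          i.lam⁻¹ • c.Φ.mainW (loopOf c.R) i.M i.ε (dirL i w) (y, i.lam * y.1)) x‖ ≤
        C * (Sched.amp i.N i.lam i.lev * Sched.freq i.N i.lam i.lev / i.lam) *
          Sched.freq i.N i.lam i.lev ^ a := by
  by_cases hn0 : c.Φ.k0 ≤ n + 1
  swap
  · refine ⟨0, le_rfl, fun i hn hN w hw x => absurd ?_ hn0⟩
    have := i.n_ge
    simp only [Sched.minOrder] at this
    rw [c.k0_eq]
    omega
  obtain ⟨C, hC0, hC⟩ := c.Φ.lead_bound (L := loopOf c.R) n a b c.k0_eq.ge hn0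
  refine ⟨C * (2 * Fintype.card Sched.Idx), by positivity, fun i hn hN w hw x => ?_⟩
  subst hn
  have hA := (Sched.amp_pos (N := i.N) (s := (i.lev : ℕ)) i.one_le).le
  have hl : 0 < i.lam := by linarith [i.two_le]
  have hdir := dirL_eq i w
  have hwn : ‖dirL i w‖ ≤ 1 := (pi_norm_le_iff_of_nonneg zero_le_one).2 fun j => by
    rw [dirL_apply]
    split_ifs
    · exact (norm_le_pi_norm w j.2).trans hw
    · simp
  have h := hC i.M i.ε (i.put 0) (dirL i w) _ i.lam i.one_le_M i.ε_nonneg i.ε_mul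
    ((norm_put i (by simp)).trans (by norm_num)) hwn (top_hyp i)
    (hdir ▸ i.active 0 _) i.one_le x
  rw [show c.Φ.k0 - 1 = 1 by rw [c.k0_eq], pow_one] at h
  refine le_trans h ?_
  have h1 : ∑ j, i.ε j / i.M j * |dirL i w j| ≤
      Fintype.card Sched.Idx * (i.lam ^ 2 * Sched.amp i.N i.lam i.lev) :=
    (weight_le i _ fun j hj => by simp [dirL_apply, hj]).trans
      (mul_le_of_le_one_right (by positivity) hwn)
  have hm := lam_le_mult i hN i.lev
  have hS : 0 ≤ ∑ j, i.ε j / i.M j * |dirL i w j| :=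
    Finset.sum_nonneg fun j _ => by have := i.ε_nonneg j; positivity
  refine (mul_le_mul_of_nonneg_right (mul_le_mul_of_nonneg_right
    (mul_le_mul_of_nonneg_left (mul_le_mul h1 (show (Sched.mult i.N i.lam i.lev : ℝ) + i.lam ≤
      2 * Sched.mult i.N i.lam i.lev by linarith) (by positivity) (by positivity)) hC0)
      (pow_nonneg (mul_nonneg (Nat.cast_nonneg _) hl.le) _)) (by positivity)).trans_eq ?_
  rw [c.k0_eq, Sched.freq]
  field_simp

end RoundCell

end

end Vale.Agent.P205.Bridge
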