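import Vale.Agent.P205.Generic.PrescCore
import Vale.Agent.P205.Generic.Prescribe
import Vale.Agent.P205.Full.WKB.BaseLow

/-!
# P205: the pairing of the second normal with the free normal along round two

For each order of truncation the second normal of the approximant and its pairing with the free
normal have bounded transversal jets, and near the loop the pairing is bounded below; the modes
have jets of the size of the powers of their frequency.
-/

namespace Vale.Agent.P205.Bridge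

open scoped ContDiff RealInnerProductSpace
open Set Correction Profile
open Vale.Agent.P205.Algebra
open Vale.Agent.P205.Generic (one)

noncomputable section

set_option maxSynthPendingDepth 3

section Modes

open Generic (Mode mode pd)

/-- Jets of a product of a function of the second and one of the first coordinate. -/
lemma pd_product {P ψ : ℝ → ℝ} (hP : ContDiff ℝ ∞ P) (hψ : ContDiff ℝ ∞ ψ) (a b : ℕ) (x : R2) :
    pd a b (fun q : R2 => P q.2 * ψ q.1) x = iteratedDeriv b P x.2 * iteratedDeriv a ψ x.1 := by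
  rw [Generic.pd_slice (f := fun q : R2 => P q.2 * ψ q.1) isOpen_univ
    ((hP.comp contDiff_snd).mul (hψ.comp contDiff_fst)).contDiffOn a b (mem_univ x)]
  simp only [iteratedDeriv_const_mul_field, iteratedDeriv_mul_const_field]

/-- Jets of a function frozen in the first coordinate. -/
lemma pd_frozen {h : R2 → ℝ} (hh : ContDiff ℝ ∞ h) (a b : ℕ) (x : R2) :
    pd a b (fun q => h (x.1, q.2)) x = if a = 0 then pd 0 b h x else 0 := by
  rw [Generic.pd_slice (f := fun q : R2 => h (x.1, q.2)) isOpen_univ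
    (hh.comp (contDiff_const.prodMk contDiff_snd)).contDiffOn a b (mem_univ x)]
  split_ifs with ha
  · subst ha
    rw [Generic.pd_slice isOpen_univ hh.contDiffOn 0 b (mem_univ x)]
    simp
  · simp [iteratedDeriv_const, ha]

/-- The jets of the modes. -/
lemma mode_bound : ∃ K, 0 ≤ K ∧ ∀ (w : Mode → ℝ) (ν : ℝ), 0 ≤ ν → ∀ a b, a ≤ 8 → b ≤ 2 →
    ∀ x : R2, |x.2| ≤ 1 →
      |pd a b (fun y => ∑ k, w k * mode k (y.2, ν * y.1)) x| ≤ K * ν ^ a * ‖w‖ := by
  refine ⟨Fintype.card Mode * (2 * (2 * Real.pi * 5) ^ 8), by positivity,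
    fun w ν hν a b ha hb x hx => ?_⟩
  have hterm : ∀ k : Mode, ContDiff ℝ ∞ fun y : R2 => w k * mode k (y.2, ν * y.1) := fun k =>
    contDiff_const.mul ((Generic.contDiff_mode k).comp
      (contDiff_snd.prodMk (contDiff_const.mul contDiff_fst)))
  rw [show (fun y : R2 => ∑ k, w k * mode k (y.2, ν * y.1)) =
    fun y => ∑ k ∈ (Finset.univ : Finset Mode), w k * mode k (y.2, ν * y.1) from rfl,
    WKB.pd_sum Finset.univ (fun k _ => hterm k)]
  refine (Finset.abs_sum_le_sum_abs _ _).trans ?_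
  refine (Finset.sum_le_card_nsmul _ _ (2 * (2 * Real.pi * 5) ^ 8 * ν ^ a * ‖w‖)
    fun k _ => ?_).trans_eq (by rw [Finset.card_univ, nsmul_eq_mul]; ring)
  rw [Generic.pd_const_mul (f := fun y : R2 => mode k (y.2, ν * y.1)) isOpen_univ
      ((Generic.contDiff_mode k).comp
      (contDiff_snd.prodMk (contDiff_const.mul contDiff_fst))).contDiffOn (w k) a b (mem_univ x),
    abs_mul, mul_comm _ ‖w‖]
  refine mul_le_mul (norm_le_pi_norm w k) ?_ (abs_nonneg _) (norm_nonneg _)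
  obtain ⟨ψ, hψ⟩ : ∃ ψ : ℝ → ℝ, ψ = fun t => if k.2.2 = 0 then Real.cos t else Real.sin t :=
    ⟨_, rfl⟩
  have hψb : ContDiff ℝ ∞ ψ ∧ ∀ n t, |iteratedDeriv n ψ t| ≤ 1 := by
    rw [hψ]
    split_ifs
    · exact ⟨Real.contDiff_cos, fun n t => Real.abs_iteratedDeriv_cos_le_one n t⟩
    · exact ⟨Real.contDiff_sin, fun n t => Real.abs_iteratedDeriv_sin_le_one n t⟩
  obtain ⟨r, hr⟩ : ∃ r : ℝ, r = 2 * Real.pi * ((k.2.1 : ℕ) + 1) * ν := ⟨_, rfl⟩
  have e : (fun y : R2 => mode k (y.2, ν * y.1)) =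
      fun y => y.2 ^ (k.1 : ℕ) * ψ (r * y.1) := funext fun y => by
    simp only [mode, hψ, hr, mul_assoc]
  rw [e, pd_product (P := fun t => t ^ (k.1 : ℕ)) (ψ := fun t => ψ (r * t))
    (contDiff_id.pow _) (hψb.1.comp (contDiff_const.mul contDiff_id)),
    iteratedDeriv_comp_const_mul (hψb.1.of_le (by exact_mod_cast le_top)), abs_mul]
  beta_reduce
  have hP : |iteratedDeriv b (fun t : ℝ => t ^ (k.1 : ℕ)) x.2| ≤ 2 := by
    have hk : (k.1 : ℕ) ≤ 2 := Nat.le_of_lt_succ k.1.isLt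
    rw [iteratedDeriv_pow]
    interval_cases (k.1 : ℕ) <;> interval_cases b <;>
      simp [Nat.descFactorial] <;> nlinarith [abs_nonneg x.2, sq_abs x.2]
  have hpi : 0 ≤ 2 * Real.pi * ((k.2.1 : ℕ) + 1) := by positivity
  have h5 : 2 * Real.pi * ((k.2.1 : ℕ) + 1) ≤ 2 * Real.pi * 5 := by
    have : ((k.2.1 : ℕ) : ℝ) + 1 ≤ 5 := by exact_mod_cast k.2.1.isLt
    exact mul_le_mul_of_nonneg_left this (by positivity)
  have h1 : (1 : ℝ) ≤ 2 * Real.pi * 5 := by linarith [Real.pi_gt_three]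
  rw [show 2 * (2 * Real.pi * 5) ^ 8 * ν ^ a = 2 * ((2 * Real.pi * 5) ^ 8 * ν ^ a) by ring]
  refine mul_le_mul hP ?_ (abs_nonneg _) zero_le_two
  beta_reduce
  rw [abs_mul, abs_pow, hr, abs_of_nonneg (mul_nonneg hpi hν)]
  refine (mul_le_of_le_one_right (pow_nonneg (mul_nonneg hpi hν) a) (hψb.2 a _)).trans ?_
  rw [mul_pow]
  exact mul_le_mul_of_nonneg_right ((pow_le_pow_left₀ hpi h5 a).trans (pow_le_pow_right₀ h1 ha))
    (pow_nonneg hν a)

end Modes

/-- The cross product in the last vector. -/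
def crossZ (x y : V4) : V4 →L[ℝ] V4 :=
  LinearMap.toContinuousLinearMap
    { toFun := fun z => cross4 x y z
      map_add' := fun u v => by ext i; fin_cases i <;> simp [cross4] <;> ring
      map_smul' := fun (r : ℝ) u => by ext i; fin_cases i <;> simp [cross4] <;> ring }

lemma crossZ_apply (x y z : V4) : crossZ x y z = cross4 x y z := rfl

/-- The cross product in the last two vectors. -/
def crossY (x : V4) : V4 →L[ℝ] (V4 →L[ℝ] V4) :=
  LinearMap.toContinuousLinearMap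
    { toFun := fun y => crossZ x y
      map_add' := fun u v => by
        ext z i; fin_cases i <;> simp [crossZ_apply, cross4] <;> ring
      map_smul' := fun (r : ℝ) u => by
        ext z i; fin_cases i <;> simp [crossZ_apply, cross4] <;> ring }

lemma crossY_apply (x y z : V4) : crossY x y z = cross4 x y z := rfl

/-- The cross product as a bilinear map into linear maps. -/
def crossL : V4 →L[ℝ] V4 →L[ℝ] (V4 →L[ℝ] V4) :=
  LinearMap.toContinuousLinearMap
    { toFun := fun x => crossY x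
      map_add' := fun u v => by
        ext y z i; fin_cases i <;> simp [crossY_apply, cross4] <;> ring
      map_smul' := fun (r : ℝ) u => by
        ext y z i; fin_cases i <;> simp [crossY_apply, cross4] <;> ring }

lemma crossL_apply (x y z : V4) : crossL x y z = cross4 x y z := rfl

lemma n1_one (F : R2 → V4) (p : R2) :
    Algebra.n1 one F p = cross4 (dx F p) (dy F p) (F22 F p) := by
  rw [Algebra.n1, n0, v1, v2]
  obtain ⟨X, Y, Z, s, t, r, hX, hY, hZ, hs, ht, hr⟩ : ∃ (X Y Z : V4) (s t r : ℝ), X = dx F p ∧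
      Y = dy F p ∧ Z = F22 F p ∧ s = ⟪F22 F p, dx F p⟫ ∧ t = ⟪F22 F p, dy F p⟫ ∧
      r = rinv one (detg F) p := ⟨_, _, _, _, _, _, rfl, rfl, rfl, rfl, rfl, rfl⟩
  simp only [← hr, ← hs, ← ht, ← hX, ← hY, ← hZ]
  ext i
  fin_cases i <;> simp [cross4] <;> ring

/-- Bounded factors give a bounded cross product. -/
lemma pd_cross_le {u v w : R2 → V4} (hu : ContDiff ℝ ∞ u) (hv : ContDiff ℝ ∞ v)
    (hw : ContDiff ℝ ∞ w) (x : R2) {C : ℝ} (hC : 0 ≤ C) {b : ℕ} (hb : b ≤ 2)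
    (h : ∀ d ≤ b, ‖Generic.pd 0 d u x‖ ≤ C ∧ ‖Generic.pd 0 d v x‖ ≤ C ∧
      ‖Generic.pd 0 d w x‖ ≤ C) :
    ‖Generic.pd 0 b (fun q => cross4 (u q) (v q) (w q)) x‖ ≤
      4 * (‖ContinuousLinearMap.id ℝ (V4 →L[ℝ] V4)‖ * (4 * (‖crossL‖ * (C * C)) * C)) := by
  have huv : ContDiff ℝ ∞ fun q => crossL (u q) (v q) :=
    (crossL.contDiff.comp hu).clm_apply hv
  have h4 : ∀ d, d ≤ b → (2 : ℝ) ^ (0 + d) ≤ 4 := fun d hd => by
    calc (2 : ℝ) ^ (0 + d) ≤ 2 ^ 2 := pow_le_pow_right₀ one_le_two (by omega)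
      _ = 4 := by norm_num
  have h1 : ∀ d ≤ b, ‖Generic.pd 0 d (fun q => crossL (u q) (v q)) x‖ ≤
      4 * (‖crossL‖ * (C * C)) := fun d hd =>
    (Generic.pd_bilin_le crossL isOpen_univ (mem_univ x) hu.contDiffOn hv.contDiffOn 0 d
      fun c e hc he => by
        obtain rfl : c = 0 := Nat.le_zero.1 hc
        exact mul_le_mul (h e (he.trans hd)).1 (h (d - e) (by omega)).2.1 (norm_nonneg _) hC).trans
      (mul_le_mul_of_nonneg_right (h4 d hd) (by positivity))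
  exact (Generic.pd_bilin_le (ContinuousLinearMap.id ℝ (V4 →L[ℝ] V4)) isOpen_univ (mem_univ x)
      huv.contDiffOn hw.contDiffOn 0 b fun c e hc he => by
        obtain rfl : c = 0 := Nat.le_zero.1 hc
        exact mul_le_mul (h1 e he) (h (b - e) (by omega)).2.2 (norm_nonneg _) (by positivity)).trans
      (mul_le_mul_of_nonneg_right (h4 b le_rfl) (by positivity))

variable (R : WKB.Round) {κ : Type} [Fintype κ] (Φ : WKB.FreeData R.D κ)

/-- The loop of the step. -/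
abbrev loopOf : WKB.LoopData R.D := R.spin.loop

/-- The pairing of the normal of the approximant with the free normal. -/
def pairing (n : ℕ) (lam : ℝ) (M : κ → ℕ) (eps τ : κ → ℝ) (y : R2) : ℝ :=
  ⟪Algebra.n1 one (Φ.H (loopOf R) n lam M eps τ) y, WKB.along (loopOf R).e lam y⟫

lemma contDiff_pairing (n : ℕ) (lam : ℝ) {M : κ → ℕ} (hM : ∀ j, 1 ≤ M j) (eps τ : κ → ℝ) :
    ContDiff ℝ ∞ (pairing R Φ n lam M eps τ) := by
  obtain ⟨F, hF⟩ : ∃ F, F = Φ.H (loopOf R) n lam M eps τ := ⟨_, rfl⟩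
  have hFs : ContDiff ℝ ∞ F := hF ▸ Φ.contDiff_slice_H n lam hM eps τ
  have hd : ∀ (g : R2 → V4) (v : R2), ContDiff ℝ ∞ g → ContDiff ℝ ∞ fun p => fderiv ℝ g p v :=
    fun g v hg => (hg.fderiv_right (m := ∞) le_rfl).clm_apply contDiff_const
  have hn : ContDiff ℝ ∞ (Algebra.n1 one F) := by
    rw [funext (n1_one F)]
    exact ((crossL.contDiff.comp (hd F (1, 0) hFs)).clm_apply (hd F (0, 1) hFs)).clm_apply
      (hd _ (0, 1) (hd F (0, 1) hFs))
  exact (hF ▸ hn).inner ℝ (WKB.contDiff_along (loopOf R).e_prof.1 lam)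

/-- Bounded transversal jets, and the lower bound near the loop. -/
theorem pairing_low [DecidableEq κ] {S : Set R2} (hS : IsCompact S) (hSK : S ⊆ R.D.K) (n : ℕ) : ∃ B : ℝ, 2 ≤ B ∧
    ∀ (M : κ → ℕ) (eps τ : κ → ℝ) (lam : ℝ), (∀ j, 1 ≤ M j) → (∀ j, 0 ≤ eps j) →
      (∀ j, eps j * M j ≤ 1) → ‖τ‖ ≤ 8 → 1 ≤ lam → ∀ x : R2,
      (∀ d ≤ 2, ‖Generic.pd 0 d (Algebra.n1 one (Φ.H (loopOf R) n lam M eps τ)) x‖ ≤ B ∧
        |Generic.pd 0 d (pairing R Φ n lam M eps τ) x| ≤ B) ∧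
      (x ∈ S → B * (lam⁻¹ + ∑ j, eps j) ≤ 1 → 1 ≤ B * |pairing R Φ n lam M eps τ x|) := by
  classical
  obtain ⟨L, hL⟩ : ∃ L : WKB.LoopData R.D, L = (loopOf R) := ⟨_, rfl⟩
  have hfix : ∀ {P : WKB.R3 → V4}, IsProfile P → ∀ d, ∃ C, 0 ≤ C ∧ ∀ lam : ℝ, 1 ≤ lam → ∀ x,
      ‖Generic.pd 0 d (WKB.along P lam) x‖ ≤ C := fun {P} hP d => by
    obtain ⟨C, hC0, hC⟩ := (WKB.Fam.fixed (m := fun _ : Unit => (1 : ℝ)) (fun _ => le_rfl)
      hP).osc_pd (fun _ => le_rfl) 0 d
    exact ⟨C, hC0, fun lam hl x => (hC () lam hl x).trans_eq (by simp)⟩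
  choose Ce hCe0 hCe using hfix L.e_prof
  choose CX hCX0 hCX using hfix L.isProfile_X0
  choose Cz hCz0 hCz using fun d => WKB.zero_near (L := L) n 0 d
  choose Cs hCs0 hCs using fun d => Φ.sub_zero_bound (L := L) n 1 d
  choose Cb hCb0 hCb using fun d => Φ.base_bound (L := L) n 0 d
  obtain ⟨Cl, hCl0, hCl⟩ := Φ.close_loop (L := L) n
  obtain ⟨c, hc, hcS⟩ := WKB.pair_pos R hS hSK fun p hp => R.indep p
    (subset_tsupport _ (by simp [R.η_one p (hSK hp)]))
  obtain ⟨m, hm⟩ : ∃ m : ℝ, m = 1 + (Fintype.card κ : ℝ) := ⟨_, rfl⟩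
  obtain ⟨C, hCdef⟩ : ∃ C, C = ∑ d ∈ Finset.range 5,
      (CX d + Cz d + Cs d * m + Cb d * (2 * m) + Cl * m + Ce d) := ⟨_, rfl⟩
  have hm0 : 0 ≤ m := by rw [hm]; positivity
  have hC0 : 0 ≤ C := hCdef ▸ Finset.sum_nonneg fun d _ => by
    have := hCe0 d; have := hCX0 d; have := hCz0 d; have := hCs0 d; have := hCb0 d
    positivity
  have hCd : ∀ d ≤ 4, CX d + Cz d + Cs d * m + Cb d * (2 * m) + Cl * m + Ce d ≤ C := fun d hd =>
    hCdef ▸ Finset.single_le_sum
      (f := fun d => CX d + Cz d + Cs d * m + Cb d * (2 * m) + Cl * m + Ce d) (fun d _ => by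
      have := hCe0 d; have := hCX0 d; have := hCz0 d; have := hCs0 d; have := hCb0 d
      positivity) (Finset.mem_range.2 (by omega))
  obtain ⟨G, hG⟩ : ∃ G, G = 4 * (‖ContinuousLinearMap.id ℝ (V4 →L[ℝ] V4)‖ *
      (4 * (‖crossL‖ * (C * C)) * C)) := ⟨_, rfl⟩
  have hG0 : 0 ≤ G := by rw [hG]; positivity
  obtain ⟨D, hD⟩ : ∃ D, D = 3 * (‖crossL‖ * (Cl * (2 * C) * (2 * C))) * C := ⟨_, rfl⟩
  have hD0 : 0 ≤ D := by rw [hD]; positivity
  refine ⟨2 + G + 4 * (‖(innerSL ℝ : V4 →L[ℝ] V4 →L[ℝ] ℝ)‖ * (G * C)) + (2 * D + 2) / c,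
    ?_, fun M eps τ lam hM he heM hτ hlam x => ?_⟩
  · have h1 : 0 ≤ 4 * (‖(innerSL ℝ : V4 →L[ℝ] V4 →L[ℝ] ℝ)‖ * (G * C)) := by positivity
    have h2 : 0 ≤ (2 * D + 2) / c := div_nonneg (by positivity) hc.le
    linarith
  obtain ⟨B1, hB1⟩ : ∃ B1, B1 = 2 + G + 4 * (‖(innerSL ℝ : V4 →L[ℝ] V4 →L[ℝ] ℝ)‖ * (G * C)) :=
    ⟨_, rfl⟩
  rw [← hB1]
  have hB1' : 2 ≤ B1 ∧ G ≤ B1 ∧ 4 * (‖(innerSL ℝ : V4 →L[ℝ] V4 →L[ℝ] ℝ)‖ * (G * C)) ≤ B1 := by
    have : 0 ≤ 4 * (‖(innerSL ℝ : V4 →L[ℝ] V4 →L[ℝ] ℝ)‖ * (G * C)) := by positivity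
    exact ⟨by linarith, by linarith, by linarith⟩
  have hdc : 0 ≤ (2 * D + 2) / c := div_nonneg (by positivity) hc.le
  -- the map and its pieces
  obtain ⟨F, hF⟩ : ∃ F, F = Φ.H L n lam M eps τ := ⟨_, rfl⟩
  obtain ⟨Z, hZ⟩ : ∃ Z, Z = WKB.approx L (fun _ _ => 0) n lam := ⟨_, rfl⟩
  have hFs : ContDiff ℝ ∞ F := hF ▸ Φ.contDiff_slice_H n lam hM eps τ
  have hZs : ContDiff ℝ ∞ Z := by
    rw [hZ, ← Φ.H_zero n lam M eps]; exact Φ.contDiff_slice_H n lam hM eps 0
  have hd : ∀ (g : R2 → V4) (v : R2), ContDiff ℝ ∞ g → ContDiff ℝ ∞ fun p => fderiv ℝ g p v :=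
    fun g v hg => (hg.fderiv_right (m := ∞) le_rfl).clm_apply contDiff_const
  have hsum : ∀ a ≤ 1, ∑ j, eps j / M j * (M j * lam) ^ a * (lam⁻¹) ^ Φ.k0 ≤ m := fun a ha => by
    refine (Finset.sum_le_card_nsmul _ _ 1 fun j _ => ?_).trans (by simp [hm])
    have hMj : (1 : ℝ) ≤ M j := by exact_mod_cast hM j
    have he1 : eps j ≤ 1 := le_trans (le_mul_of_one_le_right (he j) hMj) (heM j)
    have hk : (lam⁻¹) ^ Φ.k0 ≤ lam⁻¹ := pow_le_of_le_one (inv_nonneg.2 (by linarith))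
      (inv_le_one_of_one_le₀ hlam) (by have := Φ.one_le; omega)
    have := he j
    interval_cases a
    · rw [pow_zero, mul_one]
      exact mul_le_one₀ ((div_le_self (he j) hMj).trans he1) (by positivity)
        (hk.trans (inv_le_one_of_one_le₀ hlam))
    · rw [pow_one]
      refine (mul_le_mul_of_nonneg_left hk (by positivity)).trans (le_trans (le_of_eq ?_) he1)
      field_simp
  have hesum : lam⁻¹ + ∑ j, eps j ≤ m := by
    have h2 : ∑ j, eps j ≤ (Fintype.card κ : ℝ) := by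
      refine (Finset.sum_le_card_nsmul _ _ 1 fun j _ => ?_).trans (by simp)
      exact le_trans (le_mul_of_one_le_right (he j) (by exact_mod_cast hM j)) (heM j)
    rw [hm]; exact add_le_add (inv_le_one_of_one_le₀ hlam) h2
  have hi0 : 0 ≤ lam⁻¹ + ∑ j, eps j :=
    add_nonneg (inv_nonneg.2 (by linarith)) (Finset.sum_nonneg fun j _ => he j)
  have hdy : ∀ d ≤ 4, ‖Generic.pd 0 d F x‖ ≤ C := fun d hd4 => by
    refine le_trans ?_ (hCd d hd4)
    refine (hF ▸ hCb d M eps τ lam hM he heM hτ hlam x).trans ?_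
    have hm1 : 1 ≤ m := by rw [hm]; simp
    have h0 := hsum 0 zero_le_one
    have := hCX0 d; have := hCz0 d; have := hCe0 d; have := mul_nonneg (hCs0 d) hm0
    have := mul_nonneg hCl0 hm0
    rw [pow_zero]
    have := mul_le_mul_of_nonneg_left (add_le_add hm1 h0) (hCb0 d)
    linarith
  have hdx : ∀ d ≤ 2, ‖Generic.pd 0 d (dx F) x‖ ≤ C := fun d hd2 => by
    have h1 : ‖Generic.pd 1 d (fun y => F y - Z y) x‖ ≤ Cs d * m :=
      (hF ▸ hZ ▸ hCs d M eps τ lam hM he heM hτ hlam x).trans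
        (mul_le_mul_of_nonneg_left (hsum 1 le_rfl) (hCs0 d))
    have h2 : ‖Generic.pd 0 d (fun y => dx Z y - WKB.along L.X0 lam y) x‖ ≤ Cz d := by
      refine (hZ ▸ (hCz d lam hlam x).2).trans ?_
      rw [pow_zero, mul_one]
      exact mul_le_of_le_one_right (hCz0 d) (inv_le_one_of_one_le₀ hlam)
    rw [← WKB.pd_sub_eq hFs hZs] at h1
    rw [← WKB.pd_sub_eq (f := dx Z) (hd Z (1, 0) hZs) (WKB.contDiff_along L.isProfile_X0.1 lam)]
      at h2
    have h3 := hCX d lam hlam x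
    have e : ∀ g : R2 → V4, Generic.pd 1 d g x = Generic.pd 0 d (dx g) x := fun g => rfl
    rw [e F, e Z] at h1
    refine le_trans ?_ (hCd d (by omega))
    have := mul_nonneg (hCb0 d) (mul_nonneg zero_le_two hm0); have := mul_nonneg hCl0 hm0; have := hCe0 d
    have := norm_le_norm_add_norm_sub' (Generic.pd 0 d (dx F) x) (Generic.pd 0 d (dx Z) x)
    have := norm_le_norm_add_norm_sub' (Generic.pd 0 d (dx Z) x)
      (Generic.pd 0 d (WKB.along L.X0 lam) x)
    linarith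
  have edy : ∀ d, Generic.pd 0 d (dy F) x = Generic.pd 0 (d + 1) F x := fun d =>
    Generic.pd_dy isOpen_univ hFs.contDiffOn 0 d (mem_univ x)
  have ed22 : ∀ d, Generic.pd 0 d (F22 F) x = Generic.pd 0 (d + 2) F x := fun d =>
    (Generic.pd_dy isOpen_univ (hd F (0, 1) hFs).contDiffOn 0 d (mem_univ x)).trans
      (Generic.pd_dy isOpen_univ hFs.contDiffOn 0 (d + 1) (mem_univ x))
  have hn : ∀ d ≤ 2, ‖Generic.pd 0 d (Algebra.n1 one F) x‖ ≤ G := fun d hd2 => by
    rw [funext (n1_one F), hG]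
    exact pd_cross_le (hd F (1, 0) hFs) (hd F (0, 1) hFs) (hd _ (0, 1) (hd F (0, 1) hFs)) x hC0 hd2
      fun e he2 => ⟨hdx e (he2.trans hd2), (edy e).symm ▸ hdy (e + 1) (by omega),
        (ed22 e).symm ▸ hdy (e + 2) (by omega)⟩
  have hns : ContDiff ℝ ∞ (Algebra.n1 one F) := by
    rw [funext (n1_one F)]
    exact ((crossL.contDiff.comp (hd F (1, 0) hFs)).clm_apply (hd F (0, 1) hFs)).clm_apply
      (hd _ (0, 1) (hd F (0, 1) hFs))
  subst hL
  rw [← hF]
  refine ⟨fun d hd2 => ⟨by linarith [hn d hd2], ?_⟩, fun hx hsmall => ?_⟩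
  · refine le_trans (le_trans ?_ hB1'.2.2) (le_add_of_nonneg_right hdc)
    rw [← Real.norm_eq_abs]
    show ‖Generic.pd 0 d (fun y => (innerSL ℝ : V4 →L[ℝ] V4 →L[ℝ] ℝ) (Algebra.n1 one
      (Φ.H (loopOf R) n lam M eps τ) y) (WKB.along (loopOf R).e lam y)) x‖ ≤ _
    rw [← hF]
    refine (Generic.pd_bilin_le _ isOpen_univ (mem_univ x) hns.contDiffOn
      (WKB.contDiff_along (loopOf R).e_prof.1 lam).contDiffOn 0 d fun c' e hc' he2 => ?_).trans
      (mul_le_mul_of_nonneg_right ?_ (by positivity))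
    · obtain rfl : c' = 0 := Nat.le_zero.1 hc'
      refine mul_le_mul (hn e (he2.trans hd2)) ((hCe (d - e) lam hlam x).trans ?_) (norm_nonneg _)
        hG0
      have := hCd (d - e) (by omega); have := hCX0 (d - e); have := hCz0 (d - e)
      have := mul_nonneg (hCs0 (d - e)) hm0; have := mul_nonneg (hCb0 (d - e)) (mul_nonneg zero_le_two hm0)
      have := mul_nonneg hCl0 hm0
      linarith
    · calc (2 : ℝ) ^ (0 + d) ≤ 2 ^ 2 := pow_le_pow_right₀ one_le_two (by omega)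
        _ = 4 := by norm_num
  obtain ⟨-, q1, q2, q3⟩ := hCl M eps τ lam hM he heM hτ hlam x
  rw [← hF] at q1 q2 q3
  obtain ⟨δ, hδ⟩ : ∃ δ, δ = Cl * (lam⁻¹ + ∑ j, eps j) := ⟨_, rfl⟩
  rw [← hδ] at q1 q2 q3
  have hδC : δ ≤ C := by
    refine le_trans ?_ (hCd 0 (by omega))
    rw [hδ]
    have := mul_le_mul_of_nonneg_left hesum hCl0
    have := hCe0 0; have := hCX0 0; have := hCz0 0; have := mul_nonneg (hCs0 0) hm0
    have := mul_nonneg (hCb0 0) (mul_nonneg zero_le_two hm0)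
    linarith
  have hY : ‖dy R.D.f x‖ ≤ 2 * C := by
    have : ‖dy F x‖ ≤ C := hdy 1 (by omega)
    have := norm_le_norm_add_norm_sub (dy F x) (dy R.D.f x)
    linarith
  have hA : ‖F22 R.D.f x‖ ≤ 2 * C := by
    have : ‖F22 F x‖ ≤ C := hdy 2 (by omega)
    have := norm_le_norm_add_norm_sub (F22 F x) (F22 R.D.f x)
    linarith
  have hX : ‖dx F x‖ ≤ 2 * C := by
    have e : Generic.pd 0 0 (dx F) x = dx F x := rfl
    have := hdx 0 (by norm_num)
    rw [e] at this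
    linarith
  have hY' : ‖dy F x‖ ≤ 2 * C := by
    have := hdy 1 (by omega)
    have e : Generic.pd 0 1 F x = dy F x := rfl
    rw [e] at this
    linarith
  have hδ0 : 0 ≤ δ := hδ ▸ mul_nonneg hCl0 hi0
  have hcl : ∀ u v w : V4, ‖cross4 u v w‖ ≤ ‖crossL‖ * ‖u‖ * ‖v‖ * ‖w‖ := fun u v w => by
    rw [← crossL_apply]
    exact ((crossL u v).le_opNorm w).trans
      (mul_le_mul_of_nonneg_right (crossL.le_opNorm₂ u v) (norm_nonneg _))
  obtain ⟨g, hg⟩ : ∃ g, g = cross4 ((loopOf R).X0 (x, lam * x.1)) (dy R.D.f x) (F22 R.D.f x) :=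
    ⟨_, rfl⟩
  have hdiff : ‖Algebra.n1 one F x - g‖ ≤ 3 * (‖crossL‖ * (δ * (2 * C) * (2 * C))) := by
    rw [n1_one, hg]
    set X' := (loopOf R).X0 (x, lam * x.1)
    set Y' := dy R.D.f x
    set A' := F22 R.D.f x
    have e : cross4 (dx F x) (dy F x) (F22 F x) - cross4 X' Y' A' =
        cross4 (dx F x - X') Y' A' + cross4 (dx F x) (dy F x - Y') A' +
          cross4 (dx F x) (dy F x) (F22 F x - A') := by
      simp only [← crossL_apply, map_sub, _root_.sub_apply]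
      abel
    rw [e]
    refine (norm_add₃_le).trans ?_
    have k : ∀ u v w : V4, ∀ {r s t : ℝ}, ‖u‖ ≤ r → ‖v‖ ≤ s → ‖w‖ ≤ t →
        ‖cross4 u v w‖ ≤ ‖crossL‖ * (r * s * t) := fun u v w r s t h1 h2 h3 => by
      refine (hcl u v w).trans ?_
      rw [mul_assoc, mul_assoc, ← mul_assoc ‖u‖]
      have := (norm_nonneg u).trans h1; have := (norm_nonneg v).trans h2
      gcongr
    have a1 := k _ _ _ q1 hY hA
    have a2 := k _ _ _ hX q2 hA
    have a3 := k _ _ _ hX hY' q3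
    linarith
  have he' : ‖WKB.along (loopOf R).e lam x‖ ≤ C := by
    have := hCe 0 lam hlam x
    have e : Generic.pd 0 0 (WKB.along (loopOf R).e lam) x = WKB.along (loopOf R).e lam x := rfl
    rw [e] at this
    refine this.trans ?_
    have := hCd 0 (by omega); have := hCX0 0; have := hCz0 0
    have := mul_nonneg (hCs0 0) hm0; have := mul_nonneg (hCb0 0) (mul_nonneg zero_le_two hm0)
    have := mul_nonneg hCl0 hm0
    linarith
  have hge : c ≤ ⟪g, WKB.along (loopOf R).e lam x⟫ := hg ▸ hcS x hx (lam * x.1)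
  have hip := abs_real_inner_le_norm (Algebra.n1 one F x - g) (WKB.along (loopOf R).e lam x)
  rw [inner_sub_left] at hip
  have hp : pairing R Φ n lam M eps τ x =
      ⟪Algebra.n1 one F x, WKB.along (loopOf R).e lam x⟫ := by rw [pairing, hF]
  have hsm : (B1 + (2 * D + 2) / c) * (lam⁻¹ + ∑ j, eps j) ≤ 1 := hsmall
  have hDs : D * (lam⁻¹ + ∑ j, eps j) ≤ c / 2 := by
    have h1 : (2 * D + 2) / c * (lam⁻¹ + ∑ j, eps j) ≤ 1 :=
      le_trans (mul_le_mul_of_nonneg_right (by linarith) hi0) hsm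
    rw [div_mul_eq_mul_div, div_le_one hc] at h1
    linarith
  have herr : ‖Algebra.n1 one F x - g‖ * ‖WKB.along (loopOf R).e lam x‖ ≤ c / 2 := by
    refine le_trans (mul_le_mul hdiff he' (norm_nonneg _) (by positivity)) (le_trans (le_of_eq ?_) hDs)
    rw [hD, hδ]; ring
  rw [abs_le] at hip
  have hlow : c / 2 ≤ |pairing R Φ n lam M eps τ x| := by
    rw [hp]
    exact le_trans (by linarith) (le_abs_self _)
  have hB : 1 ≤ (2 * D + 2) / c * (c / 2) := by
    field_simp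
    linarith
  exact hB.trans (mul_le_mul (by linarith) hlow (by positivity) (by linarith))

end

end Vale.Agent.P205.Bridge
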