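import Vale.Agent.P205.Generic.Margin
import Vale.Agent.P205.Full.Bridge.Approx
import Vale.Agent.P205.Full.Bridge.RoundPert

/-!
# P205: the parameters of round two

With the variations of the family small on the metric and hitting every jet, the climb chooses
parameters at which the criterion is bounded below by a fixed power of `lam⁻¹`, for every order of
truncation.
-/

namespace Vale.Agent.P205.Bridge

open scoped ContDiff
open Set
open Vale.Agent.P205.Algebra
open Vale.Agent.P205.Generic (Resp Desc one zeta)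

noncomputable section

variable {N Kg Kc : Set R2} {a : R2 → ℝ} {f : R2 → V4}

/-- Parameters with a lower bound of the criterion. -/
theorem RoundCell.exists_params (c : RoundCell N Kg Kc a f 2 13)
    (hresp : ∃ T : ℕ → ℝ, ∀ thr : ℕ → ℕ → ℝ, (∀ N n, T n ≤ thr N n) →
      Resp (c.pert thr).vscale (c.pert thr).var ∧ (c.pert thr).Regular ∧
        ∀ G : Sched.State thr → Set R2, (∀ i, G i ⊆ Kg) → ∃ L, (c.pert thr).Thick G L)
    (hpresc : ∃ T : ℕ → ℝ, ∀ thr : ℕ → ℕ → ℝ, (∀ N n, T n ≤ thr N n) →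
      Resp (c.pert thr).vscale (c.pert thr).var → ∃ N₀, (c.pert thr).Presc
        (zeta (c.pert thr).var) fun i => {x ∈ Kg | N₀ ≤ i.N}) :
    ∃ (K q : ℕ) (T : ℕ → ℝ), ∀ n, Sched.minOrder K ≤ n → ∀ lam, 2 ≤ lam → T n ≤ lam →
      ∃ τ : Sched.Idx → ℝ, ‖τ‖ ≤ 1 ∧ ∀ x ∈ Kg, (lam ^ q)⁻¹ ≤ criterion one
        (c.fam n lam (fun j => Sched.mult K lam j.1) (fun j => Sched.eps K lam j.1) τ) x := by
  obtain ⟨T₁, h₁⟩ := hresp
  obtain ⟨T₂, h₂⟩ := hpresc
  set thr : ℕ → ℕ → ℝ := fun _ n => max (T₁ n) (T₂ n) with hthr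
  obtain ⟨hR, hReg, hT⟩ := h₁ thr fun _ n => le_max_left _ _
  obtain ⟨N₀, hP⟩ := h₂ thr (fun _ n => le_max_right _ _) hR
  set G : Sched.State thr → Set R2 := fun i => {x ∈ Kg | N₀ ≤ i.N} with hG
  obtain ⟨Kx, hKx⟩ := hR.exists_margin (hT G fun i x hx => hx.1) hP
    (Sched.climb G fun i σ x hx => ⟨hx.1, by rw [(i.next_fields σ).1]; exact hx.2⟩) hReg
  refine ⟨max Kx N₀, 2 * Sched.bigExp (max Kx N₀) 12 * Kx, fun n => max (T₁ n) (T₂ n),
    fun n hn lam h2 hlam => ?_⟩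
  obtain ⟨i', hd, hl, hx⟩ := hKx (Sched.State.start (thr := thr) (max Kx N₀) n lam hn hlam h2) rfl
    (le_max_left _ _)
  obtain ⟨eN, en, el⟩ := Sched.State.desc_fields hd
  refine ⟨i'.prev, i'.prev_le, fun x hxK => ?_⟩
  have h : 1 ≤ Sched.bigs i'.N i'.lam i'.lev ^ Kx *
      criterion one (c.fam i'.n i'.lam i'.M i'.ε (i'.put 0)) x := hx x ⟨hxK, le_max_right _ _⟩
  rw [Sched.State.put_zero, en,
    show i'.M = fun j => Sched.mult i'.N i'.lam j.1 from rfl,
    show i'.ε = fun j => Sched.eps i'.N i'.lam j.1 from rfl, eN, el] at h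
  simp only [Sched.State.start] at h
  have hb : Sched.bigs (max Kx N₀) lam i'.lev ^ Kx ≤ lam ^ (2 * Sched.bigExp (max Kx N₀) 12 * Kx) := by
    rw [pow_mul]
    exact pow_le_pow_left₀ (zero_le_one.trans (Sched.one_le_bigs (by linarith)))
      (Sched.bigs_le_pow h2 (le_of_eq hl)) _
  have h0 : 0 ≤ criterion one (c.fam n lam (fun j => Sched.mult (max Kx N₀) lam j.1)
      (fun j => Sched.eps (max Kx N₀) lam j.1) i'.prev) x :=
    add_nonneg (sq_nonneg _) (Finset.sum_nonneg fun _ _ => Finset.sum_nonneg fun _ _ => sq_nonneg _)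
  rw [inv_le_iff_one_le_mul₀ (pow_pos (by linarith) _), mul_comm]
  exact h.trans (mul_le_mul_of_nonneg_right hb h0)

end

end Vale.Agent.P205.Bridge
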